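import Vale.Agent.P354YA.Nat
import Vale.Agent.P354YN.Smo
import Vale.Agent.P354YN.Jet
import Vale.Agent.P354YT.Cut
import Vale.Agent.P354YR.Nf
import Vale.Agent.P354XV.Loc

/-!
NIS: the gauge is smooth and natural.
-/

open scoped ContDiff
open Set Filter Topology Matrix

noncomputable section

namespace Vale.Agent.P354YA

open Vale.Agent.P354n (R4)
open Vale.Agent.P354I (rm rp)
open Vale.Agent.P354R (Pull Del)
open Vale.Agent.P354RC (bs)
open Vale.Agent.P354XE (Tw gin rd eT Lo Om)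
open Vale.Agent.P354XV (Jet jet Lv Sig)
open Vale.Agent.P354YN
open Vale.Agent.P354YR (s_rd xs_ne rd_cont)
open Vale.Agent.P354YT (Pm al bp st_cd al_cd bp_cd)
open Real (smoothTransition)

variable {c : Pm} {κ d : ℝ} {p : R4}

theorem tp_cd : ContDiff ℝ ∞ tp := st_cd.comp (by fun_prop)
theorem cp_cd : ContDiff ℝ ∞ cp := (contDiff_const.sub tp_cd).mul (st_cd.comp (by fun_prop))
theorem tp_one (h : d ≤ 3 / 4) : tp d = 1 := smoothTransition.one_of_one_le (by linarith)
theorem tp_zero (h : 1 ≤ d) : tp d = 0 := smoothTransition.zero_of_nonpos (by linarith)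
theorem cp_lo (h : d ≤ 3 / 4) : cp d = 0 := by rw [cp, tp_one h, sub_self, zero_mul]
theorem cp_hi (h : 7 / 4 ≤ d) : cp d = 0 := by
  rw [cp, smoothTransition.zero_of_nonpos (by linarith), mul_zero]
theorem cp_mid (h : d ≤ 5 / 4) : cp d = 1 - tp d := by
  rw [cp, smoothTransition.one_of_one_le (by linarith), mul_one]

theorem dd_cont (c : Pm) : Continuous (dd c) := rd_cont.sub continuous_const

/-- The acceleration vanishes far from the tube. -/
theorem Fa_far (h : 7 / 4 ≤ |dd c p|) (x : A4) : Fa c p x = 0 := by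
  rcases le_abs.1 h with k | k
  · simp [Fa, tp_zero (show 1 ≤ dd c p by linarith), cp_hi k,
      cp_lo (show -dd c p ≤ 3 / 4 by linarith)]
  · simp [Fa, tp_zero (show 1 ≤ -dd c p by linarith), cp_hi k,
      cp_lo (show dd c p ≤ 3 / 4 by linarith)]

theorem Ok2.out (h : Ok2 c) (k : -9 ≤ dd c p) : rp c.M c.a < rd p ∧ 0 < rd p := by
  have := h.1.M0
  have := h.2
  simp only [dd] at k
  exact ⟨P354YT.rp_lt h.1.sub (by linarith), by linarith⟩

theorem rd_at (h : 0 < rd p) : ContDiffAt ℝ ∞ rd p := s_rd contDiffAt_id (xs_ne h)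

theorem Lo_at {M a : ℝ} (h : |a| < M) (k : rp M a < rd p) (o : 0 < rd p) :
    ContDiffAt ℝ ∞ (Lo M a) p := by
  have r := rd_at o
  have D : ContDiffAt ℝ ∞ (fun p => Del M a (rd p)) p :=
    (P354YT.Del_cd M a).contDiffAt.comp p r
  have n := (P354YT.Del_pos h k).ne'
  refine (((((r.pow 2).add contDiffAt_const).const_smul (2 : ℝ)).div D n).sub
    contDiffAt_const).prodMk ((r.inv o.ne').smul contDiffAt_snd) |>.add
      ((contDiffAt_const.div D n).smul ?_)
  show ContDiffAt ℝ ∞ (fun p : R4 => ((0, -p.2.2.1, p.2.1, 0) : R4)) p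
  fun_prop

theorem No_at (o : 0 < rd p) : ContDiffAt ℝ ∞ P354YT.No p :=
  contDiffAt_const.prodMk (((rd_at o).inv o.ne').neg.smul contDiffAt_snd)

theorem ca_at (o : 0 < rd p) : ContDiffAt ℝ ∞ (ca c) p :=
  (al_cd.comp Pm.xi_cd).contDiffAt.comp p (rd_at o)
theorem cl_at (o : 0 < rd p) : ContDiffAt ℝ ∞ (cl c) p :=
  (bp_cd.comp Pm.xi_cd).contDiffAt.comp p (rd_at o)
theorem cn_at (o : 0 < rd p) : ContDiffAt ℝ ∞ (cn c) p :=
  (bp_cd.comp Pm.xi_cd.neg).contDiffAt.comp p (rd_at o)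

theorem X_eq (c : Pm) (p : R4) :
    c.X p = ca c p • eT + cl c p • Lo c.M c.a p + cn c p • P354YT.No p := rfl

theorem X_at (h : |c.a| < c.M) (k : rp c.M c.a < rd p) (o : 0 < rd p) : ContDiffAt ℝ ∞ c.X p :=
  (((ca_at o).smul contDiffAt_const).add ((cl_at o).smul (Lo_at h k o))).add
    ((cn_at o).smul (No_at o))

theorem d0_pos : 0 < d0 := ph_ex.choose_spec.choose_spec.1

theorem slit_of {z : ℂ} (k : 0 < κ) (h : κ ≤ ‖z‖ + z.re) : z ∈ Complex.slitPlane := by
  by_contra n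
  obtain ⟨a, b⟩ := not_or.1 n
  have := Complex.norm_le_abs_re_add_abs_im z
  rw [not_not.1 b, abs_zero, abs_of_nonpos (not_lt.1 a)] at this
  linarith

theorem Mq.u2 {x : A3} (h : Mq κ x) (k : 0 < κ) (m : 0 < x.1) : (x.1, tr x.2.1) ∈ U2 := by
  have a := h.iS
  have b := min_le_left d0 (1 / 4)
  have e := min_le_right d0 (1 / 4)
  have := d0_pos
  exact ⟨m, h.det, norm_pos_iff.1 (k.trans_le h.iJ), mem_ball_iff_norm.2 (by linarith),
    by linarith, slit_of k h.la⟩

theorem Mq.u3 {x : A3} (h : Mq κ x) (k : 0 < κ) (m : 0 < x.1) : x ∈ U3 :=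
  ⟨h.u2 k m, slit_of k h.qJ, k.trans_le h.mu⟩

theorem le_cl {X : Type} [TopologicalSpace X] {s : Set X} {x : X} {f g : X → ℝ}
    (h : x ∈ closure s) (a : ContinuousAt f x) (b : ContinuousAt g x) (e : ∀ y ∈ s, f y ≤ g y) :
    f x ≤ g x := a.continuousWithinAt.closure_le h b.continuousWithinAt e

/-- The margin is closed in the set of nondegenerate jets. -/
theorem mq_cl {x : A3} (h : x ∈ closure {y : A3 | y.1 = x.1 ∧ Mq κ y}) (k : 0 < κ) (m : 0 < x.1)
    (n : (g0 x.2.1).det ≠ 0) : Mq κ x := by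
  have w : MS (fun y : A3 => WJ (tr y.2.1)) x := (SA.tr j3).wj n
  have h1 : (g0 x.2.1).det < 0 := lt_of_le_of_ne
    (le_cl h (MS.det (SA.g0 j3)).continuousAt continuousAt_const fun y e => e.2.det.le) n
  have h2 := le_cl h continuousAt_const w.ij.continuousAt.norm fun y e => e.2.iJ
  have j := norm_pos_iff.1 (k.trans_le h2)
  have h3 := le_cl (f := fun y : A3 => ‖iS (WJ (tr y.2.1)) - 1‖) h
    ((w.is j).continuousAt.sub continuousAt_const).norm continuousAt_const fun y e => e.2.iS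
  have b := min_le_left d0 (1 / 4)
  have e := min_le_right d0 (1 / 4)
  have := d0_pos
  have o : Ok (WJ (tr x.2.1)) := ⟨j, mem_ball_iff_norm.2 (by linarith), by linarith⟩
  have s {f : A3 → ℂ} (a : ContinuousAt f x) : ContinuousAt (fun y => ‖f y‖ + (f y).re) x :=
    a.norm.add (Complex.continuous_re.continuousAt.comp a)
  have h4 := le_cl h continuousAt_const (s (f := fun y => -2 * (y.1 : ℂ) / lam (WJ (tr y.2.1)))
    ((continuousAt_const.mul (SA.cx contDiffAt_fst).continuousAt).div (w.la o).continuousAt o.l))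
    fun y e => e.2.la
  have u : (x.1, tr x.2.1) ∈ U2 := ⟨m, h1, j, o.s, o.s1, slit_of k h4⟩
  have h5 := le_cl h continuousAt_const (s (qj_at u).continuousAt) fun y e => e.2.qJ
  exact ⟨h1, h2, h3, h4, h5, le_cl h continuousAt_const
    (mu_at u (slit_of k h5)).continuousAt fun y e => e.2.mu⟩

theorem sig_det {g : Tw} (s : Sig g p) (k : ℕ) : (g0 (jet k g p)).det ≤ 0 := by
  obtain ⟨L, -, -, e⟩ := s
  have : g0 (jet k g p) = (Matrix.of fun a b => co (L (bs a)) b) * Matrix.diagonal ![-1, 1, 1, 1] *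
      (Matrix.of fun a b => co (L (bs a)) b)ᵀ := by
    ext a b
    refine (e (bs a) (bs b)).trans ?_
    simp [Matrix.mul_apply, Fin.sum_univ_four, Matrix.diagonal, co, P354n.mink, P354n.cu, P354n.cv,
      P354n.c1, P354n.c2]
  rw [this, det_mul, det_mul, det_transpose, det_diagonal]
  simp only [Fin.prod_univ_four, cons_val_zero, cons_val_one, cons_val]
  nlinarith [sq_nonneg (Matrix.of fun a b => co (L (bs a)) b).det]

theorem Lv.det {g : Tw} {D : Set R4} (l : Lv g D) (h : p ∈ D) (k : ℕ) :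
    (g0 (jet k g p)).det < 0 := lt_of_le_of_ne (sig_det (l.sig p h) k) (g0_det l.isOpen l.met h k)

/-- The projection to the arguments of the natural fields. -/
def pr3 (c : Pm) (z : R4 × Jet 4 × R4) : A3 := (c.M, tr z.2.1, z.2.2)

theorem pr3_at (z : R4 × Jet 4 × R4) : SA (pr3 c) z :=
  contDiffAt_const.prodMk ((SA.tr contDiffAt_snd.fst).prodMk contDiffAt_snd.snd)

theorem pr3_cont : Continuous (pr3 c) := continuous_iff_continuousAt.2 fun z => (pr3_at z).continuousAt

theorem F_at (h : Ok2 c) {z : R4 × Jet 4 × R4} (hz : z ∈ (nat c κ).U) : SA (nat c κ).F z := by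
  by_cases k : 7 / 4 < |dd c z.1|
  · refine (contDiffAt_const (c := (0 : R4))).congr_of_eventuallyEq ?_
    filter_upwards [continuousAt_const.eventually_lt
      ((dd_cont c).comp continuous_fst).abs.continuousAt k] with y hy using Fa_far hy.le _
  have u : dn (c.M, z.2) ∈ U3 := hz.resolve_left k
  obtain ⟨o1, o⟩ := h.out (p := z.1) (by linarith [(abs_le.1 (not_lt.1 k)).1])
  have a : SA (fun y : R4 × Jet 4 × R4 => ((c.M, y.2) : A4)) z :=
    contDiffAt_const.prodMk contDiffAt_snd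
  have b : SA (fun y : R4 × Jet 4 × R4 => y.2.2) z := contDiffAt_snd.snd
  have f {φ : R4 → ℝ} (e : SA φ z.1) : SA (fun y : R4 × Jet 4 × R4 => φ y.1) z :=
    e.comp z contDiffAt_fst
  have f' {φ : R4 → ℝ} (e : SA φ z.1) :
      SA (fun y : R4 × Jet 4 × R4 => fderiv ℝ φ y.1 (c.X y.1)) z :=
    f ((e.fderiv_right (m := ∞) (by simp)).clm_apply (X_at h.1.sub o1 o))
  have dd1 : SA (dd c) z.1 := (rd_at o).sub contDiffAt_const
  have g {F : A3 → R4} (e : SA F (dn (c.M, z.2))) :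
      SA (fun y : R4 × Jet 4 × R4 => F (dn (c.M, y.2))) z := e.comp z (dn_at a)
  have l := lj_at u
  have n := nj_at u
  have w := zj_at u
  exact (((f ((tp_cd.contDiffAt.comp _ dd1).mul (tp_cd.contDiffAt.comp _ dd1.neg))).smul
    (((((f (ca_at o)).smul (nab_at a u w b)).add ((f (cl_at o)).smul (nab_at a u l b))).add
      ((f (cn_at o)).smul (nab_at a u n b))).add ((((f' (ca_at o)).smul (g w)).add
        ((f' (cl_at o)).smul (g l))).add ((f' (cn_at o)).smul (g n))))).add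
    ((f (cp_cd.contDiffAt.comp _ dd1)).smul (aj_at a u l n b))).add
    ((f (cp_cd.contDiffAt.comp _ dd1.neg)).smul (aj_at a u n l b))

theorem nis (hN : NATU) : NIS := by
  intro c h κ k
  have m := h.1.M0
  refine ⟨(isOpen_lt continuous_const ((dd_cont c).comp continuous_fst).abs).union
    (u3_open.preimage pr3_cont), fun z hz => hz.imp (fun e => by linarith) fun e => e.u3 k m,
    fun z hz n => ?_, fun z hz => (F_at h hz).contDiffWithinAt, ?_⟩
  · refine (lt_or_ge (7 / 4) |dd c z.1|).imp id fun e => Mq.u3 (mq_cl ?_ k m n) k m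
    have o : IsOpen {y : R4 × Jet 4 × R4 | |dd c y.1| < 2} :=
      isOpen_lt ((dd_cont c).comp continuous_fst).abs continuous_const
    refine map_mem_closure (f := pr3 c) (x := z) pr3_cont
      (o.inter_closure ⟨show |dd c z.1| < 2 by linarith, hz⟩) fun y hy => ?_
    exact ⟨rfl, hy.2.resolve_left (not_le.2 hy.1)⟩
  intro f g' D' g D P l x hx hd p w
  obtain ⟨e1, e2, -, e3, e4⟩ := hN c.M f g' D' g D x w P l hx hd
  have q (a : Ad c.M g' w x) : Mq κ (c.M, jet 3 g' x, w) ↔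
      Mq κ (c.M, jet 3 g (f x), fderiv ℝ f x w) := by
    have s : iS (WJ (jet 2 g' x)) = iS (WJ (jet 2 g (f x))) := by rw [iS, iS, e1, e2]
    have t : lam (WJ (jet 2 g' x)) = lam (WJ (jet 2 g (f x))) := by rw [lam, lam, e1, e2, s]
    obtain ⟨a1, a2, -⟩ := e4 a
    let s2 (y : ℂ) : ℝ := ‖y‖ + y.re
    exact ⟨fun b => ⟨Lv.det l (P.maps hx) 3, b.iJ.trans_eq (congrArg norm e2),
      (congrArg (fun y => ‖y - 1‖) s).ge.trans b.iS,
      b.la.trans_eq (congrArg (fun y => s2 (-2 * (c.M : ℂ) / y)) t),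
      b.qJ.trans_eq (congrArg s2 a1), b.mu.trans_eq a2⟩,
      fun b => ⟨Lv.det (l.pull P) hx 3, b.iJ.trans_eq (congrArg norm e2.symm),
      (congrArg (fun y => ‖y - 1‖) s).le.trans b.iS,
      b.la.trans_eq (congrArg (fun y => s2 (-2 * (c.M : ℂ) / y)) t.symm),
      b.qJ.trans_eq (congrArg s2 a1.symm), b.mu.trans_eq a2.symm⟩⟩
  refine ⟨or_congr_right e3, or_congr_right ⟨fun b => (q (b.u3 k m)).1 b,
    fun b => (q (e3.2 (b.u3 k m))).2 b⟩, fun hz => ?_⟩
  show fderiv ℝ f x (Fa c p (c.M, jet 4 g' x, w)) = Fa c p (c.M, jet 4 g (f x), fderiv ℝ f x w)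
  rcases hz with e | e
  · rw [Fa_far e.le, Fa_far e.le, map_zero]
  obtain ⟨-, -, a1, a2, a3, a4, a5⟩ := e4 e
  simp only [Fa, Fy, map_add, map_smul]
  rw [a4 lJ (by simp), a4 nJ (by simp), a4 zJ (by simp)]
  exact congrArg₂ _ (congrArg₂ _ (congrArg _ (congrArg _ (congrArg₂ _ (congrArg₂ _
    (congrArg _ a3) (congrArg _ a1)) (congrArg _ a2)))) (congrArg _ (a5 w).1)) (congrArg _ (a5 w).2)

end Vale.Agent.P354YA
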