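import Mathlib

/-!
The continuity argument and the iteration of the continuation step, in abstract form.
-/

open Set Filter Topology

namespace Vale.Agent.P354YA

section Iter

variable {E T : Type*} {R : ℝ → Set E} {St : ℝ → (E → T) → Prop}

/-- A family of states on a growing family of regions, with a continuation step whose length is
uniform for bounded times. -/
structure Grow (R : ℝ → Set E) (St : ℝ → (E → T) → Prop) : Prop where
  mono : Monotone R
  restr : ∀ V V' s, V' ≤ V → St V s → St V' s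
  congr : ∀ V s s', EqOn s' s (R V) → St V s → St V s'
  step : ∀ V1, ∃ δ > 0, ∀ V ≤ V1, ∀ s, St V s → ∃ s', St (V + δ) s' ∧ EqOn s' s (R (V - 1))

theorem Grow.reach (h : Grow R St) {V : ℝ} {s : E → T} (hs : St V s) (W : ℝ) :
    ∃ s', St W s' ∧ EqOn s' s (R (V - 1)) := by
  obtain ⟨δ, hδ, H⟩ := h.step W
  have key : ∀ n : ℕ, ∃ s', St (min W (V + n * δ)) s' ∧ EqOn s' s (R (V - 1)) := by
    intro n
    induction n with
    | zero => exact ⟨s, h.restr _ _ _ (by simp) hs, fun _ _ => rfl⟩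
    | succ n ih =>
      obtain ⟨s1, h1, e1⟩ := ih
      rcases le_total W (V + n * δ) with hW | hW
      · refine ⟨s1, h.restr _ _ _ ?_ h1, e1⟩
        rw [min_eq_left hW]
        exact min_le_left _ _
      · rw [min_eq_right hW] at h1
        obtain ⟨s2, h2, e2⟩ := H _ hW s1 h1
        refine ⟨s2, h.restr _ _ _ ?_ h2, fun p hp => ?_⟩
        · refine (min_le_right _ _).trans (le_of_eq ?_)
          push_cast
          ring
        · have : V - 1 ≤ V + n * δ - 1 := by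
            have : 0 ≤ (n : ℝ) * δ := by positivity
            linarith
          rw [e2 (h.mono this hp), e1 hp]
  obtain ⟨n, hn⟩ := exists_nat_ge ((W - V) / δ)
  obtain ⟨s', h1, e1⟩ := key n
  refine ⟨s', h.restr _ _ _ ?_ h1, e1⟩
  refine le_min le_rfl ?_
  rw [div_le_iff₀ hδ] at hn
  linarith

/-- A state for all times. -/
theorem Grow.all (h : Grow R St) {V0 : ℝ} {s0 : E → T} (hs : St V0 s0) :
    ∃ s, (∀ V, St V s) ∧ EqOn s s0 (R (V0 - 1)) := by
  classical
  have step : ∀ (n : ℕ) (s : {s // St (V0 + n) s}), ∃ s' : {s // St (V0 + (n + 1 : ℕ)) s},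
      EqOn s'.1 s.1 (R (V0 + n - 1)) := fun n s => by
    obtain ⟨s', h1, e1⟩ := h.reach s.2 (V0 + (n + 1 : ℕ))
    exact ⟨⟨s', h1⟩, e1⟩
  choose nx hnx using step
  let sq : (n : ℕ) → {s // St (V0 + n) s} := fun n =>
    Nat.rec (motive := fun n => {s // St (V0 + n) s}) ⟨s0, by simpa using hs⟩ nx n
  have e1 : ∀ n, EqOn (sq (n + 1)).1 (sq n).1 (R (V0 + n - 1)) := fun n => hnx n (sq n)
  have e2 : ∀ n m, n ≤ m → EqOn (sq m).1 (sq n).1 (R (V0 + n - 1)) := by
    intro n m hm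
    induction m, hm using Nat.le_induction with
    | base => exact fun _ _ => rfl
    | succ m hm ih =>
      intro p hp
      have : V0 + n - 1 ≤ V0 + m - 1 := by
        have : (n : ℝ) ≤ m := by exact_mod_cast hm
        linarith
      rw [e1 m (h.mono this hp), ih hp]
  let s : E → T := fun p =>
    if hp : ∃ n : ℕ, p ∈ R (V0 + n - 1) then (sq (Nat.find hp)).1 p else s0 p
  have e3 : ∀ n : ℕ, EqOn s (sq n).1 (R (V0 + n - 1)) := by
    intro n p hp
    have hp' : ∃ n : ℕ, p ∈ R (V0 + n - 1) := ⟨n, hp⟩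
    simp only [s, dif_pos hp']
    exact (e2 _ _ (Nat.find_min' hp' hp) (Nat.find_spec hp')).symm
  refine ⟨s, fun V => ?_, fun p hp => ?_⟩
  · obtain ⟨n, hn⟩ := exists_nat_ge (V - V0 + 1)
    have h1 : St V (sq n).1 := h.restr _ _ _ (by linarith) (sq n).2
    exact h.congr _ _ _ (fun p hp => e3 n (h.mono (by linarith) hp)) h1
  · exact e3 0 (by simpa using hp)

/-- The same without a uniform step: the step keeps the state on the whole region. -/
structure Grow' (R : ℝ → Set E) (St : ℝ → (E → T) → Prop) : Prop where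
  mono : Monotone R
  restr : ∀ V V' s, V' ≤ V → St V s → St V' s
  congr : ∀ V s s', EqOn s' s (R V) → St V s → St V s'
  lim : ∀ V s, (∀ V' < V, St V' s) → St V s
  step : ∀ V s, St V s → ∃ V' > V, ∃ s', St V' s' ∧ EqOn s' s (R V)

/-- A state for all times, by the lemma of Zorn. -/
theorem Grow'.all (h : Grow' R St) {V0 : ℝ} {s0 : E → T} (hs : St V0 s0) :
    ∃ s, (∀ V, St V s) ∧ EqOn s s0 (R V0) := by
  classical
  by_contra hc
  push Not at hc
  let P := {x : ℝ × (E → T) // St x.1 x.2 ∧ V0 ≤ x.1 ∧ EqOn x.2 s0 (R V0)}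
  let r : P → P → Prop := fun x y => x = y ∨ (x.1.1 < y.1.1 ∧ EqOn y.1.2 x.1.2 (R x.1.1))
  have tr : ∀ {x y z : P}, r x y → r y z → r x z := by
    rintro x y z (rfl | ⟨h1, e1⟩) (rfl | ⟨h2, e2⟩)
    · exact Or.inl rfl
    · exact Or.inr ⟨h2, e2⟩
    · exact Or.inr ⟨h1, e1⟩
    · exact Or.inr ⟨h1.trans h2, fun p hp => by rw [e2 (h.mono h1.le hp), e1 hp]⟩
  have ub : ∀ c : Set P, IsChain r c → ∃ u, ∀ x ∈ c, r x u := by
    intro c hch
    by_cases hm : ∃ u ∈ c, ∀ x ∈ c, x.1.1 ≤ u.1.1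
    · obtain ⟨u, hu, H⟩ := hm
      refine ⟨u, fun x hx => ?_⟩
      by_cases e : x = u
      · exact Or.inl e
      · rcases hch hx hu e with h1 | h1 | h1
        · exact h1
        · exact absurd h1.symm e
        · exact absurd (H x hx) (not_le.2 h1.1)
    push Not at hm
    rcases c.eq_empty_or_nonempty with rfl | ⟨x0, hx0⟩
    · exact ⟨⟨(V0, s0), hs, le_rfl, fun _ _ => rfl⟩, fun _ hx => hx.elim⟩
    let s : E → T := fun p => if hp : ∃ x ∈ c, p ∈ R x.1.1 then hp.choose.1.2 p else s0 p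
    have es : ∀ x ∈ c, EqOn s x.1.2 (R x.1.1) := by
      intro x hx p hp
      have hp' : ∃ x ∈ c, p ∈ R x.1.1 := ⟨x, hx, hp⟩
      simp only [s, dif_pos hp']
      obtain ⟨hy, hpy⟩ := hp'.choose_spec
      by_cases e : hp'.choose = x
      · rw [e]
      · rcases hch hy hx e with (h1 | h1) | h1 | h1
        · rw [h1]
        · exact (h1.2 hpy).symm
        · rw [← h1]
        · exact h1.2 hp
    have st : ∀ x ∈ c, St x.1.1 s := fun x hx => h.congr _ _ _ (es x hx) x.2.1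
    have e0 : EqOn s s0 (R V0) := fun p hp => by
      rw [es x0 hx0 (h.mono x0.2.2.1 hp), x0.2.2.2 hp]
    by_cases hb : BddAbove ((fun x : P => x.1.1) '' c)
    · set V := sSup ((fun x : P => x.1.1) '' c) with hV
      have le : ∀ x ∈ c, x.1.1 ≤ V := fun x hx => le_csSup hb ⟨x, hx, rfl⟩
      have sV : St V s := h.lim _ _ fun V' hV' => by
        obtain ⟨_, ⟨x, hx, rfl⟩, hlt⟩ :=
          exists_lt_of_lt_csSup (Set.Nonempty.image (fun x : P => x.1.1) ⟨x0, hx0⟩) hV'
        exact h.restr _ _ _ hlt.le (st x hx)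
      refine ⟨⟨(V, s), sV, x0.2.2.1.trans (le x0 hx0), e0⟩, fun x hx => Or.inr ⟨?_, es x hx⟩⟩
      obtain ⟨y, hy, hlt⟩ := hm x hx
      exact hlt.trans_le (le y hy)
    · refine absurd e0 (hc s fun V => ?_)
      obtain ⟨_, ⟨x, hx, rfl⟩, hlt⟩ := not_bddAbove_iff.1 hb V
      exact h.restr _ _ _ hlt.le (st x hx)
  obtain ⟨m, hm⟩ := exists_maximal_of_chains_bounded ub tr
  obtain ⟨V', hV', s', h1, e1⟩ := h.step _ _ m.2.1
  have e2 : EqOn s' s0 (R V0) := fun p hp => by rw [e1 (h.mono m.2.2.1 hp), m.2.2.2 hp]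
  rcases hm ⟨(V', s'), h1, m.2.2.1.trans hV'.le, e2⟩ (Or.inr ⟨hV', e1⟩) with h2 | h2
  · exact absurd (congrArg (fun x : P => x.1.1) h2) hV'.ne'
  · exact absurd h2.1 (not_lt.2 hV'.le)

end Iter

section Boot

variable {E : Type*} [TopologicalSpace E]

/-- The continuity argument. A is the set on which the assumption B is made, B' is the improved
form, and τ is the time function. -/
theorem boot {A : Set E} {τ : E → ℝ} {B B' : E → Prop} {V : ℝ}
    (cpt : ∀ W < V, IsCompact {p | p ∈ A ∧ τ p ≤ W}) (cont : ContinuousOn τ A)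
    (low : ∀ p ∈ A, τ p < V → B' p ∨ p ∈ closure {q | q ∈ A ∧ τ q < τ p})
    (opn : ∀ p ∈ A, τ p < V → p ∈ closure {q | q ∈ A ∧ B' q} → ∀ᶠ q in 𝓝[A] p, B q)
    (apri : ∀ W < V, (∀ p ∈ A, τ p < W → B p) → ∀ p ∈ A, τ p < W → B' p) :
    ∀ p ∈ A, τ p < V → B p := by
  by_contra hc
  push Not at hc
  obtain ⟨p1, a1, t1, b1⟩ := hc
  set K := {p | p ∈ A ∧ τ p ≤ τ p1} with hK
  have cK : IsCompact K := cpt _ t1
  set Z := {p | p ∈ K ∧ ¬ B p} with hZ
  have cZ : IsCompact (K ∩ closure Z) := cK.inter_right isClosed_closure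
  have n1 : p1 ∈ K ∩ closure Z := ⟨⟨a1, le_rfl⟩, subset_closure ⟨⟨a1, le_rfl⟩, b1⟩⟩
  obtain ⟨p, ⟨⟨ap, tp⟩, zp⟩, hmin⟩ :=
    cZ.exists_isMinOn ⟨p1, n1⟩ (cont.mono fun q hq => hq.1.1)
  have tV : τ p < V := tp.trans_lt t1
  have hB : ∀ q ∈ A, τ q < τ p → B q := by
    intro q aq tq
    by_contra bq
    have kq : q ∈ K := ⟨aq, tq.le.trans tp⟩
    have zq : q ∈ Z := ⟨kq, bq⟩
    have mq : q ∈ K ∩ closure Z := ⟨kq, subset_closure zq⟩
    exact absurd (hmin mq) (not_le.2 tq)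
  have hB' := apri _ tV hB
  have cl : p ∈ closure {q | q ∈ A ∧ B' q} := by
    rcases low p ap tV with h | h
    · exact subset_closure ⟨ap, h⟩
    · refine closure_mono (fun q hq => ?_) h
      exact And.intro hq.1 (hB' q hq.1 hq.2)
  have ev := opn p ap tV cl
  rw [eventually_nhdsWithin_iff] at ev
  obtain ⟨q, hq, zq⟩ := ((mem_closure_iff_frequently.1 zp).and_eventually ev).exists
  exact hq.2 (zq hq.1.1)

/-- Two continuous functionals, the second one being continuous where the first one is small. -/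
theorem opn_of {A : Set E} {f0 f1 : E → ℝ} {p : E} {c : ℝ} (hc : c < 1)
    (h0 : ContinuousWithinAt f0 A p) (h1 : f0 p ≤ c → ContinuousWithinAt f1 A p)
    (cl : p ∈ closure {q | q ∈ A ∧ f0 q ≤ c ∧ f1 q ≤ c}) :
    ∀ᶠ q in 𝓝[A] p, f0 q ≤ 1 ∧ f1 q ≤ 1 := by
  have sub : {q | q ∈ A ∧ f0 q ≤ c ∧ f1 q ≤ c} ⊆ A := fun _ h => h.1
  have e0 : f0 p ≤ c :=
    (h0.mono sub).closure_le cl continuousWithinAt_const fun _ h => h.2.1
  have e1 : f1 p ≤ c :=
    ((h1 e0).mono sub).closure_le cl continuousWithinAt_const fun _ h => h.2.2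
  exact ((h0.eventually (gt_mem_nhds (e0.trans_lt hc))).and
    ((h1 e0).eventually (gt_mem_nhds (e1.trans_lt hc)))).mono fun _ h => ⟨h.1.le, h.2.le⟩

end Boot

end Vale.Agent.P354YA
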