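import Vale.Agent.P354XV.Defs
import Vale.Agent.P354YO.Patch
import Vale.Agent.P354YA.Abs

/-!
Level L1 for one end, in abstract form: the continuation criterion and the a priori estimate give
a state for all times.
-/

open scoped ContDiff
open Set Filter Topology

noncomputable section

namespace Vale.Agent.P354YA

open Vale.Agent.P354n (R4)
open Vale.Agent.P354R (Met Vac chr)
open Vale.Agent.P354RC (Rp rp_of_met)
open Vale.Agent.P354XE (Tw)
open Vale.Agent.P354XV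

variable {g g' gc : Tw} {D D' : Set R4} {N : P354XV.Nat} {S : Sc} {V V' : ℝ} {p x : R4} {Y : R4 → R4}

theorem lv_mono (l : Lv g D) (h : IsOpen D') (s : D' ⊆ D) : Lv g D' :=
  ⟨h, ⟨fun y hy => l.met.lin y (s hy), fun y hy => l.met.symm y (s hy),
    fun y hy => l.met.nondeg y (s hy), fun a b => (l.met.smooth a b).mono s⟩,
    l.vac.imp fun _ k y hy => k y (s hy), fun y hy => l.sig y (s hy)⟩

theorem lv_local (hD : IsOpen D) (h : ∀ p ∈ D, ∃ g' D', Lv g' D' ∧ p ∈ D' ∧ g =ᶠ[𝓝 p] g') :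
    Lv g D := by
  have m : Met g D := by
    refine ⟨fun y hy => ?_, fun y hy => ?_, fun y hy => ?_, fun a b y hy => ?_⟩ <;>
      obtain ⟨g', D', l, hy', e⟩ := h y hy
    · rw [e.eq_of_nhds]; exact l.met.lin y hy'
    · rw [e.eq_of_nhds]; exact l.met.symm y hy'
    · rw [e.eq_of_nhds]; exact l.met.nondeg y hy'
    · exact (((l.met.smooth a b).contDiffAt (l.isOpen.mem_nhds hy')).congr_of_eventuallyEq
        (e.mono fun z hz => by rw [hz])).contDiffWithinAt
  refine ⟨hD, m, ?_, fun y hy => ?_⟩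
  · obtain ⟨k, r⟩ := rp_of_met hD m
    refine r.vac.2 fun y hy => ?_
    obtain ⟨g', D', l, hy', e⟩ := h y hy
    obtain ⟨O, hO, oO, yO⟩ := mem_nhds_iff.1 (inter_mem (inter_mem (hD.mem_nhds hy)
      (l.isOpen.mem_nhds hy')) e)
    have r1 := r.mono oO fun z hz => (hO hz).1.1
    have r2 : Rp g' k O := ⟨oO, fun z hz a b => by
      rw [← r1.eq z hz, show g z = g' z from (hO hz).2], r1.sm, r1.symm, r1.nd⟩
    exact r2.vac.1 (lv_mono l oO fun z hz => (hO hz).1.2).vac y yO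
  · obtain ⟨g', D', l, hy', e⟩ := h y hy
    obtain ⟨L, h1, h2, h3⟩ := l.sig y hy'
    exact ⟨L, h1, h2, by rwa [e.eq_of_nhds]⟩

theorem jet_congr (m : ℕ) (e : g =ᶠ[𝓝 x] g') : jet m g x = jet m g' x := by
  funext k α i j
  have e' : (fun z => g z (P354RC.bs i) (P354RC.bs j)) =ᶠ[𝓝 x]
      fun z => g' z (P354RC.bs i) (P354RC.bs j) := e.mono fun z hz => by simp only [hz]
  simp only [jet, (e'.iteratedFDeriv ℝ k).eq_of_nhds]

theorem chr_congr (e : g =ᶠ[𝓝 x] g') (a b c : R4) : chr g x a b c = chr g' x a b c := by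
  have k : ∀ u v w, lineDeriv ℝ (fun z => g z u v) x w = lineDeriv ℝ (fun z => g' z u v) x w :=
    fun u v w => EventuallyEq.lineDeriv_eq (e.mono fun z hz => by simp only [hz])
  simp only [chr, P354n.deriv, k]

theorem gq_congr (e : g =ᶠ[𝓝 x] g') (h : Gq N p g Y x) : Gq N p g' Y x := by
  simp only [Gq, ← jet_congr N.m e, ← chr_congr e, ← e.eq_of_nhds]
  exact h

theorem om_open (s : S.Is) (V : ℝ) : IsOpen (S.Om V) := by
  have e : S.Om V = (S.O ∩ S.tau ⁻¹' Iio V) ∪ (S.O ∩ S.psi ⁻¹' Iio 0) := by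
    ext p
    exact and_or_left
  rw [e]
  exact (s.smt.continuousOn.isOpen_inter_preimage s.opn isOpen_Iio).union
    (s.smp.continuousOn.isOpen_inter_preimage s.opn isOpen_Iio)

theorem om_mono (S : Sc) : Monotone S.Om := fun _ _ h _ hp =>
  ⟨hp.1, hp.2.imp_left fun k => k.trans_le h⟩

theorem st_restr (s : S.Is) (h : V' ≤ V) (t : St N S gc V g) : St N S gc V' g :=
  ⟨lv_mono t.lv (om_open s V') (om_mono S h), fun p hp => t.gau p (om_mono S h hp), t.col⟩

theorem st_congr (s : S.Is) (e : EqOn g' g (S.Om V)) (t : St N S gc V g) : St N S gc V g' := by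
  have k : ∀ p ∈ S.Om V, g' =ᶠ[𝓝 p] g := fun p hp =>
    mem_of_superset ((om_open s V).mem_nhds hp) e
  exact ⟨lv_local (om_open s V) fun p hp => ⟨g, _, t.lv, hp, k p hp⟩,
    fun p hp => gq_congr (k p hp).symm (t.gau p hp),
    fun p hp => (e ⟨hp.1, Or.inr hp.2⟩).trans (t.col hp)⟩

theorem st_lim (s : S.Is) (t : ∀ V' < V, St N S gc V' g) : St N S gc V g := by
  have k : ∀ p ∈ S.Om V, ∃ V' < V, p ∈ S.Om V' := fun p hp => by
    rcases hp.2 with h | h
    · obtain ⟨W, h1, h2⟩ := exists_between h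
      exact ⟨W, h2, hp.1, Or.inl h1⟩
    · exact ⟨V - 1, by linarith, hp.1, Or.inr h⟩
  refine ⟨lv_local (om_open s V) fun p hp => ?_, fun p hp => ?_, (t (V - 1) (by linarith)).col⟩ <;>
    obtain ⟨W, h1, h2⟩ := k p hp
  · exact ⟨g, _, (t W h1).lv, h2, EventuallyEq.rfl⟩
  · exact (t W h1).gau p h2

/-- The metric on the collar is a state. -/
theorem st_init (s : S.Is) (c : Col N S gc) : ∃ V, St N S gc V gc := by
  obtain ⟨b, hb⟩ := (s.cpt 0).bddBelow_image (s.smt.continuousOn.mono fun _ h => h.1)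
  have k : ∀ p ∈ S.Om (min b 0), p ∈ S.Cl 0 := fun p hp => by
    refine ⟨hp.1, hp.2.elim (fun h => ?_) id⟩
    by_contra hn
    have := hb ⟨p, ⟨hp.1, (h.trans_le (min_le_right _ _)).le, by linarith [not_lt.1 hn]⟩, rfl⟩
    exact absurd (h.trans_le (min_le_left _ _)) (not_lt.2 this)
  exact ⟨min b 0, lv_mono c.lv (om_open s _) fun p hp => ⟨hp.1, (k p hp).2.trans one_pos⟩,
    fun p hp => c.gau p (k p hp), fun _ _ => rfl⟩

/-- A state which is gc outside the domain of the scaffold. -/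
def St2 (N : P354XV.Nat) (S : Sc) (gc : Tw) (V : ℝ) (g : Tw) : Prop :=
  St N S gc V g ∧ EqOn g gc S.Oᶜ

theorem st2_of (s : S.Is) (gc g : Tw) : ∃ g', EqOn g' g S.O ∧
    ∀ V, St N S gc V g → St2 N S gc V g' := by
  classical
  have e : EqOn (S.O.piecewise g gc) g S.O := piecewise_eqOn _ _ _
  exact ⟨_, e, fun V t => ⟨st_congr s (e.mono fun _ h => h.1) t, piecewise_eqOn_compl _ _ _⟩⟩

/-- If every state obeys bounds, then there is a state for all times. -/
theorem st_all {k : ℕ} (s : S.Is) (c : Col N S gc)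
    (ct : ∀ V g, St N S gc V g → Bnd k N S V g → ∃ V' > V, ∃ g', St N S gc V' g' ∧
      EqOn g' g (S.Om V)) (b : ∀ V g, St2 N S gc V g → Bnd k N S V g) :
    ∃ g, ∀ V, St2 N S gc V g := by
  have G : Grow' S.Om (St N S gc) := ⟨om_mono S, fun _ _ _ h => st_restr s h,
    fun _ _ _ e => st_congr s e, fun _ _ => st_lim s, fun V g t => by
      obtain ⟨g1, e1, h1⟩ := st2_of (N := N) s gc g
      obtain ⟨V', hV, g', t', e'⟩ := ct V g1 (h1 V t).1 (b V g1 (h1 V t))
      exact ⟨V', hV, g', t', e'.trans (e1.mono fun _ h => h.1)⟩⟩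
  obtain ⟨V0, h0⟩ := st_init s c
  obtain ⟨g, hg, -⟩ := G.all h0
  obtain ⟨g1, -, h1⟩ := st2_of (N := N) s gc g
  exact ⟨g1, fun V => h1 V (hg V)⟩

/-- The state for all times is a vacuum metric on the domain and on the part of W0 in D. -/
theorem st2_lv {W0 : Set R4} (s : S.Is) (t : ∀ V, St2 N S gc V g) (l : Lv gc W0) (hD : IsOpen D)
    (h : ∀ p ∈ D, p ∈ S.O → S.psi p < 0) : EqOn g gc D ∧ Lv g (S.O ∪ W0 ∩ D) := by
  have e : EqOn g gc D := fun p hp => by
    by_cases k : p ∈ S.O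
    exacts [(t 0).1.col ⟨k, h p hp k⟩, (t 0).2 k]
  refine ⟨e, lv_local (s.opn.union (l.isOpen.inter hD)) fun p hp => hp.elim (fun k => ?_) fun k =>
    ⟨gc, W0, l, k.1, mem_of_superset (hD.mem_nhds k.2) e⟩⟩
  exact ⟨g, _, (t (S.tau p + 1)).1.lv, ⟨k, Or.inl (lt_add_one _)⟩, EventuallyEq.rfl⟩

variable {E : Type} [TopologicalSpace E]

/-- The hypotheses of the continuity argument: Z is the region on which the assumption B is made,
σ is its time function, and B' is the improved assumption. -/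
structure Bt (N : P354XV.Nat) (S : Sc) (gc : Tw) (k : ℕ) (Z : Set E) (σ : E → ℝ)
    (B B' : Tw → E → Prop) : Prop where
  cpt : ∀ W, IsCompact {x | x ∈ Z ∧ σ x ≤ W}
  cont : ContinuousOn σ Z
  low : ∀ V g, St N S gc V g → ∀ x ∈ Z, σ x < V → B' g x ∨ x ∈ closure {y | y ∈ Z ∧ σ y < σ x}
  opn : ∀ V g, St N S gc V g → ∀ x ∈ Z, σ x < V → x ∈ closure {y | y ∈ Z ∧ B' g y} →
    ∀ᶠ y in 𝓝[Z] x, B g y
  apri : ∀ V g, St2 N S gc V g → (∀ x ∈ Z, σ x < V → B g x) →
    (∀ x ∈ Z, σ x < V → B' g x) ∧ Bnd k N S V g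

theorem Bt.boot {k : ℕ} {Z : Set E} {σ : E → ℝ} {B B' : Tw → E → Prop} (s : S.Is)
    (b : Bt N S gc k Z σ B B') (t : St2 N S gc V g) : ∀ x ∈ Z, σ x < V → B g x :=
  P354YA.boot (fun W _ => b.cpt W) b.cont (b.low V g t.1) (b.opn V g t.1)
    fun W hW h => (b.apri W g ⟨st_restr s hW.le t.1, t.2⟩ h).1

/-- **L1 for one end.** -/
theorem Bt.all {k : ℕ} {Z : Set E} {σ : E → ℝ} {B B' : Tw → E → Prop} (s : S.Is) (c : Col N S gc)
    (ct : ∀ V g, St N S gc V g → Bnd k N S V g → ∃ V' > V, ∃ g', St N S gc V' g' ∧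
      EqOn g' g (S.Om V)) (b : Bt N S gc k Z σ B B') :
    ∃ g, (∀ V, St2 N S gc V g) ∧ ∀ x ∈ Z, B g x := by
  obtain ⟨g, hg⟩ := st_all s c ct fun V g t => (b.apri V g t (b.boot s t)).2
  exact ⟨g, hg, fun x hx => b.boot s (hg (σ x + 1)) x hx (by linarith)⟩

end Vale.Agent.P354YA
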