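import Vale.Agent.P354YA.Uni
import Vale.Agent.P354YA.One
import Vale.Agent.P354YO.Ob
import Vale.Agent.P354YO.Kru

/-!
The bootstrap assumption and the continuity argument.
-/

open scoped ContDiff
open Set Filter Topology

noncomputable section

namespace Vale.Agent.P354YA

open Vale.Agent.P354n (R4)
open Vale.Agent.P354I (rm)
open Vale.Agent.P354XG (E6)
open Vale.Agent.P354XD (nq pj VacAt tb cd_pj)
open Vale.Agent.P354XE (Tw Bd gin rd eT)
open Vale.Agent.P354XV (Sc St Col Bnd Lv)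
open Vale.Agent.P354YO (Sb sb_gin bd_congr)

/-- The region of the assumption, in the space of unit spinors, and its time function. -/
def Zs (S : Sc) (Rs : ℝ) : Set E6 :=
  {x | nq x = 1 ∧ 0 < x.2.1 ∧ x.2.1 ≤ Rs ∧ pj x ∈ S.O ∧ -1 ≤ S.psi (pj x)}
def sg (S : Sc) (ν : ℝ → ℝ) (x : E6) : ℝ := S.tau (pj x) + ν x.2.1

/-- The assumption at the point x: g is close to Kerr at the low order k, and the jets of order L
of P0 and P4 decay at the rate s. -/
def Bo (M a : ℝ) (k L : ℕ) (s e1 e : ℝ) (g : Tw) (x : E6) : Prop :=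
  Bd k (g - gin M a) (pj x) e1 ∧ eta M a L g x ≤ (e * (1 + |x.1|) ^ (-s)) ^ 2

/-- The assumption below the level V. -/
def Boot (M a : ℝ) (S : Sc) (Rs : ℝ) (ν : ℝ → ℝ) (k L : ℕ) (s e1 e V : ℝ) (g : Tw) : Prop :=
  ∀ x ∈ Zs S Rs, sg S ν x < V → Bo M a k L s e1 e g x

/-- SMV: the transverse frame is defined for metrics close to Kerr. -/
def SMV : Prop := ∀ M a r1 Rs : ℝ, |a| < M → rm M a < r1 → ∃ c > 0, ∀ g (x : E6), nq x = 1 →
  r1 ≤ x.2.1 → x.2.1 ≤ Rs → VacAt g (pj x) → Bd 2 (g - gin M a) (pj x) c → x ∈ KU M a g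

/-- SMD: the jets of P0 and P4 are small for metrics close to Kerr. -/
def SMD : Prop := ∀ (M a r1 Rs : ℝ) (n : ℕ), |a| < M → rm M a < r1 → ∃ m C, ∃ c > 0,
  ∀ g (x : E6) d, nq x = 1 → r1 ≤ x.2.1 → x.2.1 ≤ Rs → VacAt g (pj x) → d ≤ c →
    Bd m (g - gin M a) (pj x) d → eta M a n g x ≤ (C * d) ^ 2

/-- What is used of the scaffold. -/
structure Tm (S : Sc) (r1 Rs T0 : ℝ) (ν : ℝ → ℝ) : Prop where
  is : S.Is
  rad : ∀ p ∈ S.O, r1 ≤ rd p
  dt : ∀ p ∈ S.O, 0 < fderiv ℝ S.tau p eT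
  col : ∀ p ∈ S.O, rd p ≤ Rs → -1 ≤ S.psi p → S.psi p < 0 → |p.1| ≤ T0
  cont : Continuous ν
  nn : ∀ r, 0 ≤ ν r

variable {h g : Tw} {p : R4} {k L : ℕ} {c c' M a r1 Rs T0 s e1 e V : ℝ} {S : Sc} {ν : ℝ → ℝ}
  {x : E6}

theorem bd_ev (b : Sb h p) (H : Bd k h p c) (hc : c < c') : ∀ᶠ q in 𝓝 p, Bd k h q c' := by
  have t : ∀ j : ℕ, (j : ℕ∞ω) ≤ ∞ := fun j => by exact_mod_cast le_top
  have e1 : ∀ᶠ q in 𝓝 p, ∀ j : Fin (k + 1),
      ‖iteratedFDeriv ℝ j (tb h) q - iteratedFDeriv ℝ j (tb h) p‖ < c' - c :=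
    eventually_all.2 fun j => (((b.cd.continuousAt_iteratedFDeriv (t j)).sub
      continuousAt_const).norm.eventually_lt_const (by simpa using hc))
  have key : ∀ q, ContDiffAt ℝ k (tb h) q → (∀ᶠ y in 𝓝 q, P354.Bilin (h y)) → ∀ j ≤ k, ∀ v w m,
      iteratedFDeriv ℝ j (fun x => h x v w) q m = iteratedFDeriv ℝ j (tb h) q m v w := by
    intro q hq hb j hj v w m
    have e : (fun x => h x v w) =ᶠ[𝓝 q] fun x => tb h x v w :=
      hb.mono fun y hy => (P354YO.tb_ap hy v w).symm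
    let T : P354RC.B2 →L[ℝ] ℝ := (ContinuousLinearMap.apply ℝ ℝ w).comp
      (ContinuousLinearMap.apply ℝ (R4 →L[ℝ] ℝ) v)
    rw [(e.iteratedFDeriv ℝ j).eq_of_nhds]
    exact congrArg (fun F => F m) (T.iteratedFDeriv_comp_left hq (by exact_mod_cast hj))
  filter_upwards [e1, (b.cd.of_le (t k)).eventually (by simp), b.bl.eventually_nhds] with
    q h1 h2 h3 j hj v w
  refine ContinuousMultilinearMap.opNorm_le_bound
    (mul_nonneg (le_trans ?_ hc.le) (by positivity)) fun m => ?_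
  · have := H 0 (Nat.zero_le _) eT eT
    have e : ‖eT‖ = 1 := by simp [eT, Prod.norm_def]
    rw [e, mul_one, mul_one] at this
    exact (norm_nonneg _).trans this
  · have k1 := (iteratedFDeriv ℝ j (fun x => h x v w) p).le_of_opNorm_le (H j hj v w) m
    have k2 := (iteratedFDeriv ℝ j (tb h) q - iteratedFDeriv ℝ j (tb h) p).le_of_opNorm_le
      (h1 ⟨j, Nat.lt_succ_of_le hj⟩).le m
    have k3 := ((iteratedFDeriv ℝ j (tb h) q - iteratedFDeriv ℝ j (tb h) p) m).le_of_opNorm₂_le_of_le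
      k2 (le_refl ‖v‖) (le_refl ‖w‖)
    rw [key p (b.cd.of_le (t k)) b.bl j hj] at k1
    rw [key q h2 h3 j hj]
    have e : iteratedFDeriv ℝ j (tb h) q m v w = iteratedFDeriv ℝ j (tb h) p m v w +
        (iteratedFDeriv ℝ j (tb h) q - iteratedFDeriv ℝ j (tb h) p) m v w := by simp
    rw [e]
    exact (norm_add_le_of_le k1 k3).trans_eq (by ring)

theorem bd_cl {E : Type} [TopologicalSpace E] {f : E → R4} {A : Set E} {x : E}
    (b : Sb h (f x)) (hf : ContinuousAt f x) (hx : x ∈ closure A) (H : ∀ y ∈ A, Bd k h (f y) c) :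
    Bd k h (f x) c := fun j hj v w =>
  ((((b.sm v w).continuousAt_iteratedFDeriv (by exact_mod_cast le_top)).comp
    hf).norm.continuousWithinAt).closure_le hx continuousWithinAt_const fun y hy => H y hy j hj v w

theorem sb_vac (v : VacAt g p) : Sb g p := by
  obtain ⟨D, o, hp, m, -⟩ := v
  exact ⟨(o.eventually_mem hp).mono fun _ hy => P354XA.met_bil m hy,
    fun u w => (m.smooth u w).contDiffAt (o.mem_nhds hp)⟩

theorem ne_of_nq (h : nq x = 1) : x.2.2 ≠ 0 := fun e => by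
  simp [nq, e] at h

theorem Zs.rd (hx : x ∈ Zs S Rs) : rd (pj x) = x.2.1 := P354XR.rd_pj hx.2.1 (ne_of_nq hx.1)

theorem Tm.om (T : Tm S r1 Rs T0 ν) (hx : x ∈ Zs S Rs) (hV : sg S ν x < V) : pj x ∈ S.Om V :=
  ⟨hx.2.2.2.1, Or.inl ((le_add_of_nonneg_right (T.nn _)).trans_lt hV)⟩

theorem Tm.cont' (T : Tm S r1 Rs T0 ν) : ContinuousOn (sg S ν) (Zs S Rs) := fun _ hx =>
  (((T.is.smt.continuousOn.continuousAt (T.is.opn.mem_nhds hx.2.2.2.1)).comp
    (cd_pj (ne_of_nq hx.1)).continuousAt).add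
      (T.cont.comp (continuous_fst.comp continuous_snd)).continuousAt).continuousWithinAt

theorem Tm.cpt (T : Tm S r1 Rs T0 ν) (h1 : 0 < r1) (W : ℝ) :
    IsCompact {x | x ∈ Zs S Rs ∧ sg S ν x ≤ W} := by
  have cK := T.is.cpt W
  set K := {p | p ∈ S.O ∧ S.tau p ≤ W ∧ -1 ≤ S.psi p} with hK
  have cn : Continuous nq := by unfold nq; fun_prop
  have c1 : IsClosed ({x : E6 | nq x = 1} ∩ pj ⁻¹' K) :=
    ContinuousOn.preimage_isClosed_of_isClosed
      (fun x hx => (cd_pj (ne_of_nq hx)).continuousAt.continuousWithinAt)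
      (isClosed_eq cn continuous_const) cK.isClosed
  have c2 : IsClosed (({x : E6 | nq x = 1} ∩ pj ⁻¹' K) ∩ {x | x.2.1 ∈ Icc r1 Rs}) :=
    c1.inter (isClosed_Icc.preimage (continuous_fst.comp continuous_snd))
  obtain ⟨B, hB⟩ := cK.isBounded.exists_norm_le
  have c3 : IsCompact (({x : E6 | nq x = 1} ∩ pj ⁻¹' K) ∩ {x | x.2.1 ∈ Icc r1 Rs}) := by
    refine ((isCompact_Icc (a := -B) (b := B)).prod ((isCompact_Icc (a := r1) (b := Rs)).prod
      (isCompact_closedBall (0 : ℂ × ℂ) 1))).of_isClosed_subset c2 fun x hx =>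
        ⟨abs_le.1 ((norm_fst_le (pj x)).trans (hB _ hx.1.2)), hx.2, ?_⟩
    have e : nq x = 1 := hx.1.1
    rw [nq, Complex.normSq_eq_norm_sq, Complex.normSq_eq_norm_sq] at e
    rw [mem_closedBall_zero_iff, Prod.norm_def, max_le_iff]
    constructor <;> nlinarith [norm_nonneg x.2.2.1, norm_nonneg x.2.2.2]
  have sub : (({x : E6 | nq x = 1} ∩ pj ⁻¹' K) ∩ {x | x.2.1 ∈ Icc r1 Rs}) ⊆ Zs S Rs := fun x hx =>
    ⟨hx.1.1, h1.trans_le hx.2.1, hx.2.2, hx.1.2.1, hx.1.2.2.2⟩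
  have c4 := c3.of_isClosed_subset ((T.cont'.mono sub).preimage_isClosed_of_isClosed c2
    (isClosed_Iic (a := W))) inter_subset_left
  refine (congrArg IsCompact (subset_antisymm (fun x hx => ?_) fun x hx => ?_)).mp c4
  · exact ⟨sub hx.1, hx.2⟩
  · exact ⟨⟨⟨hx.1.1, hx.1.2.2.2.1, (le_add_of_nonneg_right (T.nn _)).trans hx.2, hx.1.2.2.2.2⟩,
      Zs.rd hx.1 ▸ T.rad _ hx.1.2.2.2.1, hx.1.2.2.1⟩, hx.2⟩

theorem Tm.low (T : Tm S r1 Rs T0 ν) (hx : x ∈ Zs S Rs) (h0 : 0 ≤ S.psi (pj x)) :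
    x ∈ closure {y | y ∈ Zs S Rs ∧ sg S ν y < sg S ν x} := by
  let γ : ℝ → E6 := fun t => (x.1 + t, x.2)
  have e : ∀ t, pj (γ t) = pj x + t • eT := fun t => by simp [γ, pj, eT, nq]
  have cγ : Continuous γ := by fun_prop
  have c0 : Tendsto γ (𝓝[<] 0) (𝓝 x) := (cγ.tendsto' 0 x (by simp [γ])).mono_left nhdsWithin_le_nhds
  have l : HasDerivAt (fun t : ℝ => pj x + t • eT) eT 0 := by
    simpa using ((hasDerivAt_id (0 : ℝ)).smul_const eT).const_add (pj x)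
  have o := T.is.opn.mem_nhds hx.2.2.2.1
  have d : HasDerivAt (fun t : ℝ => S.tau (pj x + t • eT)) (fderiv ℝ S.tau (pj x) eT) 0 :=
    HasFDerivAt.comp_hasDerivAt_of_eq 0
      ((T.is.smt.contDiffAt o).differentiableAt (by simp)).hasFDerivAt l (by simp)
  have c1 : Tendsto (fun t : ℝ => pj x + t • eT) (𝓝[<] 0) (𝓝 (pj x)) :=
    (l.continuousAt.tendsto.mono_left nhdsWithin_le_nhds).trans (by simp)
  refine mem_closure_of_tendsto c0 ?_
  filter_upwards [c1.eventually o, c1.eventually ((T.is.smp.continuousOn.continuousAt o).eventually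
    (lt_mem_nhds (show -1 < S.psi (pj x) by linarith))),
    (d.tendsto_slope.mono_left (nhdsLT_le_nhdsNE 0)).eventually (lt_mem_nhds (T.dt _ hx.2.2.2.1)),
    self_mem_nhdsWithin] with t h1 h2 h3 h4
  refine ⟨⟨hx.1, hx.2.1, hx.2.2.1, e t ▸ h1, e t ▸ h2.le⟩, ?_⟩
  rw [slope_def_field, sub_zero, zero_smul, add_zero, lt_div_iff_of_neg h4, zero_mul] at h3
  rw [sg, sg, e t]
  linarith

theorem bo_opn (h0 : 0 < e1) (h1 : 0 < e) (v : VacAt g (pj x)) (hx : x ∈ Zs S Rs)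
    (hU : Bd k (g - gin M a) (pj x) (e1 / 2) → x ∈ KU M a g)
    (cl : x ∈ closure {y | y ∈ Zs S Rs ∧ Bo M a k L s (e1 / 2) (e / 2) g y}) :
    ∀ᶠ y in 𝓝 x, Bo M a k L s e1 e g y := by
  have cp := (cd_pj (ne_of_nq hx.1)).continuousAt
  have b : Sb (g - gin M a) (pj x) := (sb_vac v).sub (sb_gin (Zs.rd hx ▸ hx.2.1))
  have k0 := bd_cl b cp cl fun y hy => hy.2.1
  have ce := eta_cont L (hU k0)
  have cw : ∀ c : ℝ, ContinuousAt (fun y : E6 => (c * (1 + |y.1|) ^ (-s)) ^ 2) x := fun c =>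
    (continuousAt_const.mul ((continuousAt_const.add continuousAt_fst.abs).rpow_const
      (Or.inl (show 0 < 1 + |x.1| by positivity).ne'))).pow 2
  have k1 := ce.continuousWithinAt.closure_le cl (cw _).continuousWithinAt fun y hy => hy.2.2
  have w0 : 0 < (1 + |x.1|) ^ (-s) := by positivity
  refine (cp.eventually (bd_ev b k0 (half_lt_self h0))).and
    ((ce.eventually_lt (cw e) (k1.trans_lt ?_)).mono fun _ h => h.le)
  exact pow_lt_pow_left₀ (mul_lt_mul_of_pos_right (half_lt_self h1) w0) (by positivity) two_ne_zero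

variable {N : P354XV.Nat} {gc : Tw}

theorem St.vac (t : St N S gc V g) (hp : p ∈ S.Om V) : VacAt g p :=
  ⟨_, t.lv.isOpen, hp, t.lv.met, t.lv.vac⟩

/-- The hypotheses of the continuity argument. -/
theorem bt_of {kc m : ℕ} {C d : ℝ} (T : Tm S r1 Rs T0 ν) (h1 : 0 < r1) (hs : 0 ≤ s) (h2 : 0 < e1)
    (h3 : 0 < e) (hV : ∀ g (x : E6), nq x = 1 → r1 ≤ x.2.1 → x.2.1 ≤ Rs → VacAt g (pj x) →
      Bd k (g - gin M a) (pj x) (e1 / 2) → x ∈ KU M a g)
    (hD : ∀ g (x : E6), nq x = 1 → r1 ≤ x.2.1 → x.2.1 ≤ Rs → VacAt g (pj x) →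
      Bd m (g - gin M a) (pj x) d → eta M a L g x ≤ (C * d) ^ 2) (hk : k ≤ m) (hd : d ≤ e1 / 2)
    (hC : |C * d| ≤ e / 2 * (1 + T0) ^ (-s))
    (ini : ∀ p ∈ S.Cl 0, -1 ≤ S.psi p → rd p ≤ Rs → Bd m (gc - gin M a) p d)
    (ap : ∀ V g, St2 N S gc V g → Boot M a S Rs ν k L s e1 e V g →
      Boot M a S Rs ν k L s (e1 / 2) (e / 2) V g ∧ Bnd kc N S V g) :
    Bt N S gc kc (Zs S Rs) (sg S ν) (Bo M a k L s e1 e) (Bo M a k L s (e1 / 2) (e / 2)) := by
  have r : ∀ x ∈ Zs S Rs, r1 ≤ x.2.1 := fun x hx => Zs.rd hx ▸ T.rad _ hx.2.2.2.1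
  refine ⟨T.cpt h1, T.cont', fun V g t x hx hV => ?_, fun V g t x hx hv cl => ?_, ap⟩
  · refine (lt_or_ge (S.psi (pj x)) 0).imp (fun h => ?_) (T.low hx)
    have o : IsOpen (S.Cl 0) := T.is.smp.continuousOn.isOpen_inter_preimage T.is.opn isOpen_Iio
    have m0 : pj x ∈ S.Cl 0 := ⟨hx.2.2.2.1, h⟩
    have b : Bd m (g - gin M a) (pj x) d := bd_congr (mem_of_superset (o.mem_nhds m0) fun y hy =>
      by simp only [mem_ofPred_eq, Pi.sub_apply, t.col hy]) (ini _ m0 hx.2.2.2.2 (Zs.rd hx ▸ hx.2.2.1))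
    refine ⟨P354YO.bd_mono b hk hd, (hD g x hx.1 (r x hx) hx.2.2.1 (St.vac t (T.om hx hV)) b).trans
      (sq_le_sq.2 (hC.trans (le_trans ?_ (le_abs_self _))))⟩
    exact mul_le_mul_of_nonneg_left (Real.rpow_le_rpow_of_nonpos (by positivity) (by
      linarith [show |x.1| ≤ T0 from T.col _ m0.1 (Zs.rd hx ▸ hx.2.2.1) hx.2.2.2.2 h])
      (by linarith)) (by positivity)
  · have v := St.vac t (T.om hx hv)
    exact (bo_opn h2 h3 v hx (hV g x hx.1 (r x hx) hx.2.2.1 v) cl).filter_mono nhdsWithin_le_nhds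

end Vale.Agent.P354YA
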