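import Vale.Agent.P354YO.Kru
import Vale.Agent.P354YR.Vac

/-!
Level L1: the extension is glued from the core and the two ends. The statements INIT and ONE are
given for an arbitrary notion of a good metric on the collar.
-/

open scoped ContDiff
open Set Filter Topology

noncomputable section

namespace Vale.Agent.P354YA

open Vale.Agent.P354n (R4)
open Vale.Agent.P354I (X Dat rm rp)
open Vale.Agent.P354XS (BA)
open Vale.Agent.P354XE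
open Vale.Agent.P354YO (End1 kru bd_congr mf_pos)
open Vale.Agent.P354YR (gK DK DI isCh gK_lor kap_ok)

/-- The part of an end which lies in the core. -/
def La (M a r1 θ θ1 : ℝ) : Set R4 := {p | p ∈ En M a r1 θ ∧ kap M a p ∈ Bx M a r1 θ1}

/-- The metric g0 on the core, which contains the slice T = 0. -/
structure Core (M a r1 θ θ1 ε : ℝ) (N : ℕ) (d : Dat) (D : Set R4) (g0 : Tw) (X0 : R4 → R4) :
    Prop where
  lor : Lor g0 D X0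
  sub : Bx M a r1 θ1 ⊆ D
  ind : Ind g0 X0 (pt 0) d
  box : ∀ p ∈ Bx M a r1 θ, 0 < (X0 p).1 ∧ ∀ v ≠ 0, v.1 = 0 → 0 < g0 p v v
  mid : Mid M a r1 θ ε N g0 (gK M a)

/-- The metric gc of the ingoing chart of the end σ is g0 near La, and t increases to the
future. -/
def Agr (M a r1 θ θ1 : ℝ) (σ : Bool) (g0 : Tw) (X0 : R4 → R4) (gc : Tw) : Prop :=
  ∀ p ∈ La M a r1 θ θ1, gc =ᶠ[𝓝 p] pb (ch M a σ) g0 ∧ ∀ v, gc p v v < 0 → 0 < v.1 →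
    g0 (ch M a σ p) (X0 (ch M a σ p)) (fderiv ℝ (ch M a σ) p v) < 0

/-- One end with the estimates, equal to gc near La. -/
structure End0 (M a r1 θ θ1 R s δ ε : ℝ) (N : ℕ) (gc : Tw) (W : Set R4) (g : Tw) (Y : R4 → R4) :
    Prop where
  lor : Lor g W Y
  sub : En M a r1 θ ⊆ W
  est : ∃ q q' β, IsEnd M a r1 θ R s δ ε N g Y q q' β
  spc : ∀ p ∈ En M a r1 θ, rd p ≤ R + 2 → ∀ v ≠ 0, v.1 = 0 → 0 < g p v v
  agr : ∀ p ∈ La M a r1 θ θ1, g =ᶠ[𝓝 p] gc ∧ 0 < (Y p).1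

/-- A type P of parameters of the scaffold, the parameters which are admissible for a lower bound
R0 of the radii, and the good metrics on the collar, of order m and size e. -/
structure Sch where
  P : Type
  Ad : (M a r1 θ θ1 R0 : ℝ) → P → Prop
  Cg : (M a r1 θ θ1 : ℝ) → P → ℕ → ℝ → Tw → Prop

/-- INIT: the core and the collars of both ends. -/
def Sch.INIT (C : Sch) : Prop :=
  ∀ M a : ℝ, a ≠ 0 → |a| < M → ∀ r1 ∈ Ioo (rm M a) (rp M a), ∀ θ0 > 0, ∃ θ ∈ Ioo 0 θ0, ∃ θ1 ≥ θ,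
    rp M a - r1 ≤ θ * θ1 * mf M a r1 ^ 2 ∧ ∃ R0, ∀ ρ, C.Ad M a r1 θ θ1 R0 ρ → ∀ m, ∀ e > 0,
      ∃ m', ∃ η > 0, ∀ d ∈ BA M a m' η, ∃ D g0 X0, Core M a r1 θ θ1 e m d.1 D g0 X0 ∧
        ∀ σ, ∃ gc, C.Cg M a r1 θ θ1 ρ m e gc ∧ Agr M a r1 θ θ1 σ g0 X0 gc

/-- ONE: stability of one end. -/
def Sch.ONE (C : Sch) : Prop :=
  ∀ M a : ℝ, a ≠ 0 → |a| < M → ∃ s > 1, ∃ δ > 0, ∀ r1 ∈ Ioo (rm M a) (rp M a), ∀ θ > 0, ∀ θ1 ≥ θ,
    ∀ R0, ∃ R ≥ R0, ∀ N : ℕ, ∀ ε > 0, ∃ ρ, C.Ad M a r1 θ θ1 R0 ρ ∧ ∃ m0, ∃ e0 > 0, ∀ m ≥ m0,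
      ∀ e ∈ Ioc 0 e0, ∀ gc, C.Cg M a r1 θ θ1 ρ m e gc →
        ∃ W g Y, End0 M a r1 θ θ1 R s δ ε N gc W g Y

/-- The lower bound of the radii may be decreased. -/
def Sch.Mono (C : Sch) : Prop :=
  ∀ M a r1 θ θ1 R0 R0' ρ, R0 ≤ R0' → C.Ad M a r1 θ θ1 R0' ρ → C.Ad M a r1 θ θ1 R0 ρ

variable {M a r1 θ θ1 R s δ ε e : ℝ} {N m : ℕ} {g g0 gc : Tw} {W : Set R4} {X0 Y : R4 → R4}

theorem isKr (h : |a| < M) (h1 : rm M a < r1) : IsKr M a r1 (gK M a) :=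
  ⟨⟨_, (gK_lor h).isOpen, fun _ hp => ⟨hp.1, h1.trans hp.2.2⟩, (gK_lor h).met⟩,
    fun σ p hp _ => funext₂ fun v w => ((isCh h σ).pull.eq p (h1.trans hp) v w).symm⟩

theorem la_of (h : |a| < M) (h1 : rm M a < r1) {σ : Bool} {p : R4} (hp : p ∈ En M a r1 θ)
    (hb : ch M a σ p ∈ Bx M a r1 θ1) : p ∈ La M a r1 θ θ1 := by
  refine ⟨hp, ?_⟩
  cases σ
  · have n : xs (kap M a p) ≠ 0 := (P354YR.kap_mem h (h1.trans hp.1)).1.1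
    have e : ch M a false p = mir M a (kap M a p) := rfl
    simp only [Bx, D0, mem_ofPred_eq, e, P354YR.mir_r h n, P354YR.mir_kx h n, abs_neg] at hb
    exact ⟨⟨n, hb.1.2.1, hb.1.2.2⟩, hb.2⟩
  · exact hb

theorem End0.end1 (h : |a| < M) (h1 : rm M a < r1) {σ : Bool} (A : Agr M a r1 θ θ1 σ g0 X0 gc)
    (E : End0 M a r1 θ θ1 R s δ ε N gc W g Y) : End1 M a r1 θ θ1 R s δ ε N σ g0 X0 W g Y :=
  ⟨E.lor, E.sub, E.est, E.spc, fun p hp hb => by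
    have k := la_of h h1 hp hb
    obtain ⟨e1, e2⟩ := E.agr p k
    exact ⟨e1.trans (A p k).1, (A p k).2 _ (e1.eq_of_nhds ▸ E.lor.tl p (E.sub hp)) e2⟩⟩

theorem bd_mono {p : R4} {c c' : ℝ} (hN : N ≤ m) (hc : c ≤ c') (b : Bd m g p c) : Bd N g p c' :=
  fun k hk v w => (b k (hk.trans hN) v w).trans (mul_le_mul_of_nonneg_right hc (by positivity))

/-- The assembly, with rates which do not depend on r1. -/
theorem ext5 (C : Sch) (mo : C.Mono) (I : C.INIT) (O : C.ONE) (M a : ℝ) (ha : a ≠ 0)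
    (h : |a| < M) : ∃ s > 1, ∃ δ > 0, ∀ r1 ∈ Ioo (rm M a) (rp M a), ∃ g0, IsKr M a r1 g0 ∧
      ∀ θ0 > 0, ∃ θ ∈ Ioo 0 θ0, ∀ R0, ∃ R ≥ R0, ∀ N : ℕ, ∀ ε > 0, ∃ m, ∃ η > 0,
        ∀ d ∈ BA M a m η, ∃ D g Xf, IsExt M a r1 θ R s δ ε N d.1 D g Xf ∧ Mid M a r1 θ ε N g g0 := by
  obtain ⟨s, hs, δ, hδ, O⟩ := O M a ha h
  refine ⟨s, hs, δ, hδ, fun r1 hr => ⟨gK M a, isKr h hr.1, fun θ0 h0 => ?_⟩⟩
  replace O := O r1 hr
  obtain ⟨θ, hθ, θ1, h2, big, R1, I⟩ := I M a ha h r1 hr θ0 h0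
  refine ⟨θ, hθ, fun R0 => ?_⟩
  obtain ⟨R, hR, O⟩ := O θ hθ.1 θ1 h2 (max R0 R1)
  refine ⟨R, (le_max_left _ _).trans hR, fun N ε hε => ?_⟩
  obtain ⟨ρ, ad, m0, e0, he, O⟩ := O N ε hε
  obtain ⟨m', η, hη, I⟩ := I ρ (mo _ _ _ _ _ _ _ _ (le_max_right _ _) ad) (max m0 N) (min e0 ε)
    (lt_min he hε)
  refine ⟨m', η, hη, fun d hd => ?_⟩
  obtain ⟨D, g0, X0, c, hc⟩ := I d hd
  obtain ⟨D', g, Xf, x, k⟩ := kru (R := R) (s := s) (δ := δ) (ε := ε) (N := N) kap_ok ha h hr.1 hr.2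
    hθ.1 h2 big c.lor c.sub c.ind c.box fun σ => by
      obtain ⟨gc, k1, k2⟩ := hc σ
      obtain ⟨W, g, Y, E⟩ := O _ (le_max_left _ _) _ ⟨lt_min he hε, min_le_left _ _⟩ gc k1
      exact ⟨W, g, Y, E.end1 h hr.1 k2⟩
  refine ⟨D', g, Xf, x, fun p hp hb => ?_⟩
  have m := mf_pos (hr.1.trans hp.2.2)
  refine bd_congr ((k p ⟨hp, Or.inr (hb.trans ?_)⟩).mono fun z hz => ?_)
    (bd_mono (le_max_right _ _) (min_le_right _ _) (c.mid p hp hb))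
  · exact mul_le_mul_of_nonneg_right (by linarith) m.le
  · simp only [Pi.sub_apply, hz]

/-- **The assembly of EXT.** -/
theorem ext_of (C : Sch) (mo : C.Mono) (I : C.INIT) (O : C.ONE) : EXT := by
  first
  | exact ext5 C mo I O
  | intro M a ha h r1 hr
    obtain ⟨s, hs, δ, hδ, k⟩ := ext5 C mo I O M a ha h
    obtain ⟨g0, k1, k2⟩ := k r1 hr
    exact ⟨g0, k1, s, hs, δ, hδ, k2⟩

end Vale.Agent.P354YA
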