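import Vale.Agent.P354YA.Main
import Vale.Agent.P354YA.Nis
import Vale.Agent.P354YI.Cg
import Vale.Agent.P354YT.Chart

/-!
The concrete scaffold, and the reduction of EXT to INI, CONT, MAIN and the statements about the
gauge.
-/

open scoped ContDiff
open Set Filter Topology

noncomputable section

namespace Vale.Agent.P354YA

open Vale.Agent.P354n (R4)
open Vale.Agent.P354I (rm rp)
open Vale.Agent.P354XS (BA)
open Vale.Agent.P354XE (Tw Bd gin rd eT dr ka mf En EXT)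
open Vale.Agent.P354XV (CONT jet Jet)
open Vale.Agent.P354YT (Pm)
open Vale.Agent.P354YI (Nk Sm Ab)

/-- The parameters: the scaffold, the margin of the gauge, and the outer radius of the region of
the bootstrap assumption. -/
structure Pr where
  c : Pm
  κ : ℝ
  Rz : ℝ

/-- The admissible parameters. -/
structure Pr.Ad (ρ : Pr) (M a r1 θ1 R0 : ℝ) : Prop where
  eM : ρ.c.M = M
  ea : ρ.c.a = a
  er : ρ.c.r1 = (rm M a + r1) / 2
  ok : Ok2 ρ.c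
  mar : Mar ρ.c ρ.κ
  ini : P354YI.Ad ρ.c R0
  bot : 3 / 2 * θ1 ≤ Real.exp (ka ρ.c.M ρ.c.a * ρ.c.be 0)

/-- The scheme. -/
def sch : Sch2 where
  P := Pr
  Ad M a r1 _ θ1 R0 ρ := ρ.Ad M a r1 θ1 R0
  Cg _ _ _ θ θ1 ρ m e gc := P354YI.Cg ρ.c (nat ρ.c ρ.κ) 3 (W0 ρ.c) θ θ1 m e gc
  N ρ := nat ρ.c ρ.κ
  S ρ := ρ.c.sc
  Rs ρ := ρ.Rz
  ν _ _ := 0

/-- INI: the core and the collars, for any gauge. -/
def INI : Prop :=
  ∀ M a : ℝ, a ≠ 0 → |a| < M → ∀ r1 ∈ Ioo (rm M a) (rp M a), ∀ θ0 > 0, ∃ θ ∈ Ioo 0 θ0, ∃ θ1 ≥ θ,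
    rp M a - r1 ≤ θ * θ1 * mf M a r1 ^ 2 ∧ ∃ R0, ∀ c : Pm, c.M = M → c.a = a → c.r1 = r1 →
      ∀ N k U W, P354YI.Ad c R0 → Nk c N k U W → ∀ m, ∀ e > 0, ∃ m', ∃ η > 0,
        ∀ d ∈ BA M a m' η, ∃ D g0 X0, Core M a r1 θ θ1 e m d.1 D g0 X0 ∧
          ∀ σ, ∃ gc, P354YI.Cg c N k W θ θ1 m e gc ∧ Agr M a r1 θ θ1 σ g0 X0 gc

variable {c : Pm} {κ : ℝ}

theorem nk (h1 : NIS) (h2 : NKG) (h3 : NW) (h : Ok2 c) (m : Mar c κ) :
    Nk c (nat c κ) 3 (UW c) (W0 c) := by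
  obtain ⟨k, δ, hδ, m⟩ := m
  have w := h3 c h
  have f {p : R4} (e : c.R1 + 2 ≤ rd p) : 2 ≤ dd c p := le_sub_iff_add_le'.2 e
  exact ⟨h1 c h κ k, fun p hp => ⟨h2 c h κ p hp, mem_interior_iff_mem_nhds.2
      (mem_of_superset (Metric.closedBall_mem_nhds _ hδ) (m p hp))⟩,
    fun z e => ⟨.inl ((f e).trans (le_abs_self _)),
      Fa_far (le_trans (by linarith [f e]) (le_abs_self _)) _⟩, w.opn, w.sm,
    fun p hp => w.kerr p hp.1, fun b g' D' g D P l p hp s d e u =>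
      ((w.nat b g' D' g D P l p hp s d e).2 ((w.nat b g' D' g D P l p hp s d e).1.2 u)),
    fun g D l p hp _ e s => w.far g D l p hp (f e) s⟩

theorem sch_mono : sch.toSch.Mono := fun _ _ _ _ _ _ _ _ e h =>
  { h with ini := ⟨h.ini.1, e.trans h.ini.2.1, h.ini.2.2.1,
      (mul_le_mul_of_nonneg_right e h.ini.1.del.1.le).trans h.ini.2.2.2⟩ }

theorem sch_init (h1 : NIS) (h2 : NKG) (h3 : NW) (I : INI) : sch.toSch.INIT := by
  intro M a ha h r1 hr θ0 h0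
  have a1 : rm M a < (rm M a + r1) / 2 := by linarith [hr.1]
  have a2 : (rm M a + r1) / 2 ≤ r1 := by linarith [hr.1]
  obtain ⟨θ, hθ, θ1, k, big, R0, I⟩ := I M a ha h _ ⟨a1, a2.trans_lt hr.2⟩ θ0 h0
  refine ⟨θ, hθ, θ1, k, (sub_le_sub_left a2 _).trans (big.trans (mul_le_mul_of_nonneg_left
    (pow_le_pow_left₀ (P354YO.mf_pos a1).le (P354YO.mf_mono h a1 a2) 2)
    (mul_pos hθ.1 (hθ.1.trans_le k)).le)), R0, fun ρ ad m e he => ?_⟩
  obtain ⟨m', η, hη, I⟩ := I ρ.c ad.eM ad.ea ad.er _ _ _ _ ad.ini (nk h1 h2 h3 ad.ok ad.mar) m e he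
  refine ⟨m', η, hη, fun d hd => ?_⟩
  obtain ⟨D, g0, X0, c, I⟩ := I d hd
  have b {t : ℝ} : P354XE.Bx M a r1 t ⊆ P354XE.Bx M a ((rm M a + r1) / 2) t :=
    fun p hp => ⟨⟨hp.1.1, hp.1.2.1, a2.trans_lt hp.1.2.2⟩, hp.2⟩
  refine ⟨D, g0, X0, ⟨c.lor, b.trans c.sub, c.ind, fun p hp => c.box p (b hp),
    fun p hp => c.mid p ⟨hp.1, hp.2.1, a2.trans_lt hp.2.2⟩⟩, fun σ => (I σ).imp fun gc k =>
      ⟨k.1, fun p hp => k.2 p ⟨⟨a2.trans_lt hp.1.1, hp.1.2⟩, b hp.2⟩⟩⟩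

theorem sm_bd {m : ℕ} {e : ℝ} {h : Tw} {p : R4} (he : 0 ≤ e) (s : Sm m e h p) : Bd m h p e :=
  fun j hj v w => (s j hj v w).trans (mul_le_mul_of_nonneg_right
    (div_le_self he (one_le_pow₀ (le_add_of_nonneg_right (P354YR.rd_nn p)))) (by positivity))

/-- The domain of the scaffold lies in the end, above the level 3 θ1 / 2. -/
theorem Pr.Ad.mem {ρ : Pr} {M a r1 θ θ1 R0 : ℝ} (h : ρ.Ad M a r1 θ1 R0) (k : θ ≤ 3 / 2 * θ1) {p : R4}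
    (hp : p ∈ ρ.c.O) : p ∈ En ρ.c.M ρ.c.a ρ.c.r1 θ := by
  have := h.ok.1.mem_En hp.1 hp.2.le
  exact ⟨this.1, k.trans (h.bot.trans this.2.1), this.2.2⟩

theorem tm_sc (h : c.Ok) (R : ℝ) :
    Tm c.sc c.r1 R (|c.be 0| + |c.be R| + 2 * (c.del * |R|)) fun _ => 0 := by
  refine ⟨h.is, fun p hp => hp.1.le, fun p hp => ?_, fun p hp a _ b => ?_, continuous_const,
    fun _ => le_rfl⟩
  · have e : dr p eT = 0 := by simp [dr, P354YR.dT_c, eT]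
    have := h.tau_fd hp.1 eT
    rw [e, mul_zero, add_zero, show eT.1 = 1 from rfl, mul_one] at this
    exact (one_pos.trans_le (h.tA_ge _)).trans_eq this.symm
  · have o := h.pos hp.1
    have k1 := (h.psi_lt o 0).1 b
    have k2 := h.be_le hp.1 hp.2.le
    have k3 := h.be_mono o.le
    have k4 := h.be_mono a
    have k5 := mul_le_mul_of_nonneg_left (a.trans (le_abs_self R)) h.del.1.le
    have k6 := mul_nonneg h.del.1.le (abs_nonneg R)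
    rw [abs_le]
    constructor <;> linarith [neg_abs_le (c.be 0), le_abs_self (c.be R), abs_nonneg (c.be 0),
      abs_nonneg (c.be R)]

theorem sch_geo (h1 : NIS) : sch.GEO := by
  intro M a r1 θ θ1 R0 ρ _ _ hθ k ad
  obtain ⟨rfl, rfl, -⟩ := id ad
  exact ⟨h1 _ ad.ok _ ad.mar.1, ⟨_, ad.ok.1.r1.1, _, tm_sc ad.ok.1 _⟩, fun m e gc he cg => ⟨cg.col, fun p hp _ =>
    sm_bd he (cg.sml p ⟨ad.mem (by linarith) hp.1, hp.2.le.trans zero_le_one⟩)⟩⟩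

/-- **The reduction of EXT.** -/
theorem ext_sch (h1 : NIS) (h2 : NKG) (h3 : NW) (I : INI) (hC : CONT) (hV : SMV) (hD : SMD)
    (H : sch.MAIN) : EXT :=
  Sch2.ext_of hC hV hD sch_mono (sch_geo h1) (sch_init h1 h2 h3 I) H

end Vale.Agent.P354YA
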