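import Vale.Agent.P354YA.Rix
import Vale.Agent.P354XD.UniS
import Vale.Agent.P354Z.Est

/-!
The transverse frame of the family of all metrics, and the size eta of the jets of P0 and P4 as a
function of the metric and of the point.
-/

open scoped ContDiff
open Set Filter Topology

noncomputable section

namespace Vale.Agent.P354YA

open Vale.Agent.P354XG Vale.Agent.P354XD Vale.Agent.P354XR Vale.Agent.P354XI
open Vale.Agent.P354XE (Tw)
open Vale.Agent.P354Z (f4 q2)

section alg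
variable {A B : Type} [CommRing A] [Algebra ℂ A] [CommRing B] [Algebra ℂ B] {φ : A →ₐ[ℂ] B}
  {K : Hp A} {K' : Hp B} {p : Pm A} {p' : Pm B}

/-- A homomorphism of parameters. -/
structure PHom (p : Pm A) (p' : Pm B) (φ : A →ₐ[ℂ] B) : Prop where
  a : φ p.a = p'.a
  M : φ p.M = p'.M
  sg : φ p.sg = p'.sg
  h1 : φ p.h1 = p'.h1
  j1 : φ p.j1 = p'.j1

theorem HHom.kcV (h : HHom K K' φ) (e1 e2 e3 e4 e5 e6 f : A) :
    φ (K.kc.V e1 e2 e3 e4 e5 e6 f) = K'.kc.V (φ e1) (φ e2) (φ e3) (φ e4) (φ e5) (φ e6) (φ f) := by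
  simp only [KC.V_ap, Hp.kc, map_add, map_mul, h.d, h.P, h.Q, h.H, h.Bf]

theorem HHom.xs (h : HHom K K' φ) : φ K.kc.x = K'.kc.x ∧ φ K.kc.s = K'.kc.s ∧
    φ K.kc.sb = K'.kc.sb := by
  simp only [Hp.kc, map_sub, map_mul, h.z, h.Ni, map_ofNat, and_self]

theorem HHom.kkV (h : HHom K K' φ) (q : PHom p p' φ) (e1 e2 e3 e4 e5 e6 f : A) :
    φ ((kk K p).V e1 e2 e3 e4 e5 e6 f) =
      (kk K' p').V (φ e1) (φ e2) (φ e3) (φ e4) (φ e5) (φ e6) (φ f) := by
  have F : φ (K.kc.F2 f) = K'.kc.F2 (φ f) := by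
    simp only [KC.F2, h.kcV, map_zero, map_mul, map_neg, map_ii, h.xs]
  have R : φ ((kk K p).R f) = (kk K' p').R (φ f) := by
    rw [kk_R, kk_R, map_sub, map_sub, map_mul, map_mul, F, q.h1, q.j1]
    exact congrArg₂ (fun u v => u - p'.h1 * v - _) (h.d 1 f) (h.d 0 f)
  simp only [KC.V_ap, map_add, map_mul, R]
  simp only [kk, Hp.kc, h.d, h.P, h.Q, h.H, h.Bf]

theorem HHom.frK (h : HHom K K' φ) (q : PHom p p' φ) : fm φ (frK K p) = frK K' p' := by
  have r : φ (kk K p).r = (kk K' p').r := h.z 1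
  have x : φ (kk K p).x = (kk K' p').x := h.xs.1
  have s : φ (kk K p).s = (kk K' p').s := h.xs.2.1
  have sb : φ (kk K p).sb = (kk K' p').sb := h.xs.2.2
  have N : φ (kk K p).N = (kk K' p').N := h.N
  have Ni : φ (kk K p).Ni = (kk K' p').Ni := h.Ni
  have sg : φ (kk K p).sg = (kk K' p').sg := q.sg
  have a : φ (kk K p).a = (kk K' p').a := q.a
  have M : φ (kk K p).M = (kk K' p').M := q.M
  simp only [fm, P354XR.frK, Fr.mk.injEq]
  refine ⟨?_, ?_, ?_, ?_⟩ <;> funext d <;>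
    simp only [vm, Hp.prj, Geo.dv, KC.th, KC.tp, KC.et, KC.ep, h.kkV q, h.co, KC.W, KC.De, KC.ee,
      KC.z, KC.zb, map_add, map_sub, map_mul, map_neg, map_zero, map_ofNat, map_ii, r, x, s, sb, N,
      Ni, sg, a, M]

theorem f4_hom {G : GHP A} {G' : GHP B} (h : GHP.Hom G G' φ) (i : Fin 4) (f : A) :
    φ (f4 G i f) = f4 G' i (φ f) := by
  fin_cases i
  exacts [h.th f, h.tp f, h.et f, h.ep f]

end alg

section fam
variable {J : Type} (G : Filter (J × E6)) [Loc G] (M a : ℝ) (g : J → Tw)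

/-- The geometry of half of the metrics, the frame of Kerr, the transverse frame and its data. -/
def sG : Geo (Sm G) := geo G (1 / 2) g
def fK : Fr (Sm G) := frK (hp G) (pm G (fun _ => M) fun _ => a)
def fT : Fr (Sm G) := (fK G M a).full (S := sG G g) (opsS rfl) (sG G g).R
def gT : GHP (Sm G) := (fT G M a g).ghp (sG G g)

/-- The construction of the transverse frame is defined. -/
def OkT : Prop := (fK G M a).Ok (S := sG G g) (opsS rfl) (sG G g).R

variable {G}

/-- The sum of the squares of the words of length at most n at the point p. -/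
def qq {ι : Type} [Fintype ι] (X : ι → Der (Sm G)) (p : J × E6) : ℕ → Sm G → ℝ
  | 0, f => ‖rep f p‖ ^ 2
  | n + 1, f => qq X p n f + ∑ i, qq X p n (X i f)

/-- The squares of the jets of P0 and P4. -/
def etG (H : GHP (Sm G)) (n : ℕ) (p : J × E6) : ℝ := qq (f4 H) p n H.P0 + qq (f4 H) p n H.P4

theorem qq_cont {ι : Type} [Fintype ι] (X : ι → Der (Sm G)) (n : ℕ) (f : Sm G) :
    ∀ᶠ p in G, ContinuousAt (fun y => qq X (p.1, y) n f) p.2 := by
  induction n generalizing f with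
  | zero => exact (rep_sm f).mono fun p h => h.continuousAt.norm.pow 2
  | succ n ih =>
    filter_upwards [ih f, eventually_all.2 fun i => ih (X i f)] with p h1 h2
    exact h1.add (tendsto_finsetSum _ fun i _ => h2 i)

theorem qq_nonneg {ι : Type} [Fintype ι] (X : ι → Der (Sm G)) (p : J × E6) (n : ℕ) (f : Sm G) :
    0 ≤ qq X p n f := by
  induction n generalizing f with
  | zero => exact sq_nonneg _
  | succ n ih => exact add_nonneg (ih f) (Finset.sum_nonneg fun i _ => ih _)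

theorem qq_mono {ι : Type} [Fintype ι] (X : ι → Der (Sm G)) (p : J × E6) {n m : ℕ} (h : n ≤ m)
    (f : Sm G) : qq X p n f ≤ qq X p m f := by
  induction m, h using Nat.le_induction with
  | base => exact le_rfl
  | succ m _ ih => exact ih.trans (le_add_of_nonneg_right
      (Finset.sum_nonneg fun i _ => qq_nonneg X p m _))

theorem q2_eq {ι : Type} [Fintype ι] {O : Set E6} (X : ι → Der (Sm (on O))) {x : E6} (hx : x ∈ O)
    (n : ℕ) (f : Sm (on O)) : q2 X x n f = qq X ((), x) n f := by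
  induction n generalizing f with
  | zero => rw [q2, qq, fv_in f hx]
  | succ n ih => simp only [q2, qq, ih]

variable {J' : Type} {G' : Filter (J' × E6)} [Loc G'] {κ : J' → J} (h : Rx G' G κ)
include h

theorem Rx.qq {ι : Type} [Fintype ι] {X : ι → Der (Sm G)} {X' : ι → Der (Sm G')}
    (e : ∀ i f, h.rix (X i f) = X' i (h.rix f)) (n : ℕ) (f : Sm G) :
    ∀ᶠ p in G', qq X' p n (h.rix f) = qq X (κ p.1, p.2) n f := by
  induction n generalizing f with
  | zero => exact (h.rep f).mono fun p k => by rw [P354YA.qq, P354YA.qq, k]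
  | succ n ih =>
    filter_upwards [ih f, eventually_all.2 fun i => ih (X i f)] with p h1 h2
    simp only [P354YA.qq, h1, ← e, h2]

theorem Rx.etG {H : GHP (Sm G)} {H' : GHP (Sm G')} (m : GHP.Hom H H' h.rix) (n : ℕ) :
    ∀ᶠ p in G', etG H' n p = etG H n (κ p.1, p.2) := by
  filter_upwards [h.qq (f4_hom m) n H.P0, h.qq (f4_hom m) n H.P4] with p h1 h2
  rw [P354YA.etG, P354YA.etG, ← h1, ← h2, m.P0, m.P4]

theorem Rx.fK (o : Pos G) : fm h.rix (fK G M a) = fK G' M a :=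
  (h.hp o.off).frK ⟨h.rix_cst _, h.rix_cst _,
    (h.rs (rs_sg o _ _)).ext (rs_sg (h.ev o) _ _) EventuallyEq.rfl, map_one _, map_zero _⟩

theorem Rx.rf {F : Fr (Sm G)} {f : J × E6 → Fr ℂ} (r : Rf F f) :
    Rf (fm h.rix F) fun p => f (κ p.1, p.2) :=
  ⟨fun d => h.rs (r.l d), fun d => h.rs (r.n d), fun d => h.rs (r.m d), fun d => h.rs (r.mb d)⟩

end fam

/-! ### The family of all metrics -/

/-- The points near which g is a vacuum metric. -/
def K0 (g : Tw) : Set E6 := {x | (0 < x.2.1 ∧ x.2.2 ≠ 0) ∧ VacAt g (pj x)}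
abbrev G0 : Filter (Tw × E6) := nb ⊤ K0

theorem K0_ev {g : Tw} {x : E6} (h : x ∈ K0 g) : ∀ᶠ y in 𝓝 x, y ∈ K0 g :=
  (((continuous_fst.comp continuous_snd).continuousAt.eventually (lt_mem_nhds h.1.1)).and
    ((continuous_snd.comp continuous_snd).continuousAt.eventually_ne h.1.2)).and
    ((cd_pj h.1.2).continuousAt.eventually h.2.ev)

theorem G0_ev : ∀ᶠ p in G0, p.2 ∈ K0 p.1 :=
  ev_nb.2 (Eventually.of_forall fun _ _ hx => K0_ev hx)

theorem rx_of {J J' E : Type} [NormedAddCommGroup E] {G : Filter (J' × E)} {K : J → Set E}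
    {κ : J' → J} (h : ∀ᶠ p in G, p.2 ∈ K (κ p.1)) : Rx G (nb ⊤ K) κ := fun _ hP =>
  h.mono fun p hp => eventually_top.1 (ev_nb_on hP) (κ p.1) p.2 hp

/-- The values of the metric, of the curvature and of the frame of Kerr. -/
def vg (p : Tw × E6) (b c : Fin 4) : ℂ := rep ((sG G0 id).g b c) p
def vR (p : Tw × E6) (b c d e : Fin 4) : ℂ := rep ((sG G0 id).R b c d e) p
def vF (M a : ℝ) (p : Tw × E6) : Fr ℂ :=
  ⟨fun d => rep ((fK G0 M a).l d) p, fun d => rep ((fK G0 M a).n d) p,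
    fun d => rep ((fK G0 M a).m d) p, fun d => rep ((fK G0 M a).mb d) p⟩

/-- The points near which the transverse frame of g is defined. -/
def KU (M a : ℝ) (g : Tw) : Set E6 :=
  {x | ∀ᶠ y in 𝓝 x, y ∈ K0 g ∧ (vF M a (g, y)).Ok (S := pt (vg (g, y))) opsC (vR (g, y))}
abbrev GU (M a : ℝ) : Filter (Tw × E6) := nb ⊤ (KU M a)

/-- The squares of the jets of order at most n of P0 and P4 of the transverse frame. -/
def eta (M a : ℝ) (n : ℕ) (g : Tw) (x : E6) : ℝ := etG (gT (GU M a) M a id) n (g, x)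

variable {M a : ℝ} {J : Type} {G : Filter (J × E6)} [Loc G] {g : J → Tw}

theorem KU_open (g : Tw) : IsOpen (KU M a g) := isOpen_setOfPred_eventually_nhds

theorem GU_ev : ∀ᶠ p in GU M a, p.2 ∈ KU M a p.1 :=
  ev_nb.2 (Eventually.of_forall fun g _ hx => (KU_open g).mem_nhds hx)

theorem eta_cont (n : ℕ) {g : Tw} {x : E6} (h : x ∈ KU M a g) : ContinuousAt (eta M a n g) x :=
  (eventually_top.1 (ev_nb_on (qq_cont _ n _)) g x h).add
    (eventually_top.1 (ev_nb_on (qq_cont _ n _)) g x h)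

theorem eta_nonneg (n : ℕ) (g : Tw) (x : E6) : 0 ≤ eta M a n g x :=
  add_nonneg (qq_nonneg _ _ _ _) (qq_nonneg _ _ _ _)

theorem eta_mono {n m : ℕ} (h : n ≤ m) (g : Tw) (x : E6) : eta M a n g x ≤ eta M a m g x :=
  add_le_add (qq_mono _ _ h _) (qq_mono _ _ h _)

theorem vals (h : ∀ᶠ p in G, p.2 ∈ K0 (g p.1)) :
    (∀ b c, Rs ((sG G g).g b c) fun p => vg (g p.1, p.2) b c) ∧
    (∀ b c d e, Rs ((sG G g).R b c d e) fun p => vR (g p.1, p.2) b c d e) ∧
    Rf (fK G M a) fun p => vF M a (g p.1, p.2) := by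
  have r := rx_of h
  have o : Pos G0 := G0_ev.mono fun _ k => k.1
  have m : GHom (sG G0 id) (sG G g) r.rix := r.geo o.off _ (G0_ev.mono fun _ k => k.2)
  refine ⟨fun b c => m.g b c ▸ r.rep _, fun b c d e => m.R b c d e ▸ r.rep _, ?_⟩
  rw [← r.fK M a o]
  exact r.rf ⟨fun _ => rs_rep _, fun _ => rs_rep _, fun _ => rs_rep _, fun _ => rs_rep _⟩

/-- The construction is defined for a family if and only if the points are in KU. -/
theorem okT_iff (h : ∀ᶠ p in G, p.2 ∈ K0 (g p.1)) :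
    OkT G M a g ↔ ∀ᶠ p in G, p.2 ∈ KU M a (g p.1) := by
  obtain ⟨h1, h2, h3⟩ := vals (M := M) (a := a) h
  exact ⟨fun k => Loc.ev _ (h.and (full_rs h1 h2 h3 (Or.inl k)).2.1),
    fun k => (full_rs h1 h2 h3 (Or.inr (k.mono fun _ e => e.self_of_nhds.2))).1⟩

variable (h : ∀ᶠ p in G, p.2 ∈ KU M a (g p.1))
include h

omit [Loc G] in
theorem k0_of : ∀ᶠ p in G, p.2 ∈ K0 (g p.1) := h.mono fun _ e => e.self_of_nhds.1

theorem sG_is : (sG G g).Is :=
  geo_is (Pos.off ((k0_of h).mono fun _ k => k.1)) _ ((k0_of h).mono fun _ k => k.2)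

theorem fT_rf : Rf (fT G M a g) fun p =>
    (vF M a (g p.1, p.2)).full (S := pt (vg (g p.1, p.2))) opsC (vR (g p.1, p.2)) := by
  obtain ⟨h1, h2, h3⟩ := vals (M := M) (a := a) (k0_of h)
  exact (full_rs h1 h2 h3 (Or.inr (h.mono fun _ e => e.self_of_nhds.2))).2.2.2

/-- The frame is a weighted null frame, and it is transverse. -/
theorem fT_wn : (fT G M a g).WN (sG G g) ∧ (gT G M a g).P1 = 0 ∧ (gT G M a g).P3 = 0 := by
  have o : Pos G := (k0_of h).mono fun _ k => k.1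
  have w := (frK_wn (hp_is o.off) (pm_is o (fun _ => M) fun _ => a) (sG G g).Γ).rw
  exact Fr.full_wn (sG_is h) ⟨w.c_l, w.c_n, w.c_m, w.H_l, w.H_n, w.H_m, w.Hb_m⟩
    ((okT_iff (k0_of h)).2 h)

theorem gT_is : (gT G M a g).Is := Geo.WNull.is (sG_is h) (fT_wn h).1

/-- The data of a family are the image of the data of the family of all metrics. -/
theorem gT_hom : GHP.Hom (gT (GU M a) M a id) (gT G M a g) (rx_of h).rix := by
  have k : ∀ᶠ p in GU M a, p.2 ∈ KU M a (id p.1) := GU_ev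
  have m : GHom (sG (GU M a) id) (sG G g) (rx_of h).rix := (rx_of h).geo
    (Pos.off ((k0_of k).mono fun _ k => k.1)) _ ((k0_of k).mono fun _ k => k.2)
  rw [gT, gT, ← ((rx_of h).rf (fT_rf k)).ext (fT_rf h) EventuallyEq.rfl]
  exact m.ghp _

theorem etG_eq (n : ℕ) : ∀ᶠ p in G, etG (gT G M a g) n p = eta M a n (g p.1) p.2 :=
  (rx_of h).etG (gT_hom h) n

end Vale.Agent.P354YA
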