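import Vale.Agent.P354XD.GS
import Vale.Agent.P354XD.Fun
import Vale.Agent.P354XG.Quot

/-!
Homomorphisms of geometric data and of frames, and the change of the index set of a family.
-/

open scoped ContDiff
open Set Filter Topology

namespace Vale.Agent.P354YA

open Vale.Agent.P354n (R4)
open Vale.Agent.P354XG Vale.Agent.P354XD Vale.Agent.P354XR

section Alg

variable {A B : Type*} [CommRing A] [Algebra ℂ A] [CommRing B] [Algebra ℂ B]

/-- A homomorphism of geometric data. -/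
structure GHom (S : Geo A) (S' : Geo B) (φ : A →ₐ[ℂ] B) : Prop where
  c : ∀ f, φ (S.c f) = S'.c (φ f)
  L : ∀ a f, φ (S.L a f) = S'.L a (φ f)
  H : ∀ f, φ (S.H f) = S'.H (φ f)
  Hb : ∀ f, φ (S.Hb f) = S'.Hb (φ f)
  g : ∀ a b, φ (S.g a b) = S'.g a b
  Γ : ∀ a b d, φ (S.Γ a b d) = S'.Γ a b d

/-- The image of a vector, of an operator and of a frame. -/
def vm (φ : A →ₐ[ℂ] B) (X : Vec A) : Vec B := fun a => φ (X a)
def om (φ : A →ₐ[ℂ] B) (u : Op A) : Op B := ⟨vm φ u.X, φ u.a, φ u.b⟩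
def fm (φ : A →ₐ[ℂ] B) (F : Fr A) : Fr B := ⟨vm φ F.l, vm φ F.n, vm φ F.m, vm φ F.mb⟩

variable {S : Geo A} {S' : Geo B} {φ : A →ₐ[ℂ] B}

theorem vm_add (X Y : Vec A) : vm φ (X + Y) = vm φ X + vm φ Y := funext fun _ => map_add φ _ _
theorem vm_neg (X : Vec A) : vm φ (-X) = -vm φ X := funext fun _ => map_neg φ _
theorem vm_smul (s : A) (X : Vec A) : vm φ (s • X) = φ s • vm φ X :=
  funext fun _ => map_mul φ _ _

theorem map_hf : φ (Geo.hf A) = Geo.hf B := φ.commutes _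
theorem map_ii : φ (ii A) = ii B := φ.commutes _

namespace GHom

variable (h : GHom S S' φ)
include h

theorem act (u : Op A) (f : A) : φ (S.act u f) = S'.act (om φ u) (φ f) := by
  simp only [Geo.act_apply, map_add, map_sum, map_mul, h.L, h.H, h.Hb, om, vm]

theorem dot (Y Z : Vec A) : φ (S.dot Y Z) = S'.dot (vm φ Y) (vm φ Z) := by
  simp only [Geo.dot, map_sum, map_mul, h.g, vm]

theorem Gm (X Y : Vec A) : vm φ (S.Gm X Y) = S'.Gm (vm φ X) (vm φ Y) := by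
  funext d
  simp only [Geo.Gm, map_sum, map_mul, h.Γ, vm]

theorem R (a b c d : Fin 4) : φ (S.R a b c d) = S'.R a b c d := by
  simp only [Geo.R, map_add, map_sub, map_sum, map_mul, h.Γ, h.L]

theorem Rm (X Y Z : Vec A) : vm φ (S.Rm X Y Z) = S'.Rm (vm φ X) (vm φ Y) (vm φ Z) := by
  funext d
  simp only [Geo.Rm, map_sum, map_mul, h.R, vm]

theorem W (X Y Z U : Vec A) :
    φ (S.W X Y Z U) = S'.W (vm φ X) (vm φ Y) (vm φ Z) (vm φ U) := by
  simp only [Geo.W, h.dot, h.Rm]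

theorem nab (u : Op A) (Z : Vec A) : vm φ (S.nab u Z) = S'.nab (om φ u) (vm φ Z) := by
  rw [Geo.nab, Geo.nab, vm_add, h.Gm]
  congr 1
  funext d
  exact h.act u (Z d)

theorem cv (Z : Vec A) : vm φ (S.cv Z) = S'.cv (vm φ Z) := funext fun d => h.c (Z d)

theorem hat (l n m mb X : Vec A) : om φ (Geo.hat S l n m mb X) =
    Geo.hat S' (vm φ l) (vm φ n) (vm φ m) (vm φ mb) (vm φ X) := by
  simp only [om, Geo.hat, map_mul, map_add, map_sub, h.dot, h.nab, map_zero, map_hf]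

/-- The calculus of the image frame. -/
theorem ghp (F : Fr A) : GHP.Hom (F.ghp S) ((fm φ F).ghp S') φ := by
  have x : ∀ X, (Geo.hat S F.l F.n F.m F.mb X).X = X := fun _ => rfl
  have x' : ∀ X, (Geo.hat S' (vm φ F.l) (vm φ F.n) (vm φ F.m) (vm φ F.mb) X).X = X := fun _ => rfl
  constructor <;>
    simp only [Fr.ghp, Geo.ghp, Geo.mk', fm, h.c, h.H, h.Hb, h.act, h.hat, map_neg, h.dot, h.nab,
      h.W, x, x', implies_true]

theorem nl {F : Fr A} (N : F.Nl S) : (fm φ F).Nl S' := by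
  constructor <;> simp only [fm, ← h.cv, ← h.dot, N.c_l, N.c_n, N.c_m, N.ll, N.nn, N.mm, N.ln,
    N.lm, N.nm, N.mmb, map_zero, map_one, map_neg]

theorem dvH (Z : Vec A) : vm φ (Geo.dv S.H Z) = Geo.dv S'.H (vm φ Z) := funext fun d => h.H (Z d)
theorem dvHb (Z : Vec A) : vm φ (Geo.dv S.Hb Z) = Geo.dv S'.Hb (vm φ Z) :=
  funext fun d => h.Hb (Z d)

theorem wn {F : Fr A} (N : F.WN S) : (fm φ F).WN S' where
  toNull := h.nl N.nl
  H_l := by simp only [fm, ← h.dvH, N.H_l]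
  H_n := by simp only [fm, ← h.dvH, N.H_n, vm_neg]
  H_m := by simp only [fm, ← h.dvH, N.H_m]
  Hb_m := by simp only [fm, ← h.dvHb, N.Hb_m, vm_neg]

theorem p (F : Fr A) : φ (F.p0 S) = (fm φ F).p0 S' ∧ φ (F.p1 S) = (fm φ F).p1 S' ∧
    φ (F.p2 S) = (fm φ F).p2 S' ∧ φ (F.p3 S) = (fm φ F).p3 S' ∧ φ (F.p4 S) = (fm φ F).p4 S' := by
  simp only [Fr.p0, Fr.p1, Fr.p2, Fr.p3, Fr.p4, map_neg, h.W, fm, and_self]

end GHom

/-- A homomorphism of charts. -/
structure HHom (K : Hp A) (K' : Hp B) (φ : A →ₐ[ℂ] B) : Prop where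
  c : ∀ f, φ (K.c f) = K'.c (φ f)
  d : ∀ i f, φ (K.d i f) = K'.d i (φ f)
  z : ∀ i, φ (K.z i) = K'.z i
  ri : φ K.ri = K'.ri
  Ni : φ K.Ni = K'.Ni

namespace HHom

variable {K : Hp A} {K' : Hp B} (h : HHom K K' φ)
include h

theorem N : φ K.N = K'.N := by simp only [Hp.N, map_add, map_mul, h.z]
theorem P (f : A) : φ (K.P f) = K'.P (φ f) := by simp only [Hp.P_ap, map_sub, map_mul, h.z, h.d]
theorem Q (f : A) : φ (K.Q f) = K'.Q (φ f) := by simp only [Hp.Q_ap, map_sub, map_mul, h.z, h.d]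
theorem H (f : A) : φ (K.H f) = K'.H (φ f) := by simp only [Hp.H_ap, map_add, map_mul, h.z, h.d]
theorem Bf (f : A) : φ (K.B f) = K'.B (φ f) := by simp only [Hp.B_ap, map_add, map_mul, h.z, h.d]

omit h in
theorem e0 (a : Fin 4) : φ (Hp.e0 A a) = Hp.e0 B a := by
  fin_cases a <;> simp [Hp.e0]
theorem om (a : Fin 4) : φ (K.om a) = K'.om a := by
  fin_cases a <;> simp [Hp.om, h.z, h.Ni, map_ii]
theorem mu (a : Fin 4) : φ (K.mu a) = K'.mu a := by
  fin_cases a <;> simp [Hp.mu, h.z, h.Ni, map_ii, map_ofNat]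
theorem mub (a : Fin 4) : φ (K.mub a) = K'.mub a := by
  fin_cases a <;> simp [Hp.mub, h.z, h.Ni, map_ii, map_ofNat]
theorem co (a : Fin 4) : φ (K.co a) = K'.co a := by
  simp only [Hp.co, map_add, map_mul, h.z, e0, h.om]

theorem L (a : Fin 4) (f : A) : φ (K.L a f) = K'.L a (φ f) := by
  simp only [Hp.L_ap, map_add, map_mul, e0, h.om, h.mu, h.mub, h.d, h.P, h.Q, h.ri, map_hf]

theorem geo {g : Fin 4 → Fin 4 → A} {Γ : Fin 4 → Fin 4 → Fin 4 → A} {g' : Fin 4 → Fin 4 → B}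
    {Γ' : Fin 4 → Fin 4 → Fin 4 → B} (hg : ∀ a b, φ (g a b) = g' a b)
    (hΓ : ∀ a b d, φ (Γ a b d) = Γ' a b d) : GHom (K.geo g Γ) (K'.geo g' Γ') φ :=
  ⟨h.c, h.L, h.H, h.Bf, hg, hΓ⟩

end HHom

end Alg

section Ix

variable {J J' E : Type} [NormedAddCommGroup E] [NormedSpace ℝ E] {G : Filter (J × E)}
  {G' : Filter (J' × E)} {κ : J' → J}

/-- The change of the index set κ is compatible with the filters. -/
def Rx (G' : Filter (J' × E)) (G : Filter (J × E)) (κ : J' → J) : Prop :=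
  Tendsto (fun p : J' × E => (κ p.1, p.2)) G' G

omit [NormedSpace ℝ E] in
theorem rx_nb {F : Filter J'} {K : J' → Set E} {K0 : J → Set E} (h : ∀ᶠ j in F, K j ⊆ K0 (κ j)) :
    Rx (nb F K) (nb ⊤ K0) κ := fun P hP => by
  have h1 : ∀ᶠ p in nb ⊤ K0, p ∈ P := hP
  rw [ev_nb, eventually_top] at h1
  exact ev_nb.2 (h.mono fun j hj x hx => h1 (κ j) x (hj hx))

omit [NormedAddCommGroup E] [NormedSpace ℝ E] in
theorem Rx.ev (h : Rx G' G κ) {P : J × E → Prop} (hP : ∀ᶠ p in G, P p) :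
    ∀ᶠ p in G', P (κ p.1, p.2) := Tendsto.eventually h hP

theorem Rx.smF (h : Rx G' G κ) {f : J × E → ℂ} (hf : SmF G f) :
    SmF G' fun p => f (κ p.1, p.2) := h.ev hf

variable [Loc G] [Loc G'] (h : Rx G' G κ)

noncomputable def Rx.rix0 (a : Sm G) : Sm G' := mk _ (h.smF (rep_sm a))

theorem Rx.rix0_mk (f : J × E → ℂ) (hf : SmF G f) : h.rix0 (mk f hf) = mk _ (h.smF hf) :=
  mk_eq.2 (h.ev (rep_mk f hf))

/-- The homomorphism of the rings of germs. -/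
noncomputable def Rx.rix : Sm G →ₐ[ℂ] Sm G' where
  toFun := h.rix0
  map_one' := h.rix0_mk _ (smF_const fun _ => 1)
  map_zero' := h.rix0_mk _ (smF_const fun _ => 0)
  map_add' u v := by
    obtain ⟨f, hf, rfl⟩ := mk_surj u
    obtain ⟨g, hg, rfl⟩ := mk_surj v
    simp only [mk_add, h.rix0_mk]
    rfl
  map_mul' u v := by
    obtain ⟨f, hf, rfl⟩ := mk_surj u
    obtain ⟨g, hg, rfl⟩ := mk_surj v
    simp only [mk_mul, h.rix0_mk]
    rfl
  commutes' z := h.rix0_mk _ (smF_const fun _ => z)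

theorem Rx.rix_mk (f : J × E → ℂ) (hf : SmF G f) : h.rix (mk f hf) = mk _ (h.smF hf) :=
  h.rix0_mk f hf

theorem Rx.rs {a : Sm G} {f : J × E → ℂ} (e : Rs a f) : Rs (h.rix a) fun p => f (κ p.1, p.2) :=
  (rep_mk _ (h.smF (rep_sm a))).trans (h.ev e)

theorem Rx.rep (a : Sm G) : Rs (h.rix a) fun p => rep a (κ p.1, p.2) := h.rs (rs_rep a)

theorem Rx.rix_pd (v : E) (a : Sm G) : h.rix (pd v a) = pd v (h.rix a) := by
  obtain ⟨f, hf, rfl⟩ := mk_surj a
  simp only [pd_mk, h.rix_mk]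
  rfl

theorem Rx.rix_cj (a : Sm G) : h.rix (cj a) = cj (h.rix a) := by
  obtain ⟨f, hf, rfl⟩ := mk_surj a
  simp only [cj_mk, h.rix_mk]

theorem Rx.rix_cst (c : J → ℂ) : h.rix (cst c) = cst (c ∘ κ) := h.rix_mk _ _

theorem Rx.rix_gm {f : J × E → ℂ} (hf : SmF G f) :
    h.rix (gm G f) = gm G' fun p => f (κ p.1, p.2) :=
  (h.rs (rs_gm hf)).ext (rs_gm (h.smF hf)) EventuallyEq.rfl

theorem Rx.rix_inv {a : Sm G} (ha : IsUnit a) :
    h.rix (Ring.inverse a) = Ring.inverse (h.rix a) := by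
  obtain ⟨u, rfl⟩ := ha
  rw [Ring.inverse_unit]
  have e : h.rix u = (Units.map (h.rix : Sm G →* Sm G') u : (Sm G')ˣ) := rfl
  rw [e, Ring.inverse_unit]
  rfl

end Ix

section Chart

variable {J J' : Type} {G : Filter (J × E6)} {G' : Filter (J' × E6)} {κ : J' → J} [Loc G] [Loc G']
  (h : Rx G' G κ)
include h

omit [Loc G] [Loc G'] in
theorem Rx.off (o : Off G) : Off G' := h.ev o

theorem Rx.hp (o : Off G) : HHom (hp G) (hp G') h.rix where
  c := h.rix_cj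
  d i f := by simp only [hp_d, map_add, map_mul, AlgHom.commutes, h.rix_pd]
  z i := (h.rs (rs_z i)).ext (rs_z i) EventuallyEq.rfl
  ri := (h.rs (rs_ri o)).ext (rs_ri (h.off o)) EventuallyEq.rfl
  Ni := (h.rs (rs_Ni o)).ext (rs_Ni (h.off o)) EventuallyEq.rfl

omit [Loc G] [Loc G'] in
theorem Rx.smB {f : J → R4 → ℝ} (hf : SmB G f) : SmB G' fun j => f (κ j) := h.ev hf

theorem Rx.rix_pb (o : Off G) {f : J → R4 → ℝ} (hf : SmB G f) :
    h.rix (pb G f) = pb G' fun j => f (κ j) :=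
  (h.rs (rs_pb o hf)).ext (rs_pb (h.off o) (h.smB hf)) EventuallyEq.rfl

theorem Rx.geo (o : Off G) (k : ℝ) {g : J → R4 → R4 → R4 → ℝ}
    (hg : ∀ᶠ p in G, VacAt (g p.1) (pj p.2)) :
    GHom (geo G k g) (geo G' k fun j => g (κ j)) h.rix :=
  (h.hp o).geo
    (fun a b => by
      rw [map_mul, AlgHom.commutes, h.rix_pb o (f := fun j => gc (g j) a b)
        (hg.mono fun _ v => v.sm_g a b)])
    fun a b d => h.rix_pb o (f := fun j => Gc (g j) a b d) (hg.mono fun _ v => v.sm_G a b d)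

end Chart

end Vale.Agent.P354YA
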