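import Vale.Agent.P354YA.Inst
import Vale.Agent.P354Z.Skel

/-!
EXZ: there are admissible parameters.
-/

open Set Filter Topology

noncomputable section

namespace Vale.Agent.P354YA

open Vale.Agent.P354I (rm rp)
open Vale.Agent.P354R (Del)
open Vale.Agent.P354XE (ka)
open Vale.Agent.P354YT (tb qm tb_d qm_le rp_lt Del_pos)
open Vale.Agent.P354YR (M_pos ka_pos)
open Vale.Agent.P354Z (Z1 EXZ)

variable {M a x y : ℝ}

theorem tb_lip (h : |a| < M) (hx : 10 * M ≤ x) (e : x ≤ y) :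
    tb M a y - tb M a x ≤ 1 / 4 * (y - x) :=
  (convex_Ici (10 * M)).image_sub_le_mul_sub_of_deriv_le
    (fun _ k => (tb_d h (rp_lt h k)).continuousAt.continuousWithinAt)
    (fun _ k => (tb_d h (rp_lt h (interior_subset k))).differentiableAt.differentiableWithinAt)
    (fun _ k => (tb_d h (rp_lt h (interior_subset k))).deriv.trans_le
      (qm_le h (interior_subset k))) x hx y (hx.trans e) e

theorem tb_mon (h : |a| < M) (hx : 10 * M ≤ x) (e : x ≤ y) :
    tb M a x - M * Real.log x ≤ tb M a y - M * Real.log y := by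
  have m := M_pos h
  have d {r : ℝ} (k : 10 * M ≤ r) :
      HasDerivAt (fun r => tb M a r - M * Real.log r) (qm M a r - M * r⁻¹) r :=
    (tb_d h (rp_lt h k)).sub ((Real.hasDerivAt_log (by linarith)).const_mul M)
  refine monotoneOn_of_deriv_nonneg (convex_Ici (10 * M))
    (fun _ k => (d k).continuousAt.continuousWithinAt)
    (fun _ k => (d (interior_subset k)).differentiableAt.differentiableWithinAt)
    (fun r k => ?_) hx (hx.trans e) e
  have k1 : 10 * M ≤ r := interior_subset k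
  have r0 : 0 < r := by linarith
  have a2 : a ^ 2 < M ^ 2 := sq_lt_sq' (abs_lt.1 h).1 (abs_lt.1 h).2
  rw [(d k1).deriv, sub_nonneg, qm, ← div_eq_mul_inv, div_le_div_iff₀ r0 (Del_pos h (rp_lt h k1)),
    Del]
  nlinarith [mul_pos m r0, mul_pos m (mul_pos r0 r0), mul_le_mul_of_nonneg_left k1 (mul_pos m m).le,
    mul_lt_mul_of_pos_left a2 m, mul_pos m (mul_pos m m)]

theorem tb_top (h : |a| < M) : Tendsto (tb M a) atTop atTop := by
  refine tendsto_atTop_mono' _ ?_ (tendsto_atTop_add_const_left _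
    (tb M a (10 * M) - M * Real.log (10 * M)) (Real.tendsto_log_atTop.const_mul_atTop (M_pos h)))
  filter_upwards [eventually_ge_atTop (10 * M)] with r hr
  linarith [tb_mon h le_rfl hr]

theorem tb_mono (h : |a| < M) (hx : 10 * M ≤ x) (e : x ≤ y) : tb M a x ≤ tb M a y := by
  have m := M_pos h
  have := mul_le_mul_of_nonneg_left (Real.log_le_log (by linarith) e) m.le
  linarith [tb_mon h hx e]

theorem pm_ok (z : Z1) {Rs Rb : ℝ} (h : |z.a| < z.M)
    (hr : z.r1 ∈ Ioo (rm z.M z.a) (rp z.M z.a)) (h1 : 10 * z.M + 10 ≤ z.R1) (h2 : z.R1 + 1 ≤ Rs)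
    (h3 : z.R1 ≤ Rb) (h4 : 0 < z.del) (h5 : z.del ≤ 1 / 10) : Ok2 (z.pm Rs Rb) := by
  have m := M_pos h
  refine ⟨⟨h, hr, by simp only [Z1.pm]; linarith, le_rfl, h2, by norm_num [Z1.pm],
    contDiff_const, fun r k => ?_, fun r k => ?_, by simp only [Z1.pm]; linarith, h4, h5⟩, h1⟩
  · have r0 : 0 < r := ((P354YR.rm_nn h).trans_lt hr.1).trans_le k
    simp only [Z1.pm, deriv_const', add_zero, Del]
    exact ⟨one_pos, by nlinarith [mul_pos m r0, mul_pos r0 r0]⟩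
  · have := qm_le (r := r) h (by simp only [Z1.pm] at k; linarith)
    simp only [Z1.pm, deriv_const']
    linarith

theorem tb_be {c : P354YT.Pm} (o : c.Ok) (hx : 10 * c.M ≤ x) (e : x ≤ c.Rb) :
    tb c.M c.a x ≤ c.be 0 :=
  (tb_mono o.sub hx e).trans ((o.be_ge (rp_lt o.sub o.Rb)).trans_eq
    (o.be_near (by linarith [o.Rb, o.M0])).symm)

theorem exz (H : NKM) : EXZ := by
  intro M a r1 θ θ1 del Rm a0 h hr h0 h1 h2 h3
  have m := M_pos h
  obtain ⟨R, k1, k2, k3⟩ := (((Real.tendsto_exp_atTop.comp ((tb_top h).const_mul_atTop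
      (ka_pos h))).eventually_ge_atTop (2 * θ1)).and ((eventually_ge_atTop Rm).and
        (eventually_ge_atTop (10 * M + 10)))).exists
  have ok (κ Rs Rb : ℝ) (e : R + 1 ≤ Rs) (e' : R + 2 ≤ Rb) :
      Ok2 (Z1.pm ⟨M, a, r1, θ, θ1, del, R, κ⟩ Rs Rb) := pm_ok _ h hr k3 e (by linarith) h2 h3
  obtain ⟨κ, hκ⟩ := H _ (ok 0 _ _ le_rfl le_rfl)
  exact ⟨R, k2, κ, a0, ⟨h0, h1⟩, fun Rs e Rb e' => ⟨ok κ Rs Rb e e', hκ,
    k1.trans (Real.exp_le_exp.2 (mul_le_mul_of_nonneg_left (tb_be (ok κ Rs Rb e e').1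
      (show 10 * M ≤ R by linarith) (show R ≤ Rb by linarith)) (ka_pos h).le))⟩⟩

/-- The parameters of the four blocks are admissible for the scheme. -/
theorem z_ad {z : Z1} (h : z.Ok) {Rs Rb r1 R0 : ℝ} (e : z.R1 + 1 ≤ Rs) (e' : z.R1 + 2 ≤ Rb)
    (er : z.r1 = (rm z.M z.a + r1) / 2) (h1 : R0 ≤ z.R1) (h2 : R0 * z.del ≤ 1) :
    Pr.Ad ⟨z.pm Rs Rb, z.κ, Rs⟩ z.M z.a r1 z.θ1 R0 := by
  obtain ⟨o, m, k⟩ := h.ok Rs e Rb e'
  exact ⟨rfl, rfl, er, o, m, ⟨o.1, h1, e', h2⟩, le_trans (by linarith [h.θ.1, h.θ.2]) k⟩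

end Vale.Agent.P354YA
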