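import Vale.Agent.P354XE.Defs
import Vale.Agent.P354XK.KF
import Vale.Agent.P354XQ.Top
import Vale.Agent.P354PU.Pull1

/-!
The exchange of the two ends on the slice, and its action on the data.
-/

open scoped ContDiff ENNReal
open Set Filter Topology Matrix

noncomputable section

namespace Vale.Agent.P354YA

open Vale.Agent.P354n (R4)
open Vale.Agent.P354I (X Dat Cy1 Cyl Con Eqv pd ee dT dP rnd Sg)
open Vale.Agent.P354J (PDy)
open Vale.Agent.P354T (DSm Sm)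
open Vale.Agent.P354XS (rad sd zc dZ hs ds wq wi qm DA BA AA)
open Vale.Agent.P354XE (pt xs mir rd)
open Vale.Agent.P354M2 (Hb)
open Vale.Agent.P354XK Vale.Agent.P354XQ

/-- The reflection in the plane y 1 = 0. -/
def rf : X →L[ℝ] X :=
  ContinuousLinearMap.id ℝ X - (2 : ℝ) • (EuclideanSpace.proj 1 : X →L[ℝ] ℝ).smulRight (ee 1)

theorem rf_0 (y : X) : rf y 0 = y 0 := by simp [rf, ee]
theorem rf_1 (y : X) : rf y 1 = -y 1 := by simp [rf, ee]; ring
theorem rf_2 (y : X) : rf y 2 = y 2 := by simp [rf, ee]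

theorem rf_rf (y : X) : rf (rf y) = y := by
  ext i
  fin_cases i <;> simp [rf_0, rf_1, rf_2]

theorem rf_inner (v w : X) : inner ℝ (rf v) (rf w) = inner ℝ v w := by
  rw [inn, inn, rf_0, rf_0, rf_1, rf_1, rf_2, rf_2]; ring

theorem rf_norm (y : X) : ‖rf y‖ = ‖y‖ := by
  rw [norm_eq_sqrt_real_inner, norm_eq_sqrt_real_inner, rf_inner]

/-- The constant of the inversion, and the exchange of the ends. -/
def cc (M a : ℝ) : ℝ := (M ^ 2 - a ^ 2) / 4
def mx (M a : ℝ) (y : X) : X := (cc M a / ‖y‖ ^ 2) • rf y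

variable {M a : ℝ} {y : X}

theorem mir_pt (T : ℝ) (y : X) : mir M a (pt T y) = pt T (mx M a y) := by
  have e : rd (pt T y) = ‖y‖ := by
    rw [rd]
    congr 1
    ext i
    fin_cases i <;> rfl
  rw [mir, e]
  simp only [pt, mx, cc, PiLp.smul_apply, rf_0, rf_1, rf_2, smul_eq_mul, Prod.smul_mk, div_div]

theorem cc_pos (h : |a| < M) : 0 < cc M a := by
  have := sq_lt_sq' (neg_lt_of_abs_lt h) (lt_of_abs_lt h)
  rw [cc]
  linarith

theorem mx_norm (h : |a| < M) (hy : y ≠ 0) : ‖mx M a y‖ = cc M a / ‖y‖ := by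
  have y0 : 0 < ‖y‖ := norm_pos_iff.2 hy
  have := cc_pos h
  rw [mx, norm_smul, rf_norm, Real.norm_of_nonneg (by positivity)]
  field_simp

theorem mx_ne (h : |a| < M) (hy : y ≠ 0) : mx M a y ≠ 0 := by
  rw [← norm_pos_iff, mx_norm h hy]
  exact div_pos (cc_pos h) (norm_pos_iff.2 hy)

theorem mx_mx (h : |a| < M) (hy : y ≠ 0) : mx M a (mx M a y) = y := by
  have y0 : 0 < ‖y‖ := norm_pos_iff.2 hy
  have := cc_pos h
  rw [mx, mx_norm h hy, mx, map_smul, rf_rf, smul_smul]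
  have : cc M a / (cc M a / ‖y‖) ^ 2 * (cc M a / ‖y‖ ^ 2) = 1 := by field_simp
  rw [this, one_smul]

theorem mx_at (hy : y ≠ 0) : ContDiffAt ℝ ∞ (mx M a) y :=
  (contDiffAt_const.div ((contDiffAt_norm ℝ hy).pow 2)
    (pow_ne_zero 2 (norm_ne_zero_iff.2 hy))).smul rf.contDiff.contDiffAt

theorem mx_sm : ContDiffOn ℝ ∞ (mx M a) {0}ᶜ := fun _ hy => (mx_at hy).contDiffWithinAt

theorem mx_fd (hy : y ≠ 0) (v : X) :
    fderiv ℝ (mx M a) y v = (cc M a / ‖y‖ ^ 2) • (rf v - (2 * dT y v) • rf y) := by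
  have y0 : ‖y‖ ^ 2 ≠ 0 := pow_ne_zero 2 (norm_ne_zero_iff.2 hy)
  have h1 : HasFDerivAt (fun y : X => ‖y‖ ^ 2) (2 • innerSL ℝ y) y :=
    (hasStrictFDerivAt_norm_sq y).hasFDerivAt
  have h2 := (((hasDerivAt_inv y0).comp_hasFDerivAt y h1).const_mul (cc M a)).smul rf.hasFDerivAt
  have e : mx M a = fun y : X => (cc M a * (‖y‖ ^ 2)⁻¹) • rf y := by
    funext y
    rw [mx, div_eq_mul_inv]
  rw [e]
  refine (congrArg (fun L : X →L[ℝ] X => L v) h2.fderiv).trans ?_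
  simp only [Function.comp_apply, _root_.add_apply, _root_.smul_apply,
    ContinuousLinearMap.smulRight_apply, innerSL_apply_apply, smul_smul, dT,
    smul_eq_mul, nsmul_eq_mul, sub_eq_add_neg, ← neg_smul, div_eq_mul_inv, smul_add]
  congr 2
  field_simp
  ring

section
variable (h : |a| < M) (hy : y ≠ 0)
include h hy

theorem mx_rad : rad M a (mx M a y) = rad M a y := by
  have y0 : 0 < ‖y‖ := norm_pos_iff.2 hy
  have := cc_pos h
  have e : M ^ 2 - a ^ 2 = 4 * cc M a := by rw [cc]; ring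
  rw [rad, rad, mx_norm h hy, e]
  field_simp
  ring

theorem mx_sd : sd M a (mx M a y) = -sd M a y := by
  have y0 : 0 < ‖y‖ := norm_pos_iff.2 hy
  have := cc_pos h
  have e : M ^ 2 - a ^ 2 = 4 * cc M a := by rw [cc]; ring
  rw [sd, sd, mx_norm h hy, e]
  field_simp
  ring

theorem mx_zc : zc (mx M a y) = zc y := by
  have y0 : 0 < ‖y‖ := norm_pos_iff.2 hy
  have := cc_pos h
  rw [zc, zc, mx_norm h hy, mx, PiLp.smul_apply, rf_2, smul_eq_mul]
  field_simp

theorem mx_Sg (r : ℝ) : Sg a r (mx M a y) = Sg a r y := by rw [Sg_eq, Sg_eq, mx_zc h hy]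

theorem mx_dT (v : X) : dT (mx M a y) (fderiv ℝ (mx M a) y v) = -dT y v := by
  have y0 : 0 < ‖y‖ := norm_pos_iff.2 hy
  have := cc_pos h
  rw [dT, mx_norm h hy, mx_fd hy, mx, inner_smul_left, inner_smul_right, inner_sub_right,
    inner_smul_right, rf_inner, rf_inner, real_inner_self_eq_norm_sq, dT]
  simp only [conj_trivial]
  field_simp
  ring

theorem mx_dP (v : X) : dP (mx M a y) (fderiv ℝ (mx M a) y v) = -dP y v := by
  have y0 : 0 < ‖y‖ := norm_pos_iff.2 hy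
  have := cc_pos h
  rw [dP, mx_norm h hy, mx_fd hy, mx, dP]
  simp only [PiLp.smul_apply, PiLp.sub_apply, rf_0, rf_1, smul_eq_mul]
  field_simp
  ring

theorem mx_dZ (v : X) : dZ (mx M a y) (fderiv ℝ (mx M a) y v) = dZ y v := by
  have y0 : 0 < ‖y‖ := norm_pos_iff.2 hy
  have := cc_pos h
  rw [dZ, mx_dT h hy, mx_zc h hy, mx_norm h hy, mx_fd hy, dZ, zc]
  simp only [PiLp.smul_apply, PiLp.sub_apply, rf_2, smul_eq_mul]
  field_simp
  ring

theorem mx_inn (v w : X) : inner ℝ (fderiv ℝ (mx M a) y v) (fderiv ℝ (mx M a) y w) /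
    ‖mx M a y‖ ^ 2 = inner ℝ v w / ‖y‖ ^ 2 := by
  have y0 : 0 < ‖y‖ := norm_pos_iff.2 hy
  have := cc_pos h
  rw [mx_norm h hy, mx_fd hy, mx_fd hy]
  simp only [inner_smul_left, inner_smul_right, inner_sub_left, inner_sub_right, rf_inner,
    real_inner_self_eq_norm_sq, conj_trivial, dT, real_inner_comm y, rf_norm]
  field_simp
  ring

theorem mx_hs (v w : X) :
    hs M a (mx M a y) (fderiv ℝ (mx M a) y v) (fderiv ℝ (mx M a) y w) = hs M a y v w := by
  rw [hs_eq, hs_eq, mx_inn h hy, mx_dP h hy, mx_dP h hy, mx_Sg h hy, mx_rad h hy]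
  ring

theorem mx_Kc (v w : X) :
    Kc M a (mx M a y) (fderiv ℝ (mx M a) y v) (fderiv ℝ (mx M a) y w) = Kc M a y v w := by
  simp only [Kc, ec, mx_dP h hy, mx_Sg h hy, mx_rad h hy, mx_zc h hy, mx_dT h hy, mx_dZ h hy,
    mx_sd h hy]
  ring

end

theorem hs_sum (z v w : X) : ∑ k, ∑ l, v k * w l * hs M a z (ee k) (ee l) = hs M a z v w := by
  simp only [hs_eq, inn, dP, Fin.sum_univ_three, ee, PiLp.single_apply]
  simp
  ring

theorem Kc_sum (z v w : X) : ∑ k, ∑ l, v k * w l * Kc M a z (ee k) (ee l) = Kc M a z v w := by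
  simp only [Kc, ec, dZ, dT, inn, dP, Fin.sum_univ_three, ee, PiLp.single_apply]
  simp
  ring

/-- The Kerr data are invariant. -/
theorem ds_mx (h : |a| < M) : Eqv ((ds M a).pull (mx M a)) (ds M a) := by
  intro y hy
  obtain ⟨h0, h1⟩ := sq_of h
  constructor
  · ext i j
    exact (hs_sum _ _ _).trans (mx_hs h hy _ _)
  · ext i j
    simp only [Dat.pull, of_apply, K_eq h0 h1 hy, K_eq h0 h1 (mx_ne h hy)]
    rw [← mx_Kc h hy, ← Kc_sum, Finset.mul_sum]
    refine Finset.sum_congr rfl fun k _ => ?_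
    rw [Finset.mul_sum]
    refine Finset.sum_congr rfl fun l _ => ?_
    simp only [pd]
    ring

theorem cyl_mx (h : |a| < M) : ∃ B, Cyl B (mx M a) (mx M a) := by
  have c0 := cc_pos h
  have hom : ∀ t > 0, ∀ y ≠ 0, mx M a y = t ^ 1 • mx M a ((t : ℝ) • y) := by
    intro t ht y hy
    have y0 : 0 < ‖y‖ := norm_pos_iff.2 hy
    rw [mx, mx, map_smul, smul_smul, smul_smul, norm_smul, Real.norm_of_nonneg ht.le]
    congr 1
    field_simp
  choose C C0 hC using fun m => P354M2.hb_hom m 1 (mx_sm (M := M) (a := a)) hom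
  have k : Cy1 (fun j => C j / cc M a + (2 + 2 * Real.log (cc M a) ^ 2)) (mx M a) := by
    refine ⟨mx_sm, fun y hy => mx_ne h hy, fun j y hy => ?_, fun y hy => ?_⟩
    · have y0 : 0 < ‖y‖ := norm_pos_iff.2 hy
      refine (hC j y hy j le_rfl).trans ?_
      rw [mx_norm h hy, add_mul]
      refine le_add_of_le_of_nonneg (le_of_eq ?_) (by positivity)
      field_simp
    · have y0 : 0 < ‖y‖ := norm_pos_iff.2 hy
      rw [mx_norm h hy, Real.log_div c0.ne' y0.ne']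
      have := div_nonneg (C0 0) c0.le
      generalize Real.log (cc M a) = p, Real.log ‖y‖ = q, C 0 / cc M a = s at *
      nlinarith [sq_nonneg (p - q), sq_nonneg (2 * p - q), mul_nonneg this (sq_nonneg (p - q)),
        mul_nonneg (sq_nonneg p) (sq_nonneg (p - q))]
  exact ⟨_, k, k, fun y hy => ⟨mx_mx h hy, mx_mx h hy⟩⟩

/-- The pull back of a tensor. -/
theorem wq_pull (B : ℕ → ℝ) (m : ℕ) {A : ℝ} (hA : 0 < A) : ∃ C > 0, ∀ (w : X → ℝ) (ψ : X → X)
    (F : Fin 3 → Fin 3 → X → ℝ) (η : ℝ), (∀ y ≠ 0, 0 < w y) → (∀ y ≠ 0, w y ≤ A * w (ψ y)) →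
    0 ≤ η → Cy1 B ψ → (∀ k l, Sm (F k l)) → (∀ k l, wq w m (F k l) ≤ ENNReal.ofReal η) → ∀ i j,
      wq w m (fun y => ∑ k, ∑ l, pd i ψ y k * pd j ψ y l * F k l (ψ y)) ≤
        ENNReal.ofReal (C * η) := by
  obtain ⟨D, hD, hB⟩ : ∃ D, 1 ≤ D ∧ ∀ j ≤ m + 1, B j ≤ D := by
    have h0 : 0 ≤ ∑ j ∈ Finset.range (m + 2), |B j| := Finset.sum_nonneg fun _ _ => abs_nonneg _
    refine ⟨1 + ∑ j ∈ Finset.range (m + 2), |B j|, by linarith, fun j hj => ?_⟩
    have := Finset.single_le_sum (f := fun j => |B j|) (fun _ _ => abs_nonneg _)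
      (Finset.mem_range.2 (show j < m + 2 by omega))
    linarith [le_abs_self (B j)]
  have D0 : 0 < D := by linarith
  refine ⟨(m + 1) * (9 * (2 ^ m * (2 ^ m * D * D) * (m.factorial * D ^ m) * A)), by positivity,
    fun w ψ F η w0 hw hη h hF hq i j => ?_⟩
  rw [mul_assoc]
  refine wq_le_of fun n hn y hy => ?_
  have y0 : 0 < ‖y‖ := norm_pos_iff.2 hy
  have t0 : 0 < ‖ψ y‖ := norm_pos_iff.2 (h.ne y hy)
  have q0 := w0 _ (h.ne y hy)
  have p0 := w0 y hy
  have h1 : Hb (m + 1) ψ y (D * ‖ψ y‖) := fun j hj =>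
    (h.bd j y hy).trans (mul_le_mul_of_nonneg_right (hB j hj) t0.le)
  have s1 : ∀ k l, Sm fun y => F k l (ψ y) := fun k l => (hF k l).comp h.sm h.ne
  have s2 : ∀ k l, Sm fun y => pd i ψ y k * pd j ψ y l := fun k l =>
    (P354M2.pd_sm h.sm i k).mul (P354M2.pd_sm h.sm j l)
  have h0 : ∀ k l, Hb m (F k l) (ψ y) (η / (w (ψ y) * ‖ψ y‖ ^ 2)) := fun k l n hn => by
    rw [le_div_iff₀ (by positivity)]
    refine le_trans (le_of_eq ?_) (le_of_wq hn hη (hq k l) (h.ne y hy))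
    ring
  have h2 := fun k l => (((h1.pd h.sm hy i k).mul (P354M2.pd_sm h.sm i k) (P354M2.pd_sm h.sm j l)
    hy (h1.pd h.sm hy j l)).mul (s2 k l) (s1 k l) hy (Hb.comp (hF k l) h.sm h.ne hy hD
      (h0 k l) (h1.mono m.le_succ le_rfl)))
  have h3 := Hb.sum Finset.univ (fun k => ContDiffOn.sum fun l _ => (s2 k l).mul (s1 k l)) hy
    (fun k => Hb.sum Finset.univ (fun l => (s2 k l).mul (s1 k l)) hy (h2 k)) n hn
  have h4 : w y / w (ψ y) ≤ A := (div_le_iff₀ q0).2 (hw y hy)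
  have h5 := mul_le_mul_of_nonneg_left h4
    (show 0 ≤ 9 * (2 ^ m * (2 ^ m * D * D) * (m.factorial * D ^ m)) * η by positivity)
  have h6 := mul_le_mul_of_nonneg_left h3 (show 0 ≤ w y * ‖y‖ ^ 2 by positivity)
  refine le_trans (le_of_eq (by ring)) (h6.trans (le_trans (le_of_eq ?_) (h5.trans_eq (by ring))))
  simp only [Finset.card_univ, Fintype.card_fin]
  push_cast
  field_simp
  ring

theorem wi_mx (h : |a| < M) (hy : y ≠ 0) : wi y ≤ (cc M a + (cc M a)⁻¹) * wi (mx M a y) := by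
  have y0 : 0 < ‖y‖ := norm_pos_iff.2 hy
  have c0 := cc_pos h
  rw [wi, wi, mx_norm h hy, ← div_eq_mul_inv, le_div_iff₀ (by positivity), inv_mul_le_iff₀
    (by positivity), inv_div, div_eq_mul_inv, div_eq_mul_inv]
  have := mul_pos y0 c0
  have := mul_pos (inv_pos.2 y0) (inv_pos.2 c0)
  nlinarith

/-- The seminorms of the reflected data. -/
theorem qm_mx (h : |a| < M) (m : ℕ) : ∃ C : ℝ, 0 < C ∧ ∀ d d', DSm d → DSm d' →
    qm m (d.pull (mx M a)) (d'.pull (mx M a)) ≤ ENNReal.ofReal C * qm m d d' := by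
  obtain ⟨B, hB⟩ := cyl_mx h
  have c0 := cc_pos h
  have A1 : 1 ≤ cc M a + (cc M a)⁻¹ := by
    rcases le_total 1 (cc M a) with k | k
    · linarith [inv_pos.2 c0]
    · linarith [(one_le_inv₀ c0).2 k]
  obtain ⟨C, C0, hC⟩ := wq_pull B m (A := cc M a + (cc M a)⁻¹) (by positivity)
  refine ⟨18 * C, by positivity, fun d d' D D' => ?_⟩
  rcases eq_or_ne (qm m d d') ⊤ with e | e
  · rw [e, ENNReal.mul_top (ENNReal.ofReal_pos.2 (by positivity)).ne']
    exact le_top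
  have e' := (ENNReal.ofReal_toReal e).symm
  have η0 : 0 ≤ (qm m d d').toReal := ENNReal.toReal_nonneg
  rw [e', ← ENNReal.ofReal_mul (by positivity), mul_assoc]
  refine qm_le_of (by positivity) fun i j => ⟨?_, ?_⟩
  · refine le_of_eq_of_le (wq_congr wi m fun y _ => ?_)
      (hC wi _ (fun k l y => d.h y k l - d'.h y k l) _ (fun _ => wi_pos) (fun _ => wi_mx h) η0 hB.l
        (fun k l => (D k l).1.sub (D' k l).1) (fun k l => (qm_parts e'.le k l).1) i j)
    simp only [Dat.pull, of_apply, mul_sub, Finset.sum_sub_distrib]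
  · refine le_of_eq_of_le (wq_congr 1 m fun y _ => ?_)
      (hC 1 _ (fun k l y => d.K y k l - d'.K y k l) _ (fun _ _ => one_pos)
        (fun _ _ => by simpa using A1) η0 hB.l
        (fun k l => (D k l).2.sub (D' k l).2) (fun k l => (qm_parts e'.le k l).2) i j)
    simp only [Dat.pull, of_apply, mul_sub, Finset.sum_sub_distrib]

theorem qm_mx_ds (h : |a| < M) (m : ℕ) : ∃ C : ℝ, 0 < C ∧ ∀ d, DSm d →
    qm m (d.pull (mx M a)) (ds M a) ≤ ENNReal.ofReal C * qm m d (ds M a) := by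
  obtain ⟨C, C0, hC⟩ := qm_mx h m
  refine ⟨C, C0, fun d D => ?_⟩
  rw [← qm_congr m (fun _ _ => ⟨rfl, rfl⟩) (ds_mx h)]
  exact hC d _ D (pdy h).1

/-- The reflected data. -/
def mirD (h : |a| < M) (d : DA M a) : DA M a :=
  ⟨d.1.pull (mx M a), P354PU.pdy_pull (cyl_mx h).choose_spec d.2.1,
    P354PU.con_pull (cyl_mx h).choose_spec d.2.1 d.2.2.1, fun m => by
      obtain ⟨C, -, hC⟩ := qm_mx_ds h m
      exact (hC d.1 (dsm d)).trans_lt (ENNReal.mul_lt_top ENNReal.ofReal_lt_top (d.2.2.2 m))⟩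

theorem mirD_val (h : |a| < M) (d : DA M a) : (mirD h d).1 = d.1.pull (mx M a) := rfl

theorem mirD_mirD (h : |a| < M) (d : DA M a) : Eqv (mirD h (mirD h d)).1 d.1 :=
  P354PU.eqv_pull (cyl_mx h).choose_spec d.1

/-- The reflection maps a small ball into a given ball. -/
theorem mirD_BA (h : |a| < M) (m : ℕ) {η : ℝ} (hη : 0 < η) :
    ∃ η' > 0, η' ≤ η ∧ ∀ d ∈ BA M a m η', d ∈ BA M a m η ∧ mirD h d ∈ BA M a m η := by
  obtain ⟨C, C0, hC⟩ := qm_mx_ds h m
  have le : η / (C + 1) ≤ η := div_le_self hη.le (by linarith)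
  refine ⟨η / (C + 1), by positivity, le, fun d hd => ⟨?_, ?_⟩⟩
  · exact lt_of_lt_of_le hd (ENNReal.ofReal_le_ofReal le)
  · have hd' : qm m d.1 (ds M a) < ENNReal.ofReal (η / (C + 1)) := hd
    refine (hC d.1 (dsm d)).trans_lt (lt_of_le_of_lt (mul_le_mul_right hd'.le _) ?_)
    rw [← ENNReal.ofReal_mul C0.le, ENNReal.ofReal_lt_ofReal_iff hη, mul_div_assoc',
      div_lt_iff₀ (by positivity)]
    nlinarith

end Vale.Agent.P354YA
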