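import Vale.Agent.P354YQ.OgD
import Vale.Agent.P354YK.Ft
import Vale.Agent.P354BK.Defs

/-!
The pieces of the block BACK: exact statements.
-/

open scoped ContDiff
open Set Filter Topology

noncomputable section

namespace Vale.Agent.P354YA

open Vale.Agent.P354n (R4)
open Vale.Agent.P354XG (E6)
open Vale.Agent.P354XD (pj nq)
open Vale.Agent.P354XE (Tw Far Wb)
open Vale.Agent.P354XV (Flt)
open Vale.Agent.P354YO (sh)
open Vale.Agent.P354MG (Lc lo)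
open Vale.Agent.P354Z

/-- The constants of the scaffold and of the state agree. -/
structure Ag (z : Z1) (c : Cs) : Prop where
  zo : z.Ok
  ok : c.Ok
  M : c.M = z.M
  a : c.a = z.a
  R1 : c.R1 = z.R1

/-- FARX: the estimates far out, in the ingoing chart. -/
def FARX : Prop := ∀ (z : Z1) (N : ℕ) (t1 : ℝ), ∃ Rc, ∀ c : Cs, Ag z c → c.t1 = t1 → Rc ≤ c.R2 →
  ∀ K, ∃ η0 > 0, ∃ C ≥ 1, ∀ gc g E κ Cl e U a A B tw η, E.Is c →
    Lc z c gc g E κ Cl e U a A B tw → |A z.R1| ≤ K → (∀ x ∈ U, Flt (lo z c.Rs) g (pj x)) →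
    P354YK.FT c E (N + 3) η → E.e0 + |E.M - c.M| + |E.a - c.a| ≤ η → η ≤ η0 →
    ∃ β, ∀ y ∈ E.O2, nq y = 1 → Est.Fa c y → Far z.M z.a (6 / 5) (1 / 10) (C * η) N
      (P354XE.pb (sh (-A) (-B)) E.g) β (sh A B (pj y)) ∧
      (4 * c.R1 ≤ y.2.1 → uu c.M y + y.2.1 ≤ c.del * y.2.1 → ∀ i, Wb z.M z.a (N + 2) (β i)
        (sh A B (pj y)) (C * η / y.2.1 ^ 2) (C * η / y.2.1 ^ 3))

/-- LKB: the link of BACK0. -/
def LKB : Prop := ∀ (z : Z1) (c : Cs), Ag z c → 4 ≤ c.N0 → ∀ Cl ≥ 1, ∃ C, ∀ ε > 0, ∃ e2 > 0,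
  ∀ e ∈ Ioc 0 e2, ∀ gc g E κ U a A B tw V L, E.Is c → c.L0 ≤ L → E.e0 ≤ Cl * e →
    E.Dec L (7 / 5) (Cl * e) → E.Lv = Iio V → |A z.R1| ≤ Cl → B z.R1 = 0 →
    Lc z c gc g E κ Cl e U a A B tw → ∃ f gt, P354BK.Lk (lo z c.Rs)
      (P354BK.Zo (lo z c.Rs) (fun _ => 0) V) 4 (7 / 5) C ε g f gt E.M E.a

end Vale.Agent.P354YA
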