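import Vale.Agent.P354YA.Fbn
import Vale.Agent.P354Z.Scf
import Vale.Agent.P354HI.Defs
import Vale.Agent.P354BK.Fin
import Vale.Agent.P354XL.Lkb
import Vale.Agent.P354YQ.Og1
import Vale.Agent.P354LA.Gen

/-!
The block BACK.
-/

open scoped ContDiff
open Set Filter Topology

noncomputable section

namespace Vale.Agent.P354YA

open Vale.Agent.P354n (R4)
open Vale.Agent.P354XG (E6)
open Vale.Agent.P354XD (pj nq)
open Vale.Agent.P354XE (Tw rd Bd gin ka En eT)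
open Vale.Agent.P354XV (Flt Fst Gq Sw Rv th0 O_sw om_rv Yx)
open Vale.Agent.P354YT (Pm tb tau_ok al_mid)
open Vale.Agent.P354YR (nf_ok nis_ok nkg_ok nw_ok)
open Vale.Agent.P354YK (FT)
open Vale.Agent.P354MG (Lc lo Lk)
open Vale.Agent.P354BK (Gau Zo Zc)
open Vale.Agent.P354LA (bd_add)
open Vale.Agent.P354Z

theorem bd_le {f : Tw} {x : R4} {m m' : ℕ} {c c' : ℝ} (h : Bd m f x c) (hm : m' ≤ m) (hc : c ≤ c') :
    Bd m' f x c' := P354LA.bd_mono h hm hc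

theorem fd_st (F : ℝ → ℝ) (p : R4) :
    fderiv ℝ (fun q => F (rd q)) p = fderiv ℝ (fun q => F (rd q)) (0, p.2) := by
  have e : (0, p.2) = p + (-p.1, 0) := by ext <;> simp
  rw [e, ← fderiv_comp_add_right]
  exact congrArg (fun f => fderiv ℝ f p) (funext fun q => by simp [rd, P354XE.xs])

theorem gau_nat {c : Pm} {κ : ℝ} (o : Ok2 c) (k : 0 < κ) : Gau c (nat c κ) := by
  refine ⟨nis_ok c o κ k, fun p j w => ⟨Iff.rfl, ?_⟩, fun p h =>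
    nkg_ok c o κ p (o.1.r1.1.trans_le h)⟩
  have e1 : fderiv ℝ (ca c) p = fderiv ℝ (ca c) (0, p.2) := fd_st (fun r => P354YT.al (c.xi r)) p
  have e2 : fderiv ℝ (cl c) p = fderiv ℝ (cl c) (0, p.2) := fd_st (fun r => P354YT.bp (c.xi r)) p
  have e3 : fderiv ℝ (cn c) p = fderiv ℝ (cn c) (0, p.2) := fd_st (fun r => P354YT.bp (-c.xi r)) p
  show Fa c p _ = Fa c (0, p.2) _
  unfold Fa Fy
  rw [e1, e2, e3]
  rfl

theorem fst_bk {c : Pm} {κ : ℝ} {g : Tw} {p : R4} (k : c.k = 1)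
    (h : |rd p - c.R1| ≤ 1 / 4 → Fst c κ g p) : P354BK.Fst c g p := fun r => by
  rw [k, mul_one] at r
  have f := h r
  obtain ⟨a1, a2, a3⟩ := al_mid (x := c.xi (rd p)) (by rwa [Pm.xi, k, one_mul])
  refine ⟨f.ad (r.trans (by norm_num)), (f.sh (r.trans (by norm_num))).trans ?_⟩
  rw [Yx, Yv, ca, cl, cn, a1, a2, a3, one_smul, neg_smul, smul_sub, add_assoc, ← sub_eq_add_neg]
  rfl

section geo
variable {z : Z1} {Rs Rb V : ℝ} {p : R4} (o : z.Ok) (hs : z.R1 + 1 ≤ Rs)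
include o hs

theorem en_lo (hp : p ∈ (lo z Rs).O) :
    p ∈ En z.M z.a z.r1 z.θ ∧ 3 / 2 * z.θ1 ≤ Real.exp (ka z.M z.a * p.1) := by
  obtain ⟨q, -, b⟩ := o.ok Rs hs _ le_rfl
  have := q.1.mem_En hp.1 hp.2.le
  have t : _ ≤ Real.exp (ka z.M z.a * p.1) := b.trans this.2.1
  exact ⟨⟨this.1, by linarith [o.θ.1, o.θ.2], this.2.2⟩, by linarith [o.θ.1, o.θ.2]⟩

variable (hb : z.R1 + 3 ≤ Rb)
include hb

theorem psi_lo (hp : 0 < rd p) : (z.pm Rs Rb).psi p ≤ (lo z Rs).psi p := by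
  obtain ⟨q, q1⟩ := (o.ok Rs hs _ le_rfl).1
  have q' := (o.ok Rs hs Rb (by linarith)).1.1
  have R : 10 * z.M ≤ z.R1 + 3 := by linarith [show 10 * z.M + 10 ≤ z.R1 from q1]
  have : (lo z Rs).be (rd p) ≤ (z.pm Rs Rb).be (rd p) := by
    rcases le_total (rd p) (z.R1 + 3) with k | k
    · refine ((q.be_mono k).trans_eq (q.be_far (show z.R1 + 2 + 1 ≤ _ by linarith))).trans ?_
      exact (tb_be q' R hb).trans (q'.be_mono hp.le)
    · exact (q.be_far (show z.R1 + 2 + 1 ≤ _ by linarith)).trans_le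
        (q'.be_ge (P354YT.rp_lt q.sub (R.trans k)))
  exact sub_le_sub_right (div_le_div_of_nonneg_right (sub_le_sub_left this _)
    (mul_pos q.del.1 hp).le) _

theorem zc_of (hp : p ∈ (z.pm Rs Rb).O) (h1 : -1 ≤ (z.pm Rs Rb).psi p) :
    p ∈ (lo z Rs).O ∧ -1 ≤ (lo z Rs).psi p :=
  have := psi_lo o hs hb ((o.ok Rs hs _ le_rfl).1.1.pos hp.1)
  ⟨⟨hp.1, hp.2.trans_le this⟩, h1.trans this⟩

end geo

theorem sts_of {z : Z1} {Rs Rb e1 e d V : ℝ} {k L m : ℕ} {gc g : Tw} (o : (z.pm Rs Rb).Ok)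
    (d0 : 0 ≤ d) (cg : z.Cg Rs Rb m d gc) (st : z.St Rs Rb gc V g) (bo : z.Bo Rs Rb k L e1 e V g) :
    Sts z Rs Rb k L m e1 e d gc (Iio V) g :=
  ⟨o, d0, cg, isOpen_Iio, fun _ h => ⟨⟨st_restr o.is h.le st.1, st.2⟩,
    fun x hx l => bo x hx (l.trans h)⟩⟩

theorem th_big {M a : ℝ} (h : |a| < M) (θ : ℝ) :
    ∀ᶠ R in atTop, θ ≤ Real.exp (ka M a * tb M a (R - 1 / 2)) :=
  (Real.tendsto_exp_atTop.comp (((tb_top h).comp (tendsto_atTop_add_const_right _ (-(1 / 2))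
    tendsto_id)).const_mul_atTop (P354YR.ka_pos h))).eventually_ge_atTop θ

/-- **BACK.** -/
theorem back_of (hH : P354HI.HIGH) : BACK Lk FT := fun kc M a r1 θ θ1 del => by
  by_cases aM : |a| < M
  swap
  · exact ⟨0, fun R1 _ κ o => absurd (o.ok _ le_rfl _ le_rfl).1.1.sub aM⟩
  obtain ⟨Rm, hRm⟩ := eventually_atTop.1 (th_big aM (3 / 2 * θ1))
  refine ⟨Rm, fun R1 hR κz o => ?_⟩
  obtain ⟨z, hz⟩ : ∃ z : Z1, z = ⟨M, a, r1, θ, θ1, del, R1, κz⟩ := ⟨_, rfl⟩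
  have t1 : 3 / 2 * z.θ1 ≤ Real.exp (ka z.M z.a * tb z.M z.a (z.R1 - 1 / 2)) := hz ▸ hRm R1 hR
  replace aM : |z.a| < z.M := hz ▸ aM
  rw [← hz] at o ⊢
  clear hz hR hRm
  obtain ⟨kH, hH⟩ := hH z.M z.a aM
  refine ⟨kc + 2 + 3, 4, kH, fun a b hb k hk => ?_⟩
  obtain ⟨k', k1, k2, k3⟩ : ∃ k', k ≤ k' ∧ kc ≤ k' ∧ 4 ≤ k' :=
    ⟨k + kc + 4, by omega, by omega, by omega⟩
  obtain ⟨LH, hH⟩ := hH (k' + 1)
  obtain ⟨Rc, hF⟩ := fbn z kc a.t1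
  refine ⟨max LH b.L0, Rc, fun L hL c hc => ⟨1, one_pos, fun κ _ d ok => ?_⟩⟩
  have ag : Ag z (cs z a b c d) := ⟨o, ok, rfl, rfl, rfl⟩
  have M0 := ag.M0
  have hs2 : z.R1 + 2 ≤ c.Rs := by
    linarith [show 10 * z.M + 10 ≤ z.R1 from ok.R1, show 10 * z.R1 ≤ c.R2 from ok.R2,
      show 10 * c.R2 ≤ c.Rs from ok.Rs]
  have hs : z.R1 + 1 ≤ c.Rs := by linarith
  obtain ⟨R0, hR0⟩ := eventually_atTop.1 (((tb_top aM).eventually_ge_atTop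
    (tb z.M z.a (z.R1 - 1 / 2) + z.R1)).and (eventually_ge_atTop (z.R1 + 3)))
  refine ⟨R0, fun Rb hRb => ?_⟩
  obtain ⟨b1, b2⟩ := hR0 Rb hRb
  obtain ⟨q, mar, -⟩ := o.ok c.Rs hs Rb (by linarith)
  have ql := ag.lo
  obtain ⟨mH, eH, eH0, CH, hH⟩ := hH (z.pm c.Rs Rb) rfl rfl q rfl z.κ (7 / 5) (by norm_num)
  obtain ⟨eF, eF0, hf⟩ := P354XV.first nf_ok tau_ok nw_ok _ q
  obtain ⟨η1, η10, B1, n1⟩ := near_nice q.1 kc
  obtain ⟨η2, η20, n2⟩ := mar.near q.1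
  obtain ⟨Cg, hg⟩ := P354BK.bd_gin z.M z.a q.1.r10 c.Rs (k' + 1)
  obtain ⟨Cd, Cd1, hd⟩ := P354YQ.dec _ ok
  refine ⟨eH, eH0, fun Cl Cl1 e1 he1 => ?_⟩
  obtain ⟨CL, hl⟩ := P354XL.lkb P354YQ.dec P354YQ.ths z _ ag hb Cl Cl1
  obtain ⟨ε, ε0, hB⟩ := P354BK.back0_ok (lo z c.Rs) _ (fun _ => 0) ql.1 (gau_nat ql mar.1)
    ⟨monotone_const, fun _ _ => rfl, fun r r' h => by linarith⟩ k' (7 / 5)
    (max CL (max CH (1 + Cg))) (min (e1 / 2) (min η1 η2)) (by norm_num)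
    (lt_min (half_pos he1.1) (lt_min η10 η20))
  obtain ⟨eL, eL0, hl⟩ := hl ε ε0
  obtain ⟨η0, η00, hF⟩ := hF _ ag rfl hc Cl
  have P : 0 < Cd * Cl := by positivity
  refine ⟨min (min (min eH eF) (min 1 ε)) (min eL (min (1 / Cl) (η0 / (Cd * Cl)))),
    by positivity, max (max mH 3) (k' + 1),
    fun e he m hm dd hdd gc cg V g E st bo hV ⟨is, i0, i1, i2, U, a', A, B, tw, l1, l2, _, lc⟩ => ?_⟩
  obtain ⟨e0, he⟩ := he
  simp only [le_min_iff, ge_iff_le, max_le_iff] at he hm hL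
  obtain ⟨⟨⟨x1, x2⟩, x3, x4⟩, x5, x6, x7⟩ := he
  have S := sts_of q.1 hdd.1.le cg st bo
  have t0 : z.θ ≤ th0 (z.pm c.Rs Rb) := le_trans (by linarith [o.θ.1, o.θ.2]) t1
  have F := hf z.κ _ _ m dd gc V g hm.1.2 (hdd.2.trans x2) t0 t1 cg st
  have pt : ∀ p ∈ (lo z c.Rs).O, (lo z c.Rs).tau p < V → z.Pt c.Rs Rb (Iio V) p :=
    fun p hp h => ⟨(en_lo o hs hp).1, h⟩
  have sw : ∀ p ∈ En z.M z.a z.r1 z.θ, z.R1 - 1 / 2 < rd p → p ∈ Sw (z.pm c.Rs Rb) :=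
    fun p hp r => ⟨hp.1, fun k => ((q.1.En_iff _ p).1 hp).2.2 (q.1.rpR.trans_le k),
      fun k => absurd r k.not_gt⟩
  have H := hH V g ⟨fun p hp => (F p (om_rv (O_sw q.1 (show z.R1 ≤ Rb by linarith) b1) hp)).1,
    fun x hx h => ⟨bd_le (bo x hx h).1 hk he1.2, ((eta_mono hL.1 g x).trans (bo x hx h).2).trans
      (by gcongr)⟩, fun x hx h h0 => bd_le (S.bd0 (pt _ (zc_of o hs b2 hx.2.2.2.1 hx.2.2.2.2).1 h)
        h0) hm.1.1 (hdd.2.trans x1)⟩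
  obtain ⟨f, gt, lk⟩ := hl e ⟨e0, x5⟩ gc g E κ U a' A B tw V L is hL.2 i0 i1 hV l1 l2 lc
  have Z := hB V g f gt E.M E.a ⟨lk.pull, lk.det, lk.par, lk.near,
    fun p hp => (lk.d2 p hp).trans (le_max_left _ _), lk.ini⟩
    (fun p ⟨p1, p2, p3, p4⟩ => ?_) fun p ⟨p1, p2, p3, p4⟩ => ?_
  · have sb : ∀ p ∈ (z.pm c.Rs Rb).O, (z.pm c.Rs Rb).tau p < V → P354YO.Sb g p :=
      fun p hp h => sb_vac (St.vac st.1 ⟨hp, Or.inl h⟩)
    refine ⟨fun x ⟨hx, h⟩ => ?_, ?_⟩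
    · obtain ⟨y1, y2⟩ := zc_of o hs b2 hx.2.2.2.1 hx.2.2.2.2
      exact bd_le (Z _ ⟨y1, y2, (Zs.rd hx).trans_le hx.2.2.1, (add_zero _).trans_lt h⟩) k1
        (min_le_left _ _)
    have c1 : Cl * e ≤ 1 := (mul_comm _ _).trans_le ((le_div_iff₀ (by positivity)).1 x6)
    obtain ⟨B2, n3⟩ := hF gc g E κ Cl e U a' A B tw (Cd * (Cl * e)) V is lc l1
      (fun x hx r => (F _ ⟨sw _ (lc.dom x hx).1 (by linarith [show z.R1 + 2 ≤ _ from r]),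
        Or.inl (show _ ∈ Iio V from hV ▸ (lc.dom x hx).2)⟩).2 r)
      (P354YK.mono _ _ _ _ _ _ le_rfl (le_mul_of_one_le_left (by positivity) Cd1) i2)
      (hd E L _ is hL.2 c1 i0 i1).par (by linarith [(le_div_iff₀ P).1 x7]) hV
    refine ⟨max B1 B2, fun p hp h h0 => ?_⟩
    obtain ⟨y1, y2⟩ := zc_of o hs b2 hp (le_trans (by norm_num) h0)
    rcases le_total (rd p) c.Rs with r | r
    · have := Z p ⟨y1, y2, r, (add_zero _).trans_lt h⟩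
      exact ⟨P354TR.nice_mono (n1 g p hp.1 r (sb p hp h) (bd_le this k2
        ((min_le_right _ _).trans (min_le_left _ _)))) (le_max_left _ _),
        n2 g p hp.1 (sb p hp h) (bd_le this k3 ((min_le_right _ _).trans (min_le_right _ _)))⟩
    · exact ⟨P354TR.nice_mono (n3 p y1 y2 h r) (le_max_right _ _),
        Or.inl (le_trans (show 2 ≤ rd p - z.R1 by linarith) (le_abs_self _))⟩
  · have hp := pt p p1 ((add_zero _).symm.trans_lt p4)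
    have r0 := q.1.pos p1.1
    refine ⟨?_, fst_bk (c := z.pm c.Rs Rb) (κ := z.κ) rfl fun r => (F p ⟨sw p hp.1
      (by linarith [(abs_le.1 r).1, show (z.pm c.Rs Rb).R1 = z.R1 from rfl]), Or.inl hp.2⟩).1, ?_⟩
    · rcases lt_or_ge ((z.pm c.Rs Rb).psi p) 0 with h0 | h0
      · exact gq_congr (S.ev hp h0).symm (cg.gau p ⟨hp.1, h0.le.trans zero_le_one⟩
          (en_lo o hs p1).2).self_of_nhds
      · exact st.1.gau p ⟨⟨p1.1, by linarith⟩, Or.inl hp.2⟩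
    rcases lt_or_ge ((z.pm c.Rs Rb).psi p) 0 with h0 | h0
    · have s := P354YO.sb_gin (M := z.M) (a := z.a) r0
      have := bd_add (f := g - gin z.M z.a) (fun v w => ((sb_vac (S.vac hp)).sm v w).sub (s.sm v w)) s.sm
        (bd_le (S.bd0 hp h0) hm.2 (hdd.2.trans x3)) (hg p p1.1.le p3.le)
      rw [sub_add_cancel] at this
      exact bd_le this le_rfl ((le_max_right _ _).trans (le_max_right _ _))
    · obtain ⟨x, y1, rfl, -, y2⟩ := P354YQ.ex_lift r0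
      exact bd_le (H x ⟨y1, y2 ▸ r0, y2.trans_le p3.le, ⟨p1.1, by linarith⟩,
        le_trans (by norm_num) h0⟩ hp.2)
        le_rfl ((le_max_left _ _).trans (le_max_right _ _))
  · have hp := pt p p1 ((add_zero _).symm.trans_lt p4)
    exact ⟨(sb_vac (S.vac hp)).sm, fun h0 => bd_le (S.bd0 hp
      ((psi_lo o hs b2 (q.1.pos p1.1)).trans_lt h0)) (by omega) (hdd.2.trans x4)⟩

end Vale.Agent.P354YA
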