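import Vale.Agent.P354YA.Res
import Vale.Agent.P354YO.OutC
import Vale.Agent.P354YO.OutA1
import Vale.Agent.P354BO.Outb
import Vale.Agent.P354CS.Pre
import Vale.Agent.P354YT.Main

/-!
FARX: the estimates far out.
-/

open scoped ContDiff
open Set Filter Topology

noncomputable section

namespace Vale.Agent.P354YA

open Vale.Agent.P354n (R4)
open Vale.Agent.P354XG Vale.Agent.P354XD Vale.Agent.P354XR Vale.Agent.P354XI Vale.Agent.P354Z
open Vale.Agent.P354XE (Tw rd ur uw wt Far Wb gin Lo)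
open Vale.Agent.P354XO (b4 dn4)
open Vale.Agent.P354XV (Flt)
open Vale.Agent.P354YO (Fz sh IsTh rd_sh sh_cd sh_inv)
open Vale.Agent.P354YK (laD fz wu wu_pos FT q2_le)
open Vale.Agent.P354YT (tb)
open Vale.Agent.P354MG (Lc lo)
open Vale.Agent.P354CQ (Nrm)
open Vale.Agent.P354TF (wb_mono z_gg z_kr vc_R vc_Om th_cx)

theorem w_cmp {x y D s : ℝ} (hx : 0 < x) (hy : 0 < y) (h1 : 1 ≤ D) (h : y ≤ D * x)
    (s0 : 0 ≤ s) (s2 : s ≤ 2) : x ^ (-s) ≤ D ^ 2 * y ^ (-s) := by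
  have D0 : 0 < D := one_pos.trans_le h1
  have a := Real.rpow_le_rpow_of_nonpos hy h (neg_nonpos.2 s0)
  rw [Real.mul_rpow D0.le hx.le] at a
  have b : 1 ≤ D ^ 2 * D ^ (-s) := by
    rw [← Real.rpow_natCast, ← Real.rpow_add D0]
    exact Real.one_le_rpow h1 (by push_cast; linarith)
  calc x ^ (-s) ≤ D ^ 2 * D ^ (-s) * x ^ (-s) :=
        le_mul_of_one_le_left (Real.rpow_nonneg hx.le _) b
    _ ≤ _ := by rw [mul_assoc]; exact mul_le_mul_of_nonneg_left a (by positivity)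

theorem uw_bd {M a u k K : ℝ} {p : R4} (e : ur M a p = u - k) (h : |k| ≤ K) :
    1 ≤ uw M a p ∧ uw M a p ≤ (1 + K) * (1 + |u|) := by
  refine ⟨Real.one_le_sqrt.2 (le_add_of_nonneg_right (sq_nonneg _)), ?_⟩
  have a := abs_nonneg u
  have b := abs_nonneg k
  have c := abs_sub u k
  refine (Real.sqrt_le_iff.2 ⟨by positivity, ?_⟩).trans
    (show 1 + |u - k| ≤ _ by nlinarith)
  rw [e, ← sq_abs (u - k)]
  nlinarith [abs_nonneg (u - k)]

theorem far_mono {M a s δ ε ε' : ℝ} {N : ℕ} {g : Tw} {β : Fin 3 → R4 → ℝ} {p : R4}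
    (h : Far M a s δ ε N g β p) (e : ε ≤ ε') : Far M a s δ ε' N g β p := by
  have a0 : 0 ≤ uw M a p ^ (-s) := Real.rpow_nonneg (Real.sqrt_nonneg _) _
  have r0 := P354YR.rd_nn p
  have g0 : 0 ≤ wt M a δ p :=
    add_nonneg (Real.rpow_nonneg (Real.sqrt_nonneg _) _) (Real.rpow_nonneg r0 _)
  have m : ∀ {w : ℝ}, 0 ≤ w → ε * w ≤ ε' * w := mul_le_mul_of_nonneg_right e
  exact ⟨h.gauge, h.smooth, fun i => wb_mono (h.la i) e (m a0), fun i =>
    ⟨wb_mono (h.shift i).1 (m a0) (m a0), wb_mono (h.shift i).2 (m g0) (m g0)⟩,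
    wb_mono h.tt (m (by positivity)) (m (by positivity)),
    fun i k => wb_mono (h.tt' i k) (m (by positivity)) (m (by positivity)),
    fun i => wb_mono (h.ta i) (m g0) (m a0), fun i j => wb_mono (h.aa i j) e (m a0)⟩

section tab
variable {z : Fz} {M0 a0 e α γ D : ℝ} {n : ℕ} {x : E6}

theorem farE_abs {β : Fin 3 → z.A} (h : z.FarE M0 a0 n β x e α γ) :
    z.FarE M0 a0 n β x |e| α γ :=
  ⟨by simpa only [Fz.Wq, mul_pow, sq_abs] using h.la,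
    by simpa only [Fz.Wq, mul_pow, sq_abs] using h.shift,
    by simpa only [Fz.Wq, mul_pow, sq_abs] using h.tt,
    by simpa only [Fz.Wq, mul_pow, sq_abs] using h.tt',
    by simpa only [Fz.Wq, mul_pow, sq_abs] using h.ta,
    by simpa only [Fz.Wq, mul_pow, sq_abs] using h.aa⟩

theorem tf_sc (h : P354YK.Tf z M0 n x e (D * α) (D * γ)) (h1 : 1 ≤ D) (h0 : 0 ≤ e) :
    P354YK.Tf z M0 n x (D * e) α γ := by
  have k : ∀ w, D * e * w = e * (D * w) := fun w => by ring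
  have l := le_mul_of_one_le_left h0 h1
  exact ⟨k α ▸ h.b, k α ▸ h.b1, k α ▸ h.kb, k α ▸ k γ ▸ h.g, k α ▸ k γ ▸ h.g1,
    k α ▸ k γ ▸ h.gs, q2_le h.m0 le_rfl h0 l, fun i => q2_le (h.la i) le_rfl h0 l, k α ▸ h.W⟩

end tab

section lc
variable {z : Z1} {c : Cs} {gc g : Tw} {E : Est} {κ Cl e tw k : ℝ} {U : Set E6} {a : E6 → E6}
  {A B : ℝ → ℝ} {x y : E6}

theorem Ag.aM (o : Ag z c) : |z.a| < z.M := o.M ▸ o.a ▸ o.ok.aM
theorem Ag.M0 (o : Ag z c) : 0 < z.M := (abs_nonneg _).trans_lt o.aM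
theorem Ag.lo (o : Ag z c) : Ok2 (lo z c.Rs) :=
  (o.zo.ok _ (by linarith [o.ok.Rs, o.ok.R2, o.ok.R1, o.R1, o.M0, o.M]) _ le_rfl).1

theorem ur_sh {M a : ℝ} (n : Nrm M a k A) (p : 0 < y.2.1 ∧ y.2.2 ≠ 0) (r : 6 * M ≤ y.2.1) :
    ur M a (sh A B (pj y)) = uu M y - k := by
  have e : rd (pj y) = y.2.1 := rd_pj p.1 p.2
  rw [ur, rd_sh, uu, show (sh A B (pj y)).1 = y.1 + A (rd (pj y)) from rfl, e, n _ r,
    P354YT.tb]
  ring

variable (h : Lc z c gc g E κ Cl e U a A B tw) (o : Ag z c)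
include h o

theorem lc_sm : ContDiff ℝ ∞ A ∧ ContDiff ℝ ∞ B :=
  ⟨(P354BO.th_sm o.M0 h.th).1, (P354BO.th_sm o.M0 h.th).2.1⟩

theorem lc_nrm : ∃ k, Nrm z.M z.a k A :=
  ((P354CS.pre z.M z.a A B (lc_sm h o).1 (lc_sm h o).2).2.2.2.2.2.2.2 o.aM h.th).1

omit o in
theorem lc_rd (hx : x ∈ U) : rd (dn4 a (pj x)) = (a x).2.1 := by
  rw [h.cht.eqv.pj_dn hx]; exact rd_pj (h.cht.pos x hx) (h.cht.eqv.ne x hx)

theorem lc_f (hx : x ∈ U) : ContDiffAt ℝ ∞ (sh A B ∘ dn4 a) (pj x) :=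
  (sh_cd ((lc_rd h hx).trans_ne (h.cht.pos x hx).ne') (lc_sm h o).1.contDiffAt
    (lc_sm h o).2.contDiffAt).comp _ (h.cht.eqv.sm_dn hx)

theorem lc_pb (hx : x ∈ U) : P354XE.pb (sh A B ∘ dn4 a) (P354XE.pb (sh (-A) (-B)) E.g)
    =ᶠ[𝓝 (pj x)] g := by
  have s : ContDiffAt ℝ ∞ (sh (-A) (-B)) ((sh A B ∘ dn4 a) (pj x)) :=
    sh_cd ((rd_sh _ _ _).trans_ne ((lc_rd h hx).trans_ne (h.cht.pos x hx).ne'))
      (lc_sm h o).1.neg.contDiffAt (lc_sm h o).2.neg.contDiffAt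
  have e1 : sh (-A) (-B) ∘ sh A B ∘ dn4 a = dn4 a := funext fun q => sh_inv A B _
  have s' : ContDiffAt ℝ ∞ (b4 U a) (dn4 a (pj x)) := h.cht.dif_b4.sm _
    ⟨a x, mem_image_of_mem _ hx, (h.cht.eqv.pj_dn hx).symm⟩
  refine (P354YO.pb_comp (lc_f h o hx) s).symm.trans ?_
  rw [e1, h.met]
  refine (P354YO.pb_comp (h.cht.eqv.sm_dn hx) s').symm.trans
    ((P354YO.pb_map (φ := id) ?_).trans (by rw [P354YO.pb_id]))
  filter_upwards [h.cht.eqv.toCn.shadow.mem_nhds (mem_image_of_mem _ hx)] with q ⟨w, hw, e⟩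
  rw [← e, Function.comp_apply, h.cht.eqv.pj_dn hw, h.cht.b4_a hw, id]

theorem lc_k (n : Nrm z.M z.a k A) : -k ≤ c.t1 / 5 - tb z.M z.a c.t1 := by
  have b := h.big
  have M0 := o.M0
  have R1 := o.ok.R1
  have t0 : 0 < c.t1 := by linarith [o.M]
  have T := (P354YT.tau_ok _ o.lo.1).2.1
  have r : ∀ t, rd (pj (t, c.t1, 1, 0)) = c.t1 := fun t => rd_pj t0 (by simp)
  have l := h.lay (pj (c.del * c.t1 - c.t1 - 4 * c.M ^ 2 / c.t1 + A c.t1, c.t1, 1, 0))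
    (r _).ge (by rw [r]; exact le_of_eq (by simp only [pj]; ring))
  have d := o.lo.1.del
  have r1 := o.lo.1.r1.2.trans o.lo.1.rpR
  rw [T.psi_lt _ ((r1.trans (show z.R1 - 1 / 2 < _ by linarith [o.R1, o.M])).trans_eq
      (r _).symm), r,
    T.be_far _ (show z.R1 + 2 + 1 ≤ _ by linarith [o.R1, o.M]),
    n _ (by linarith [o.M]), o.M] at l
  simp only [pj, lo, Z1.pm] at l d
  nlinarith [mul_pos o.ok.del.1 t0, mul_le_mul_of_nonneg_right d.2 t0.le]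

variable (s : E.Is c) (f : ∀ x ∈ U, Flt (lo z c.Rs) g (pj x))
  (R : c.t1 / 5 - tb z.M z.a c.t1 + (z.R1 + 2) + tb z.M z.a (z.R1 + 2) ≤ c.R2)
include s f R

theorem la_zero (hy : y ∈ E.O2) (r : c.R1 + 3 < y.2.1) (u : uu c.M y < -c.R2) (i : Fin 3) :
    fv ((fz E).gg ((fz E).R z.M) ((fz E).Om i) -
      (fz E).gk z.M z.M z.a ((fz E).R z.M) ((fz E).Om i)) y = 0 := by
  obtain ⟨x, hx, rfl⟩ := h.o2 hy
  obtain ⟨k, n⟩ := lc_nrm h o
  have z0 := o.M ▸ is0_of s o.ok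
  have C := th_cx o.aM h.th z0.co
  have R1 := o.ok.R1
  have M0 := o.M0
  have i1 := h.idn x hx r.le (by linarith [o.ok.R2, o.M])
  have e1 : sh A B (pj (a x)) = pj x := h.cht.eqv.pj_dn hx ▸ i1.self_of_nhds
  have e2 := ((P354YO.pb_map (φ := id) i1).symm.trans (lc_pb h o hx)).self_of_nhds
  have e3 := ur_sh (B := B) n (z0.co.pos _ hy) (z0.rad _ hy)
  have e4 : rd (pj x) = (a x).2.1 := by rw [← e1, rd_sh, C.rd hy]
  have := ((z_gg o.aM z0 h.th (vc_R o.aM z0 h.th) (vc_Om C i)).sub (z_kr o.aM z0 h.th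
    (vc_Om C i) (by fin_cases i <;> simp [Om, (P354CV.cone_hp z0.co).dz])) _ hy).2
  rw [e1] at this e3
  rw [P354YO.pb_id] at e2
  refine this.trans (Complex.ofReal_eq_zero.2 (sub_eq_zero.2 ?_))
  refine (congrFun₂ e2 _ _).trans (f x hx ?_ ?_ _)
  · show z.R1 + 2 ≤ _
    linarith [o.R1]
  · show ur z.M z.a _ ≤ -(z.R1 + 2) - tb z.M z.a (z.R1 + 2)
    rw [o.M] at u
    linarith [lc_k h o n]

theorem tla (hy : y ∈ E.O2) (r : Est.Fa c y) (u : uu c.M y < -c.R2) (n : ℕ) (i : Fin 3) :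
    q2 ((fz E).lr c.M) y n ((fz E).T (laD (fz E) c.M i)) = 0 := by
  have C := s.shape.co2
  have H := P354CV.cone_hp C
  have e : (fz E).T (laD (fz E) c.M i) = (fz E).T ((fz E).gg ((fz E).R z.M) ((fz E).Om i) -
      (fz E).gk z.M z.M z.a ((fz E).R z.M) ((fz E).Om i)) := by
    have a := T_gk H (P354CV.pO_is C z.M E.M E.a) (fun _ _ _ => 0) i
    have b := T_gk H (P354CV.pO_is C z.M z.M z.a) (fun _ _ _ => 0) i
    rw [laD, o.M, map_sub, map_sub, Fz.gk, Fz.gk, D_mul, D_mul, D_num, mul_zero, mul_zero]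
    exact congrArg _ (congrArg (fun w : (fz E).A => 2 * w + 0) (a.trans b.symm))
  have op : IsOpen (E.O2 ∩ {w | c.R1 + 3 < w.2.1 ∧ uu c.M w < -c.R2}) := by
    refine isOpen_iff_mem_nhds.2 fun w hw => inter_mem (C.op.mem_nhds hw.1) ?_
    refine (continuousAt_snd.fst.eventually (lt_mem_nhds hw.2.1)).and
      (Tendsto.eventually (show ContinuousAt (uu c.M) w from ?_) (gt_mem_nhds hw.2.2))
    exact continuousAt_fst.add (continuousAt_const.div continuousAt_snd.fst (C.pos w hw.1).1.ne')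
  rw [e]
  refine q2_loc (z := fz E) inter_subset_left C op ⟨hy, ?_, u⟩ n
    fun w hw => la_zero h o s f R hw.1 hw.2.1 hw.2.2 i
  linarith [r.2, o.ok.R2, o.ok.R1, o.M0, o.M]

end lc

theorem far_tab {c : Cs} {E : Est} {M a k K η : ℝ} {n : ℕ} {p : R4} {y : E6} (eM : c.M = M)
    (ft : FT c E n η) (hy : y ∈ E.O2) (an : An y) (fa : Est.Fa c y) (r1 : 1 ≤ y.2.1)
    (er : rd p = y.2.1) (eu : ur M a p = uu M y - k) (hk : |k| ≤ K) (tl : uu c.M y < -c.R2 → ∀ i,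
      q2 ((fz E).lr c.M) y n ((fz E).T (laD (fz E) c.M i)) = 0) :
    (fz E).Tab c.M n y ((1 + K) ^ 2 * η) (uw M a p ^ (-(6 / 5) : ℝ)) (wt M a (1 / 10) p) ∧
      uw M a p ^ (-(6 / 5) : ℝ) ≤ wt M a (1 / 10) p ∧ wt M a (1 / 10) p ≤ 2 ∧
      y.2.1⁻¹ ≤ wt M a (1 / 10) p := by
  subst eM
  obtain ⟨u1, u2⟩ := uw_bd eu hk
  have η0 := ft.2.1
  have K1 : 1 ≤ 1 + K := by linarith [abs_nonneg k]
  have w0 : 0 < 1 + |uu c.M y| := by positivity
  have wa := w_cmp w0 (one_pos.trans_le u1) K1 u2 (s := 6 / 5) (by norm_num) (by norm_num)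
  have wg := w_cmp w0 (one_pos.trans_le u1) K1 u2 (s := 1 / 10) (by norm_num) (by norm_num)
  have a1 := P354XA.uw_le (s := 1 / 10) (by norm_num) c.M a p
  have g0 : y.2.1⁻¹ ≤ y.2.1 ^ (-(1 / 10) : ℝ) := by
    rw [← Real.rpow_neg_one]; exact Real.rpow_le_rpow_of_exponent_le r1 (by norm_num)
  have g1 : y.2.1 ^ (-(1 / 10) : ℝ) ≤ 1 := Real.rpow_le_one_of_one_le_of_nonpos r1 (by norm_num)
  have g2 := inv_pos.2 (one_pos.trans_le r1)
  have g3 := Real.rpow_le_rpow_of_exponent_le u1 (show (-(6 / 5) : ℝ) ≤ -(1 / 10) by norm_num)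
  have g4 := Real.rpow_le_rpow_of_exponent_le (show 1 ≤ 1 + |uu c.M y| by simp)
    (show (-(1 / 4) : ℝ) ≤ -(1 / 10) by norm_num)
  obtain ⟨t1, t2⟩ := ft.2.2 y hy an fa
  have ew : wt c.M a (1 / 10) p = uw c.M a p ^ (-(1 / 10) : ℝ) + y.2.1 ^ (-(1 / 10) : ℝ) := by
    rw [wt, er]
  refine ⟨(tf_sc (t1.mono le_rfl η0 le_rfl (wu_pos _ _ _).le wa (wu_pos _ _ _).le ?_)
    (one_le_pow₀ K1) η0).tab fun i => ?_, by linarith, by linarith, by linarith⟩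
  · exact (g4.trans wg).trans (mul_le_mul_of_nonneg_left (by linarith) (by positivity))
  · rcases le_or_gt (-c.R2) (uu c.M y) with u | u
    · refine q2_le (t2 u i) le_rfl (mul_nonneg η0 (wu_pos _ _ _).le) ?_
      rw [mul_comm _ η, mul_assoc]
      exact mul_le_mul_of_nonneg_left wa η0
    · rw [tl u]
      positivity

theorem lay_q {c : Cs} {E : Est} {η D : ℝ} {n : ℕ} {y : E6} (s : E.Is c) (o : c.Ok)
    (hn : n ≤ c.K) (par : E.e0 + |E.M - c.M| + |E.a - c.a| ≤ η) (hD : c.B ≤ D)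
    (hy : y ∈ Ou (fz E) c.M) (an : An y) (fa : Est.Fa c y) (r4 : 4 * c.R1 ≤ y.2.1)
    (ly : uu c.M y + y.2.1 ≤ c.del * y.2.1) (k : Fin 6) (hk : k ≠ 1) :
    q2 (ll (hp _) (pO (Ou (fz E) c.M) c.M E.M E.a)) y n ((rz (z := fz E) (O := Ou (fz E) c.M)
      inter_subset_left).d c.M (.inl (1, k))) ≤ (D * η / y.2.1 ^ 2) ^ 2 := by
  have q := s.near.lay y hy.1 an r4 fa.2 ly (.inl (1, k))
  have z0 := is0_of s o
  have e0 := s.near.e0
  have B1 := o.B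
  rw [show dm (.inl (1, k)) = 2 by simp [dm, hk]] at q
  rw [← r_d (O := Ou (fz E) c.M) inter_subset_left z0.co z0.vac]
  refine (r_q' (z := fz E) (O := Ou (fz E) c.M) inter_subset_left z0.co hy _ _).trans_le
    (q2_le q (by linarith) (by positivity) ?_)
  exact div_le_div_of_nonneg_right (mul_le_mul hD par (by positivity) (by linarith))
    (by positivity)

theorem farx : FARX := fun z N t1 => by
  refine ⟨t1 / 5 - tb z.M z.a t1 + (z.R1 + 2) + tb z.M z.a (z.R1 + 2), fun c o et R K => ?_⟩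
  obtain ⟨e0, e00, C1, hO⟩ := P354YO.outc c.M c.a N o.ok.aM
  obtain ⟨C2, hT⟩ := P354TF.trf c.M c.a (6 / 5) (1 / 10) N o.ok.aM (by norm_num)
  obtain ⟨K1, hK⟩ : ∃ K1, K1 = |K| + |4 * z.M ^ 2 / z.R1 + z.R1 + 2 * tb z.M z.a z.R1| := ⟨_, rfl⟩
  obtain ⟨D, hD⟩ : ∃ D, D = (1 + (K1 + c.B)) ^ 2 := ⟨_, rfl⟩
  have B1 := o.ok.B
  have K0 : 0 ≤ K1 := by rw [hK]; positivity
  have D1 : 1 + c.B ≤ D := by nlinarith
  have D0 : 0 < D := by linarith
  refine ⟨min e0 1 / D, by positivity, 1 + |C2| * (|C1| * D), le_add_of_nonneg_right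
    (by positivity), fun gc g E κ Cl e U a A B tw η s h hA f ft par hη => ?_⟩
  subst et
  obtain ⟨k, n⟩ := lc_nrm h o
  have R1 := o.ok.R1
  have M0 := o.M0
  have eM := o.M
  have hk : |k| ≤ K1 + c.B := by
    have := n z.R1 (by linarith [o.R1])
    rw [show k = -A z.R1 + (4 * z.M ^ 2 / z.R1 + z.R1 + 2 * tb z.M z.a z.R1) by linarith]
    refine (abs_add_le _ _).trans ?_
    rw [abs_neg]
    linarith [le_abs_self K]
  have z0 := is0_of s o.ok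
  have zi := ou_is z0 (og_of s) s.eqs.ta
  have η0 := ft.2.1
  have hd : D * η ≤ min e0 1 := by rwa [le_div_iff₀' D0] at hη
  have d0 := mul_nonneg D0.le η0
  have l : η ≤ D * η := le_mul_of_one_le_left η0 (by linarith)
  have th := h.th
  rw [← o.M, ← o.a] at th n ⊢
  obtain ⟨β, bβ, hβ⟩ := hO _ zi
  obtain ⟨β', hβ'⟩ := hT _ A B β zi.toIs0 th bβ
  refine ⟨β', fun y hy y1 fa => ?_⟩
  have an : An y := by constructor <;> rw [y1] <;> norm_num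
  have p := z0.co.pos y hy
  have a0 := P354XA.uw_le (s := 6 / 5) (by norm_num) c.M c.a (sh A B (pj y))
  obtain ⟨tb0, g1, g2, g3⟩ := far_tab rfl ft hy an fa (by linarith [fa.1])
    ((rd_sh A B _).trans (rd_pj p.1 p.2)) (ur_sh n p (z0.rad y hy)) hk
    fun u => tla h o s f R hy fa u _
  rw [← hD] at tb0
  have ym : y ∈ Ou (fz E) c.M := by
    refine ou_mem z0.co hy y1 (abs_le_of_sq_le_sq' (b := 1) ?_ one_pos.le).2
    refine ((P354BO.q2_val _ _ _ _).trans (tb0.b 0 (by decide))).trans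
      (pow_le_pow_left₀ (mul_nonneg d0 a0.1.le) ?_ 2)
    exact mul_le_one₀ (hd.trans (min_le_right _ _)) a0.1.le a0.2
  obtain ⟨h1, h2⟩ := hβ y ym y1 (D * η) ⟨d0, hd.trans (min_le_left _ _)⟩
    (show |E.M - c.M| + |E.a - c.a| ≤ _ by linarith [s.near.e0])
  obtain ⟨h4, h5⟩ := (hβ' y ym y1).2 |C1 * (D * η)| (abs_nonneg _)
  have le : C2 * |C1 * (D * η)| ≤ (1 + |C2| * (|C1| * D)) * η := by
    rw [abs_mul, abs_of_nonneg d0]
    linarith [mul_le_mul_of_nonneg_right (le_abs_self C2) (mul_nonneg (abs_nonneg C1) d0)]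
  refine ⟨far_mono (h4 (farE_abs (h1 _ _ a0.1.le g1 g2 g3
    (r_tab inter_subset_left z0.co z0.vac ym tb0)))) le, fun r4 ly i => ?_⟩
  have r0 := p.1
  refine wb_mono (h5 (fun j => ?_) i) (div_le_div_of_nonneg_right le (by positivity))
    (div_le_div_of_nonneg_right le (by positivity))
  simpa only [Fz.Wq, div_pow, sq_abs] using
    h2 (lay_q s o.ok ft.1 par (by linarith) ym an fa r4 ly) j

end Vale.Agent.P354YA
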