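import Vale.Agent.P354YA.Fn1
import Vale.Agent.P354FB.Fa
import Vale.Agent.P354YI.Near
import Vale.Agent.P354NK.Km
import Vale.Agent.P354BK.Main
import Vale.Agent.P354YT.Main

/-!
The bounds which the continuation needs: far out, near Kerr, and under a change of the chart.
-/

open scoped ContDiff
open Set Filter Topology

noncomputable section

namespace Vale.Agent.P354YA

open Vale.Agent.P354n (R4)
open Vale.Agent.P354XD (tb)
open Vale.Agent.P354XE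
open Vale.Agent.P354XA (lo1 uw_le decomp ang_le hor dr_Lo dr_Om dr_T Lo_fst Om_fst)
open Vale.Agent.P354XV (Nice jet)
open Vale.Agent.P354YI (Oj Jb)
open Vale.Agent.P354YO (Sb sb_gin tb_ap bd_of_oj oj_of_bd oj_pb)
open Vale.Agent.P354YT (Pm)

theorem sp_alg {A B ξ F b la mu ga l n w η x κ : ℝ} (l1 : 1 ≤ l) (l2 : l ≤ 9 / 5)
    (n1 : 19 / 20 + 10 * x ≤ n) (x0 : 0 ≤ x) (k1 : κ ≤ η) (k2 : n * κ ^ 2 ≤ 1 / 400)
    (e1 : η ≤ 1 / 1000) (hF : F ≤ 1 + η + x) (hb : |b - 1| ≤ η) (hl : |la| ≤ κ * ξ)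
    (hm : |mu| ≤ η * ξ) (hg : (1 - η) * ξ ^ 2 ≤ ga) (hw : |w| ≤ ξ / 26) (ξ0 : 0 ≤ ξ)
    (e : B * l + A * n + w = 0) : |B| ≤ |A| * n + ξ / 26 ∧
      A ^ 2 / 40 + ξ ^ 2 / 4 ≤ -(2 * A * B * b) + 2 * B * la - A ^ 2 * F + 2 * A * mu + ga := by
  have l0 : 0 < l := by linarith
  have n0 : 0 < n := by linarith
  obtain ⟨b1, b2⟩ := abs_le.1 hb
  have m1 : 111 / 200 ≤ b / l := (le_div_iff₀ l0).2 (by linarith)
  have m2 : b / l ≤ 1001 / 1000 := (div_le_iff₀ l0).2 (by linarith)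
  have a0 := abs_nonneg A
  have hB : |B| ≤ |A| * n + ξ / 26 := by
    have : |B| * l ≤ |A| * n + ξ / 26 := by
      rw [← abs_of_pos l0, ← abs_mul, show B * l = -(A * n + w) by linarith, abs_neg]
      exact (abs_add_le _ _).trans (add_le_add (by rw [abs_mul, abs_of_pos n0]) hw)
    nlinarith [abs_nonneg B]
  have t1 : -(2 * A * B * b) = 2 * (A ^ 2 * n * (b / l)) + 2 * (A * w * (b / l)) := by
    field_simp
    linear_combination (-A * b) * e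
  have t2 := mul_le_mul_of_nonneg_left m1 (mul_nonneg (sq_nonneg A) n0.le)
  have t3 : |A * w * (b / l)| ≤ |A| * (ξ / 26) * (1001 / 1000) := by
    rw [abs_mul, abs_mul, abs_of_pos (show 0 < b / l by linarith)]
    exact mul_le_mul (mul_le_mul_of_nonneg_left hw a0) m2 (by linarith) (by positivity)
  have t4 : |B * la| ≤ (|A| * n + ξ / 26) * (κ * ξ) := by
    rw [abs_mul]; exact mul_le_mul hB hl (abs_nonneg _) (by positivity)
  have t5 : |A * mu| ≤ |A| * (1 / 1000 * ξ) := by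
    rw [abs_mul]
    exact mul_le_mul_of_nonneg_left (hm.trans (mul_le_mul_of_nonneg_right e1 ξ0)) a0
  have t6 := mul_le_mul_of_nonneg_left k2 (mul_nonneg (sq_nonneg A) n0.le)
  have t7 := mul_le_mul_of_nonneg_right (k1.trans e1) (sq_nonneg ξ)
  have t8 := mul_le_mul_of_nonneg_left hF (sq_nonneg A)
  have t9 := mul_le_mul_of_nonneg_left n1 (sq_nonneg A)
  have u1 := sq_nonneg (2 * (|A| * n * κ) - ξ / 2)
  have u2 := sq_nonneg (|A| - 3 * ξ)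
  have u3 := mul_le_mul_of_nonneg_left e1 (sq_nonneg A)
  have u4 := mul_le_mul_of_nonneg_right e1 (sq_nonneg ξ)
  have u5 := mul_nonneg (sq_nonneg A) x0
  rw [← sq_abs A] at *
  refine ⟨hB, ?_⟩
  nlinarith [(abs_le.1 t3).1, (abs_le.1 t4).1, (abs_le.1 t5).1, sq_nonneg ξ, sq_nonneg |A|]

variable {M a s δ ε : ℝ} {N n : ℕ} {g : Tw} {β : Fin 3 → R4 → ℝ} {p : R4}

theorem far_le (h : Far M a s δ ε N g β p) (e : n ≤ N) : Far M a s δ ε n g β p :=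
  have w {f c c'} (H : Wb M a N f p c c') : Wb M a n f p c c' := fun α hα => H α (hα.trans e)
  ⟨h.gauge, h.smooth, fun i => w (h.la i), fun i => ⟨w (h.shift i).1, w (h.shift i).2⟩, w h.tt,
    fun i hi => w (h.tt' i hi), fun i => w (h.ta i), fun i j => w (h.aa i j)⟩

/-- What is used of the time function far out. -/
structure Tf (M a s c : ℝ) (l : R4 →L[ℝ] ℝ) (p : R4) : Prop where
  lo : l (Lo M a p) ∈ Icc 1 (9 / 5)
  t1 : 19 / 20 + c * (rd p * uw M a p ^ (-s)) ≤ l eT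
  t2 : l eT ≤ 2 + rd p
  om : ∀ i, |l (Om i p)| ≤ rd p / 50

/-- The output of FA at p. -/
def Fo (M a s δ ε C : ℝ) (g : Tw) (β : Fin 3 → R4 → ℝ) (p : R4) : Prop :=
  ∀ w A B, B = dr p w → A = w.1 - lo1 M a (rd p) * B → ∃ (W : R4) (ξ : ℝ), 0 ≤ ξ ∧
    w = B • Lo M a p + A • Nf β p + W ∧
    P354XY.Fa C ε (rd p) (uw M a p ^ (-s)) (wt M a δ p) A B ξ (-g p (Nf β p) (Nf β p))
      (-g p (Lo M a p) (Nf β p)) (g p (Lo M a p) W) (g p (Nf β p) W) (g p W W)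
      (pi g (Lo M a) p w) (pi g (Nf β) p w) ∧ ‖w‖ ≤ C * (1 + ε * rd p) * (|A| + |B| + ξ)

theorem num1 {C ε r S c T y : ℝ} (C1 : 1 ≤ C) (e0 : 0 ≤ ε) (e1 : c * ε ≤ 1) (r1 : c ≤ r)
    (hc : 2000 * C ^ 2 ≤ c) (S0 : 0 < S) (S1 : S ≤ 1) (t1 : 19 / 20 + c * ε * (r * S) ≤ T)
    (t2 : T ≤ 2 + r) (hy : |y| ≤ r / 50 * (3 * (ε * S))) : C * ε ≤ 1 / 2000 ∧ C / r ≤ 1 / 2000 ∧
      T + y ≤ 3 * r ∧ 19 / 20 + 10 * (C * ε * (r * S)) ≤ T + y ∧
      (T + y) * (C / r) ^ 2 ≤ 1 / 400 := by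
  have C2 : C ≤ C ^ 2 := by nlinarith
  have r0 : 0 < r := by linarith
  have a1 := mul_le_mul_of_nonneg_right (show 2000 * C ≤ c by linarith) e0
  have a2 := mul_le_mul_of_nonneg_right C1 e0
  have a3 : 0 ≤ ε * (r * S) := by positivity
  have a4 : ε * (r * S) ≤ r := by
    rw [mul_left_comm]
    exact mul_le_of_le_one_right r0.le (mul_le_one₀ (by linarith) S0.le S1)
  obtain ⟨y1, y2⟩ := abs_le.1 hy
  have a5 := mul_le_mul_of_nonneg_right (show 2000 * C ≤ c by linarith) a3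
  have a6 := mul_le_mul_of_nonneg_right C1 a3
  have a7 : T + y ≤ 3 * r := by linarith
  refine ⟨by linarith, (div_le_iff₀ r0).2 (by linarith), a7, by linarith,
    (mul_le_mul_of_nonneg_right a7 (sq_nonneg _)).trans ?_⟩
  rw [div_pow, ← mul_div_assoc, div_le_iff₀ (pow_pos r0 2)]
  nlinarith

theorem num2 {η ξ γ ga w : ℝ} (e : η ≤ 1 / 1000) (ξ0 : 0 ≤ ξ) (h1 : 3 / 10 * γ ^ 2 ≤ ga)
    (h2 : ga - ξ ^ 2 ≤ η * ξ ^ 2) (h3 : |w| ≤ γ / 50) : |w| ≤ ξ / 26 := by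
  refine h3.trans (le_of_sq_le_sq ?_ (by positivity) |>.trans_eq rfl)
  nlinarith [mul_le_mul_of_nonneg_right e (sq_nonneg ξ), sq_nonneg ξ]

theorem num3 {A B ξ n r ρ q w K : ℝ} (ξ0 : 0 ≤ ξ) (r0 : 1 ≤ r) (r2 : r ≤ ρ) (K0 : 0 ≤ K)
    (n3 : n ≤ 3 * r) (a1 : |B| ≤ |A| * n + ξ / 26) (a2 : A ^ 2 / 40 + ξ ^ 2 / 4 ≤ q) (w0 : 0 ≤ w)
    (hw : w ≤ K * (|A| + |B| + ξ)) : w ^ 2 ≤ 80 * (K * (2 + 3 * ρ)) ^ 2 * q ∧ 0 ≤ q := by
  have a0 := abs_nonneg A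
  have a3 : |A| + |B| + ξ ≤ (2 + 3 * ρ) * (|A| + ξ) := by
    nlinarith [mul_le_mul_of_nonneg_left (show n ≤ 3 * ρ by linarith) a0,
      mul_nonneg ξ0 (show 0 ≤ ρ by linarith)]
  have a4 := pow_le_pow_left₀ w0 (hw.trans (mul_le_mul_of_nonneg_left a3 K0)) 2
  have a5 : (|A| + ξ) ^ 2 ≤ 80 * q := by nlinarith [sq_abs A, sq_nonneg (|A| - ξ)]
  rw [← mul_assoc, mul_pow] at a4
  exact ⟨by linarith [mul_le_mul_of_nonneg_left a5 (sq_nonneg (K * (2 + 3 * ρ)))],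
    by linarith [sq_nonneg (|A| + ξ)]⟩

section
variable {C c ρ : ℝ} (F : Far M a s δ ε N g β p) (bl : P354.Bilin (g p))
  (sy : ∀ v w, g p v w = g p w v)
include F bl sy

theorem far_ex (A B : ℝ) (W : R4) :
    g p (B • Lo M a p + A • Nf β p + W) (B • Lo M a p + A • Nf β p + W) =
      -(2 * A * B * -g p (Lo M a p) (Nf β p)) + 2 * B * g p (Lo M a p) W -
        A ^ 2 * -g p (Nf β p) (Nf β p) + 2 * A * g p (Nf β p) W + g p W W := by
  simp only [bl.add_left, bl.add_right, bl.smul_left, bl.smul_right, F.gauge.self_of_nhds.1,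
    sy (Nf β p) (Lo M a p), sy W (Lo M a p), sy W (Nf β p)]
  ring

variable (H : Fo M a s δ ε C g β p) (C1 : 1 ≤ C) (e0 : 0 ≤ ε) (e1 : c * ε ≤ 1) (r1 : c ≤ rd p)
  (hc : 2000 * C ^ 2 ≤ c) (r2 : rd p ≤ ρ) (s0 : 0 ≤ s)
include H C1 e0 e1 r1 hc r2 s0

theorem far_sp (M0 : 0 ≤ M) {l : R4 →L[ℝ] ℝ} (T : Tf M a s (c * ε) l p) {v : R4} (hv : l v = 0) :
    ‖v‖ ^ 2 ≤ 80 * (C * (1 + ε * rd p) * (2 + 3 * ρ)) ^ 2 * g p v v ∧ 0 ≤ g p v v := by
  obtain ⟨u0, u1⟩ := uw_le s0 M a p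
  have r0 : 1 ≤ rd p := by nlinarith
  have r0' : 0 < rd p := by linarith
  obtain ⟨W, ξ, ξ0, dW, f, nv⟩ := H v _ _ rfl rfl
  obtain ⟨y, dc, rc⟩ := decomp M a r0'.ne' β v
  have eW : W = ∑ i, y i • Om i p := add_left_cancel (dW.symm.trans dc)
  have om (y : Fin 3 → ℝ) : |l (∑ i, y i • Om i p)| ≤ rd p / 50 * ∑ i, |y i| := by
    rw [map_sum, Finset.mul_sum]
    refine (Finset.abs_sum_le_sum_abs _ _).trans (Finset.sum_le_sum fun i _ => ?_)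
    rw [map_smul, smul_eq_mul, abs_mul, mul_comm]
    exact mul_le_mul_of_nonneg_right (T.om i) (abs_nonneg _)
  have b3 : ∑ i, |β i p| ≤ 3 * (ε * uw M a p ^ (-s)) := by
    have b i : |β i p| ≤ _ := ((F.shift i).1 [] (Nat.zero_le _)).1
    rw [Fin.sum_univ_three]; linarith [b 0, b 1, b 2]
  obtain ⟨k1, k2, k3, k4, k5⟩ := num1 C1 e0 e1 r1 hc u0 u1 T.t1 T.t2 ((om fun i => β i p).trans
    (mul_le_mul_of_nonneg_left b3 (by positivity)))
  rw [← map_add] at k3 k4 k5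
  have ce := mul_le_mul_of_nonneg_right C1 e0
  have ag := ang_le bl sy M0 r0' (ε := ε) (by linarith) (fun i j => by
    have := (F.aa i j [] (Nat.zero_le _)).1
    rwa [wd, abs_div, abs_of_pos (pow_pos r0' 2), div_le_iff₀ (pow_pos r0' 2)] at this) eW
    (eW ▸ rc)
  obtain ⟨g1, g2⟩ := abs_le.1 (f.hg.trans_eq
    (show _ = (C * ε + C / rd p) * ξ ^ 2 by ring))
  have k0 : 0 ≤ C / rd p := by positivity
  have e2 : C * ε + C / rd p ≤ 1 / 1000 := by linarith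
  obtain ⟨a1, a2⟩ := sp_alg (w := l W) T.lo.1 T.lo.2 k4 (by positivity) (by linarith) k5 e2
    (sub_le_iff_le_add'.1 ((abs_le.1 f.hF).2.trans_eq (by ring)) |>.trans_eq (add_assoc _ _ _).symm)
    (f.hb.trans (by linarith)) (f.hl.trans_eq (by ring)) (f.hm.trans_eq (by ring)) (by linarith)
    (num2 e2 ξ0 ag g2 ((eW ▸ om y).trans_eq (by ring))) ξ0
    (by rw [dW, map_add, map_add, map_smul, map_smul] at hv; exact hv)
  rw [← far_ex F bl sy, ← dW] at a2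
  exact num3 ξ0 r0 r2 (by positivity) k3 a1 a2 (norm_nonneg _) nv

theorem far_tl : ∃ u, ‖u‖ ≤ C * (1 + ε * rd p) * (1 + ρ) ∧ g p u u ≤ -1 := by
  obtain ⟨u0, u1⟩ := uw_le s0 M a p
  have r0 : 1 ≤ rd p := by nlinarith
  have r0' : 0 < rd p := by linarith
  obtain ⟨k1, k2, -⟩ := num1 (y := 0) C1 e0 e1 r1 hc u0 u1 le_rfl (by
    have := mul_le_mul e1 (mul_le_of_le_one_right r0'.le u1) (by positivity) zero_le_one
    linarith) (by rw [abs_zero]; positivity)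
  obtain ⟨W, ξ, ξ0, dW, f, nv⟩ := H (rd p • Lo M a p + (1 : ℝ) • Nf β p) 1 (rd p)
    (by simp [Nf, (P354YT.dr_lin p).map_add, (P354YT.dr_lin p).map_smul, Fin.sum_univ_three,
      dr_Lo r0'.ne', dr_Om, dr_T])
    (by simp [Nf, Fin.sum_univ_three, Lo_fst, Om_fst, eT, mul_comm])
  obtain rfl : W = 0 := left_eq_add.1 dW
  have z v : g p v 0 = 0 := by simpa using bl.smul_right 0 v 0
  obtain rfl : ξ = 0 := by
    have := (abs_le.1 (f.hg.trans_eq (show _ = (C * ε + C / rd p) * ξ ^ 2 by ring))).1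
    rw [z] at this
    exact pow_eq_zero_iff two_ne_zero |>.1 (le_antisymm (by nlinarith [sq_nonneg ξ]) (sq_nonneg _))
  refine ⟨_, nv.trans (mul_le_mul_of_nonneg_left ?_ (by positivity)), ?_⟩
  · rw [abs_one, abs_of_pos r0']
    linarith
  · rw [dW, far_ex F bl sy, z, z, z]
    have a1 := (abs_le.1 (f.hF.trans_eq
      (show _ = C / rd p + C * ε + C * ε * (rd p * uw M a p ^ (-s)) by ring))).1
    have a2 := mul_le_mul_of_nonneg_left (abs_le.1 f.hb).1 r0'.le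
    have a3 := mul_le_mul k1 (mul_le_of_le_one_right r0'.le u1) (by positivity) (by norm_num)
    have a4 := mul_le_mul_of_nonneg_left k1 r0'.le
    linarith

end

/-- **The bounds far out.** -/
theorem far_nice (h : |a| < M) (s0 : 0 ≤ s) (d0 : 0 ≤ δ) (k : ℕ) : ∃ C ≥ 1, ∀ ρ, ∃ B,
    ∀ ε g β p (τ : R4 → ℝ), 0 ≤ ε → C * ε ≤ 1 → C ≤ rd p → rd p ≤ ρ → Sb g p →
      (∀ᶠ y in 𝓝 p, ∀ v w, g y v w = g y w v) → Far M a s δ ε (k + 2) g β p →
      Tf M a s (C * ε) (fderiv ℝ τ p) p → Nice k B g τ p := by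
  obtain ⟨C, C1, H⟩ := P354FB.fa M
  obtain ⟨M0, -, -, h3, -⟩ := hor h
  have C2 : C ≤ C ^ 2 := by nlinarith
  refine ⟨2000 * C ^ 2 + 2 * M, by linarith, fun ρ => ?_⟩
  obtain ⟨B0, hB⟩ := far_bd (s := s) (δ := δ) (N := k + 2) (r1 := 2000 * C ^ 2 + 2 * M) (R2 := ρ)
    (J := {z : ℝ × Tw × (Fin 3 → R4 → ℝ) × R4 // z.1 ∈ Icc 0 1 ∧ (2000 * C ^ 2 + 2 * M ≤ rd z.2.2.2 ∧
      rd z.2.2.2 ≤ ρ) ∧ Sb z.2.1 z.2.2.2 ∧ (∀ᶠ y in 𝓝 z.2.2.2, ∀ v w, z.2.1 y v w = z.2.1 y w v) ∧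
        Far M a s δ z.1 (k + 2) z.2.1 z.2.2.1 z.2.2.2}) (fun j => j.2.2.1) h (by linarith) s0 d0
    (by linarith) (fun j => j.2.1) (fun j => j.2.2.2.1) (fun j => j.2.2.2.2.1) fun j => j.2.2.2.2.2
  refine ⟨|B0| + 80 * (C * (1 + ρ) * (2 + 3 * ρ)) ^ 2 + C * (1 + ρ) * (1 + ρ) + 1,
    fun ε g β p τ e0 e1 r1 r2 sb sy F T => ?_⟩
  have e3 : ε ≤ 1 := (le_mul_of_one_le_left e0 (by linarith)).trans e1
  have H' : Fo M a s δ ε C g β p := fun w A B b1 b2 =>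
    (H M a s δ ε g β p w A B h le_rfl s0 d0 e0 e3 (by linarith)
      ⟨tb g, sb.cd.differentiableAt (by simp), sb.bl.mono fun _ hy _ _ => (tb_ap hy _ _).symm, sy⟩
      (far_le F (by omega)) b1 b2).2.2.imp fun _ k => k.imp fun _ k =>
        ⟨k.1, k.2.1, k.2.2.1, k.2.2.2.2.1⟩
  have r0 : 0 < rd p := by linarith
  have c1 : C * (1 + ε * rd p) ≤ C * (1 + ρ) := mul_le_mul_of_nonneg_left
    (by linarith [mul_le_of_le_one_left r0.le e3]) (by linarith)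
  have ρ0 : 0 < ρ := r0.trans_le r2
  have p1 : 0 < C * (1 + ρ) * (1 + ρ) := by positivity
  have p2 := sq_nonneg (C * (1 + ρ) * (2 + 3 * ρ))
  have p3 := abs_nonneg B0
  refine ⟨P354YO.bd_mono (hB ⟨⟨ε, g, β, p⟩, ⟨e0, e3⟩, ⟨r1, r2⟩, sb, sy, F⟩) (by omega)
    (by linarith [le_abs_self B0]), fun v hv => ?_, ?_⟩
  · obtain ⟨a1, a2⟩ := far_sp F sb.bl.self_of_nhds sy.self_of_nhds H' C1 e0 e1 r1 (by linarith) r2
      s0 M0.le T hv
    refine a1.trans (mul_le_mul_of_nonneg_right ?_ a2)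
    have := pow_le_pow_left₀ (by positivity)
      (mul_le_mul_of_nonneg_right c1 (show 0 ≤ 2 + 3 * ρ by positivity)) 2
    linarith
  · obtain ⟨u, a1, a2⟩ := far_tl F sb.bl.self_of_nhds sy.self_of_nhds H' C1 e0 e1 r1 (by linarith)
      r2 s0
    have := mul_le_mul_of_nonneg_right c1 (show 0 ≤ 1 + ρ by positivity)
    exact ⟨u, by linarith, by nlinarith [mul_nonneg (add_nonneg (add_nonneg p3
      (mul_nonneg (show (0 : ℝ) ≤ 80 by norm_num) p2)) p1.le) (show 0 ≤ -g p u u by linarith)]⟩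

/-- **The bounds near Kerr.** -/
theorem near_nice {c : Pm} (h : c.Ok) (k : ℕ) : ∃ η > 0, ∃ B, ∀ g p, p ∈ c.D → rd p ≤ c.Rs →
    Sb g p → Bd k (g - gin c.M c.a) p η → Nice k B g c.tau p := by
  obtain ⟨-, T, -⟩ := P354YT.tau_ok c h
  obtain ⟨c0, h0, m⟩ := T.margin 0
  obtain ⟨C, hC⟩ := P354BK.bd_gin c.M c.a h.r10 c.Rs k
  have M0 := h.M0
  have q0 : 0 < c.M / c.r1 := div_pos M0 h.r10
  refine ⟨min (c0 / 2) ((2 + c.M / c.r1) ^ 2)⁻¹, by positivity,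
    |C| + c0 + 2 / c0 + (2 + c.M / c.r1), fun g p hp hr sb b => ?_⟩
  have o := h.pos hp
  have b0 v := (abs_le.1 (P354YI.bd_zero b v v))
  have q1 : 0 < 2 / c0 := by positivity
  have q2 := abs_nonneg C
  refine ⟨?_, fun v hv => ?_, eT + (1 + c.M / c.r1) • P354YT.No p, ?_⟩
  · have := P354YI.bd_add b (hC p hp.le hr) ((sb.sub (sb_gin o)).sm) (sb_gin o).sm
    rw [sub_add_cancel] at this
    have m1 := min_le_left (c0 / 2) ((2 + c.M / c.r1) ^ 2)⁻¹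
    exact P354YO.bd_mono this le_rfl (by linarith [le_abs_self C])
  · have m1 := m p hp (by rw [(T.G_bd _).1 hr, zero_mul]) 0 ⟨le_rfl, by norm_num⟩ (fun _ => rfl) v
      (by rw [hv, zero_mul, add_zero])
    have m2 := (neg_le_neg (mul_le_mul_of_nonneg_right (min_le_left _ _) (by positivity))).trans
      (b0 v).1
    have m3 : c0 / 2 * ‖v‖ ^ 2 ≤ g p v v := by
      simp only [Pi.sub_apply] at m2
      linarith
    have m4 : ‖v‖ ^ 2 ≤ 2 / c0 * g p v v := by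
      rw [div_mul_eq_mul_div, le_div_iff₀ h0]; linarith
    have m5 : 0 ≤ g p v v := le_trans (by positivity) m3
    exact m4.trans (mul_le_mul_of_nonneg_right (by linarith) m5)
  · have G := P354XA.gin_bil c.M c.a p
    have n1 : ‖P354YT.No p‖ ≤ 1 := by
      refine norm_prod_le_iff.2 ⟨norm_one.le, ?_⟩
      have : ‖p.2‖ ≤ rd (0, p.2) := by simpa using P354XA.norm_le ((0, p.2) : R4)
      simp only [P354YT.No, norm_smul, norm_neg, norm_inv, Real.norm_eq_abs, abs_of_pos o]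
      exact inv_mul_le_one_of_le₀ this o.le
    have n2 : ‖eT + (1 + c.M / c.r1) • P354YT.No p‖ ≤ 2 + c.M / c.r1 := by
      refine (norm_add_le _ _).trans ?_
      rw [norm_smul, Real.norm_of_nonneg (by positivity), show ‖eT‖ = 1 by simp [eT]]
      nlinarith
    refine ⟨n2.trans (by linarith), ?_⟩
    have m2 := (b0 _).2.trans (mul_le_mul (min_le_right _ _) (mul_le_mul n2 n2 (norm_nonneg _)
      (by positivity)) (by positivity) (by positivity))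
    rw [← sq, inv_mul_cancel₀ (by positivity)] at m2
    have s1 : 2 * c.M * rd p / P354I.Sg c.a (rd p) (xs p) ≤ 2 * (c.M / c.r1) := by
      rw [div_le_iff₀ ((pow_pos o 2).trans_le (P354XA.Sg_ge c.a p))]
      have := mul_le_mul_of_nonneg_left hp.le q0.le
      rw [div_mul_cancel₀ _ h.r10.ne'] at this
      nlinarith [mul_le_mul_of_nonneg_left (P354XA.Sg_ge c.a p) q0.le]
    have e1 v := P354NK.gin_No (M := c.M) (a := c.a) o.ne' v
    have e2 : kf c.a p (P354YT.No p) = 0 := by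
      have := P354YT.dr_rad o.ne' 1 (-1)
      rw [neg_div, one_div] at this
      simp [kf, P354YT.No, P354XA.dq_eq] at this ⊢
      rw [this]; ring
    have e3 : kf c.a p eT = 1 := by rw [kf, dr_T]; simp [P354XA.dq_eq, eT]
    have e4 := P354XA.gin_T (M := c.M) (a := c.a) (dr_T p)
    rw [show dq p eT = 0 by simp [P354XA.dq_eq, eT], show eT.1 = 1 from rfl] at e4
    simp only [Pi.sub_apply, G.add_left, G.add_right, G.smul_left, G.smul_right, e1, e2, e3, e4,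
      P354XA.gin_symm c.M c.a p eT (P354YT.No p)] at m2
    nlinarith

/-- **The change of the chart.** -/
theorem nice_pb (k : ℕ) (B K : ℝ) : ∃ B', ∀ (φ : R4 → R4) g (τ τ' : R4 → ℝ) p,
    ContDiffAt ℝ ∞ φ p → Jb k (fderiv ℝ φ) p K → (∀ v, ‖v‖ ≤ K * ‖fderiv ℝ φ p v‖) → Sb g (φ p) →
      (∀ v, fderiv ℝ τ' p v = fderiv ℝ τ (φ p) (fderiv ℝ φ p v)) → Nice k B g τ (φ p) →
      Nice k B' (pb φ g) τ' p := by
  let J := {z : (R4 → R4) × Tw × R4 // ContDiffAt ℝ ∞ z.1 z.2.2 ∧ Jb k (fderiv ℝ z.1) z.2.2 K ∧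
    Sb z.2.1 (z.1 z.2.2) ∧ Bd k z.2.1 (z.1 z.2.2) B}
  obtain ⟨C, C0, hC⟩ := bd_of_oj (fun j : J => j.2.2.2.1.pull j.2.1) (oj_pb (fun j : J => j.2.1)
    (.of1 (fun j => P354YI.at_fd j.2.1) fun j => j.2.2.1) (fun j => j.2.2.2.1)
    (oj_of_bd (fun j => j.2.2.2.1) fun j => j.2.2.2.2))
  refine ⟨(C + K ^ 2 + 1) * B, fun φ g τ τ' p sm jb lo sb e n => ?_⟩
  have b0 : 0 < B := by
    obtain ⟨u, h1, h2⟩ := n.tl
    refine lt_of_le_of_ne ((norm_nonneg _).trans h1) ?_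
    rintro rfl
    norm_num at h2
  have k0 := jb.nonneg
  refine ⟨P354YO.bd_mono (hC ⟨⟨φ, g, p⟩, sm, jb, sb, n.bd⟩) le_rfl (by nlinarith [sq_nonneg K]),
    fun v hv => ?_, ?_⟩
  · have a2 := n.sp _ ((e v).symm.trans hv)
    have a3 := pow_le_pow_left₀ (norm_nonneg _) (lo v) 2
    rw [mul_pow] at a3
    have a4 := (sq_nonneg _).trans a2
    show _ ≤ _ * g (φ p) (fderiv ℝ φ p v) (fderiv ℝ φ p v)
    nlinarith [sq_nonneg K]
  · obtain ⟨u, u1, u2⟩ := n.tl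
    obtain ⟨w, rfl⟩ := LinearMap.injective_iff_surjective.1 (show Function.Injective
      (fderiv ℝ φ p : R4 →ₗ[ℝ] R4) from (injective_iff_map_eq_zero _).2 fun v z =>
        norm_le_zero_iff.1 ((lo v).trans_eq (by rw [show fderiv ℝ φ p v = 0 from z]; simp))) u
    refine ⟨w, (lo w).trans ((mul_le_mul_of_nonneg_left u1 k0).trans
      (mul_le_mul_of_nonneg_right (by nlinarith [sq_nonneg (K - 1)]) b0.le)), ?_⟩
    have : B * g (φ p) (fderiv ℝ φ p w) (fderiv ℝ φ p w) ≤ -1 := u2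
    show _ * g (φ p) (fderiv ℝ φ p w) (fderiv ℝ φ p w) ≤ _
    nlinarith [sq_nonneg K]

/-- The margin of the gauge near Kerr. -/
theorem Mar.near {c : Pm} {κ : ℝ} (o : c.Ok) (h : Mar c κ) : ∃ η > 0, ∀ g p, p ∈ c.D → Sb g p →
    Bd 4 (g - gin c.M c.a) p η → (p, jet 4 g p, c.X p) ∈ (nat c κ).Mg := by
  obtain ⟨-, η, h0, h⟩ := h
  refine ⟨η, h0, fun g p hp sb b => h p (o.r1.1.trans hp) _ ?_⟩
  simp only [Prod.dist_eq, dist_self, max_le_iff]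
  exact ⟨h0.le, (dist_eq_norm _ _).trans_le (P354BK.jet_sub sb.sm (sb_gin (o.pos hp)).sm b), h0.le⟩

end Vale.Agent.P354YA
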