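import Vale.Agent.P354YA.Farx
import Vale.Agent.P354YA.Fn2
import Vale.Agent.P354YQ.Og2

/-!
The bounds of CONT far out.
-/

open scoped ContDiff
open Set Filter Topology

noncomputable section

namespace Vale.Agent.P354YA

open Vale.Agent.P354n (R4)
open Vale.Agent.P354XG Vale.Agent.P354XD Vale.Agent.P354XR Vale.Agent.P354XI Vale.Agent.P354Z
open Vale.Agent.P354XE (Tw rd ur uw Bd)
open Vale.Agent.P354XO (b4 dn4 Cn sc nq_sc pj_sc)
open Vale.Agent.P354XV (Flt Nice)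
open Vale.Agent.P354YI (Jb Oj)
open Vale.Agent.P354YO (sh IsTh rd_sh sh_cd sh_inv oj_sh oj_fd1)
open Vale.Agent.P354YK (fz FT)
open Vale.Agent.P354MG (Lc lo)
open Vale.Agent.P354CQ (Nrm)
open Vale.Agent.P354TF (Rel Cx vc_R vc_T vc_Ro th_cx rel_P rel_base rm3 fd_inv)

theorem nice_cg {k : ℕ} {B : ℝ} {g g' : Tw} {τ : R4 → ℝ} {p : R4} (n : Nice k B g τ p)
    (e : g' =ᶠ[𝓝 p] g) : Nice k B g' τ p := by
  refine ⟨fun j hj v w => ?_, e.self_of_nhds ▸ n.sp, e.self_of_nhds ▸ n.tl⟩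
  have : (fun x => g' x v w) =ᶠ[𝓝 p] fun x => g x v w := e.mono fun x k => by simp only [k]
  rw [(this.iteratedFDeriv ℝ j).eq_of_nhds]
  exact n.bd j hj v w

theorem sh_jb {A B : ℝ → ℝ} (hA : ContDiff ℝ ∞ A) (hB : ContDiff ℝ ∞ B) {r1 : ℝ} (h1 : 0 < r1)
    (ρ : ℝ) (k : ℕ) : ∃ K, ∀ q, r1 ≤ rd q → rd q ≤ ρ → Jb k (fderiv ℝ (sh A B)) q K := by
  have o : ∀ {F : ℝ → ℝ}, ContDiff ℝ ∞ F → Oj (k + 1)
      (fun j : {q : R4 // r1 ≤ rd q ∧ rd q ≤ ρ} => rd j.1) (fun _ => F) 1 := fun h =>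
    .fix isCompact_Icc (fun _ _ => h.contDiffAt) fun j => j.2
  obtain ⟨K, -, hK⟩ := (oj_fd1 (oj_sh h1 (fun j => j.2) (o hA) (o hB) fun _ => le_rfl)
    fun _ => le_rfl).bd
  exact ⟨K * 1, fun q a b => hK ⟨q, a, b⟩⟩

section tf
variable {c : Cs} {E : Est} {A B : ℝ → ℝ} {f : R4 → ℝ} {y : E6} {k K c' : ℝ}

theorem om_le {O : Set E6} {F : Sm (on O)} (C : Cx O A B) (r : Rel A B F f) (hy : y ∈ O) {b : ℝ}
    (hb : ∀ j, ‖fv (Om (hp _) j F) y‖ ≤ b) (i : Fin 3) :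
    |fderiv ℝ f (sh A B (pj y)) (P354XE.Om i (sh A B (pj y)))| ≤ 2 * b := by
  have e : fv _ y = ((fderiv ℝ f (sh A B (pj y)) (P354XE.Om i (sh A B (pj y))) : ℝ) : ℂ) :=
    (r.der C (vc_Ro C i) y hy).2
  have P := fun j => (rel_P C i j y hy).2
  have a1 := Real.abs_cos_le_one (B (rd (sh A B (pj y))))
  have a2 := Real.abs_sin_le_one (B (rd (sh A B (pj y))))
  have b0 := (norm_nonneg _).trans (hb 0)
  rw [← Real.norm_eq_abs, ← Complex.norm_real, ← e]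
  simp only [Fin.sum_univ_three, Derivation.add_apply, Derivation.smul_apply, smul_eq_mul,
    fv_add, fv_mul, P]
  refine (norm_add₃_le).trans ?_
  simp only [norm_mul, Complex.norm_real, Real.norm_eq_abs, P354TF.Pr]
  have m : ∀ {u : ℝ} j, |u| ≤ 1 → |u| * ‖fv (Om (hp _) j F) y‖ ≤ b :=
    fun j h => (mul_le_of_le_one_left (norm_nonneg _) h).trans (hb j)
  fin_cases i <;> simp [rm3] <;> linarith [m 0 a1, m 0 a2, m 1 a1, m 1 a2, hb 2]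

theorem tf_of (s : E.Is c) (o : c.Ok) (th : IsTh c.M c.M c.a A B) (n : Nrm c.M c.a k A)
    (hk : |k| ≤ K) (r : Rel A B E.tau f) (hy : y ∈ E.O2) (fa : Est.Fa c y)
    (hc : c' * (1 + K + c.R1) ^ 2 ≤ c.cw) (c0 : 0 ≤ c') :
    Tf c.M c.a (6 / 5) c' (fderiv ℝ f (sh A B (pj y))) (sh A B (pj y)) := by
  have z0 := is0_of s o
  have C := th_cx o.aM th z0.co
  have p := z0.co.pos y hy
  have er : rd (sh A B (pj y)) = y.2.1 := (rd_sh _ _ _).trans (C.rd hy)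
  have eR : rv ((E.K2 c).R E.tau) y =
      fderiv ℝ f (sh A B (pj y)) (P354XE.Lo c.M c.a (sh A B (pj y))) :=
    congrArg Complex.re (r.der C (vc_R o.aM z0 th) y hy).2
  have eT : rv ((E.K2 c).T E.tau) y = fderiv ℝ f (sh A B (pj y)) P354XE.eT :=
    congrArg Complex.re (r.der C (vc_T C) y hy).2
  have R1 : 10 ≤ c.R1 := by linarith [o.R1, (abs_nonneg _).trans_lt o.aM]
  have tR := s.shape.taR y hy fa
  have tT := s.shape.taT y hy fa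
  rw [eR] at tR
  rw [eT] at tT
  refine ⟨tR, le_trans ?_ tT.1, er.symm ▸ tT.2, fun i => ?_⟩
  · have eu := ur_sh (B := B) n p (z0.rad y hy)
    have u1 := (uw_bd eu hk).1
    have u2 : |ur c.M c.a (sh A B (pj y))| ≤ uw c.M c.a (sh A B (pj y)) :=
      Real.abs_le_sqrt (le_add_of_nonneg_left zero_le_one)
    have u3 := abs_add_le (uu c.M y - k) k
    have a0 := abs_nonneg (uu c.M y)
    have k0 := abs_nonneg k
    rw [sub_add_cancel, ← eu] at u3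
    have w := w_cmp (one_pos.trans_le u1) (show 0 < |uu c.M y| + c.R1 by linarith)
      (show 1 ≤ 1 + K + c.R1 by linarith) (by nlinarith) (s := 6 / 5) (by norm_num) (by norm_num)
    have w2 := Real.rpow_le_rpow_of_exponent_le (show 1 ≤ |uu c.M y| + c.R1 by linarith)
      (show (-(6 / 5) : ℝ) ≤ -1 - c.d0 by linarith [o.d0.2])
    have w3 := mul_le_mul_of_nonneg_left (w.trans (mul_le_mul_of_nonneg_left w2 (sq_nonneg _))) c0
    have w4 := mul_le_mul_of_nonneg_right hc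
      (Real.rpow_nonneg (show 0 ≤ |uu c.M y| + c.R1 by linarith) (-1 - c.d0))
    rw [er]
    nlinarith [mul_le_mul_of_nonneg_left (w3.trans ((mul_assoc _ _ _).ge.trans w4)) p.1.le]
  · exact (om_le C r hy (s.shape.taO y hy fa) i).trans (by linarith)

end tf

section lc
variable {z : Z1} {c : Cs} {gc g : Tw} {E : Est} {κ Cl e tw : ℝ} {U : Set E6} {a : E6 → E6}
  {A B : ℝ → ℝ} {x : E6} {p : R4} (h : Lc z c gc g E κ Cl e U a A B tw)
include h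

theorem lc_lift (hp : p ∈ (lo z c.Rs).O) (r0 : 0 < rd p) (h1 : -1 ≤ (lo z c.Rs).psi p)
    (h2 : (lo z c.Rs).tau p ∈ E.Lv) : ∃ x ∈ U, pj x = p ∧ x.2.1 = rd p ∧ nq (a x) = 1 ∧
      (c.R1 + 4 ≤ rd p → a x ∈ E.O2 ∧ Est.Fa c (a x)) := by
  obtain ⟨x, x1, rfl, -, x2⟩ := P354YQ.ex_lift r0
  have hx := (h.cov x (x2 ▸ r0) (ne_of_nq x1) hp h1 h2).1
  have n := nq_pos (h.cht.eqv.ne x hx)
  have s0 : (((√(nq (a x)))⁻¹ : ℝ) : ℂ) ≠ 0 := by
    exact_mod_cast (inv_pos.2 (Real.sqrt_pos.2 n)).ne'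
  have hx' := h.cht.eqv.hom x hx _ s0
  have p' := h.cht.eqv.pos _ hx'
  have e := pj_sc s0 x
  refine ⟨_, hx', e, x2, ?_, fun r => (h.cov _ p'.1 p'.2 (e ▸ hp) (e ▸ h1) (e ▸ h2)).2.2
    (r.trans_eq x2.symm)⟩
  rw [h.cht.eqv.eqv x hx _ s0, nq_sc, Complex.normSq_ofReal, ← mul_inv, Real.mul_self_sqrt n.le,
    inv_mul_cancel₀ n.ne']

theorem lc_tau (s : E.Is c) {f : R4 → ℝ} (r : Rel A B E.tau f) (hx : x ∈ U) (hy : a x ∈ E.O2) :
    (lo z c.Rs).tau =ᶠ[𝓝 (pj x)] (f ∘ sh A B) ∘ dn4 a := by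
  have C : Cn (U ∩ a ⁻¹' E.O2) := ⟨ContinuousOn.isOpen_inter_preimage
    (fun w hw => (h.cht.eqv.sm w hw).continuousAt.continuousWithinAt) h.cht.eqv.op s.shape.co2.op,
    fun w hw => h.cht.eqv.pos w hw.1, fun w hw k hk => ⟨h.cht.eqv.hom w hw.1 k hk, by
      rw [mem_preimage, h.cht.eqv.eqv w hw.1 k hk]
      exact s.shape.co2.hom _ hw.2 k hk⟩⟩
  filter_upwards [C.shadow.mem_nhds (mem_image_of_mem _ ⟨hx, hy⟩)] with q ⟨w, hw, e⟩
  rw [← e, ← h.tau w hw.1 hw.2, rv, (r _ hw.2).2, Complex.ofReal_re, ← h.cht.eqv.pj_dn hw.1]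
  rfl

end lc

theorem fbn (z : Z1) (k : ℕ) (t1 : ℝ) : ∃ Rc, ∀ c : Cs, Ag z c → c.t1 = t1 → Rc ≤ c.R2 → ∀ K,
    ∃ η0 > 0, ∀ gc g E κ Cl e U a A B tw η V, E.Is c → Lc z c gc g E κ Cl e U a A B tw →
      |A z.R1| ≤ K → (∀ x ∈ U, Flt (lo z c.Rs) g (pj x)) → FT c E (k + 2 + 3) η →
      E.e0 + |E.M - c.M| + |E.a - c.a| ≤ η → η ≤ η0 → E.Lv = Iio V → ∃ B', ∀ p ∈ (lo z c.Rs).O,
        -1 ≤ (lo z c.Rs).psi p → (lo z c.Rs).tau p < V → c.Rs ≤ rd p →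
          Nice k B' g (lo z c.Rs).tau p := by
  obtain ⟨Rc, hF⟩ := farx z (k + 2) t1
  by_cases aM : |z.a| < z.M
  swap
  · exact ⟨0, fun c o => absurd o.aM aM⟩
  obtain ⟨Cn, C1, hN⟩ := far_nice (s := 6 / 5) (δ := 1 / 10) aM (by norm_num) (by norm_num) k
  refine ⟨max Rc Cn, fun c o et R K => ?_⟩
  obtain ⟨η1, η1p, C, C2, hF⟩ := hF c o et ((le_max_left _ _).trans R) K
  obtain ⟨K1, hK⟩ : ∃ K1, K1 = |K| + |4 * z.M ^ 2 / z.R1 + z.R1 + 2 * P354YT.tb z.M z.a z.R1| :=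
    ⟨_, rfl⟩
  have K0 : 0 ≤ K1 := by rw [hK]; positivity
  have R1 := o.ok.R1
  have R2 := o.ok.R2
  have Rs := o.ok.Rs
  have M0 := o.M0
  have eM := o.M
  have cw := o.ok.cw
  have D1 : 1 ≤ (1 + K1 + c.R1) ^ 2 := one_le_pow₀ (by linarith)
  have P0 : 0 < Cn * C * (1 + K1 + c.R1) ^ 2 := by positivity
  refine ⟨min η1 (c.cw / (Cn * C * (1 + K1 + c.R1) ^ 2)), lt_min η1p (div_pos cw.1 P0),
    fun gc g E κ Cl e U a A B tw η V s h hA fl ft par hη hV => ?_⟩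
  obtain ⟨β, hβ⟩ := hF gc g E κ Cl e U a A B tw η s h hA fl ft par (hη.trans (min_le_left _ _))
  obtain ⟨k0, n⟩ := lc_nrm h o
  have hk : |k0| ≤ K1 := by
    have := n z.R1 (by linarith [o.R1])
    rw [show k0 = -A z.R1 + (4 * z.M ^ 2 / z.R1 + z.R1 + 2 * P354YT.tb z.M z.a z.R1) by linarith]
    refine (abs_add_le _ _).trans ?_
    rw [abs_neg]
    linarith [le_abs_self K]
  have η0 := ft.2.1
  have h1 : Cn * (C * η) * (1 + K1 + c.R1) ^ 2 ≤ c.cw := by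
    have := (le_div_iff₀ P0).1 (hη.trans (min_le_right _ _))
    linarith
  have h0 : 0 ≤ Cn * (C * η) := by positivity
  have h2 : Cn * (C * η) ≤ 1 := ((le_mul_of_one_le_right h0 D1).trans h1).trans cw.2
  obtain ⟨sA, sB⟩ := lc_sm h o
  have z0 := is0_of s o.ok
  have th := h.th
  have X : Cx E.O2 A B := ⟨z0.co, sA, sB⟩
  obtain ⟨f, r⟩ := rel_base X s.shape.b2
  obtain ⟨C3, h3⟩ := h.ext V (k + 1) hV
  obtain ⟨B1, hN⟩ := hN (2 * C3)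
  obtain ⟨K2, j2⟩ := sh_jb sA sB one_pos (2 * C3) k
  obtain ⟨K3, j3⟩ := sh_jb sA.neg sB.neg one_pos (2 * C3) 0
  obtain ⟨B2, n2⟩ := nice_pb k B1 (max K2 K3)
  obtain ⟨B3, n3⟩ := nice_pb k B2 C3
  rw [← o.M, ← o.a] at th n
  refine ⟨B3, fun p hp p1 p2 p3 => ?_⟩
  obtain ⟨x, hx, rfl, x2, y1, y2⟩ := lc_lift h hp (by linarith) p1 (hV ▸ p2)
  obtain ⟨hy, fa⟩ := y2 (by linarith)
  obtain ⟨j1, i1⟩ := h3 x hx (by linarith) p1
  have e1 := h.cht.eqv.pj_dn hx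
  have r1 : c.Rs - 1 ≤ (a x).2.1 := le_of_not_gt fun l => by
    have := s.shape.low _ hy fa l.le
    rw [h.o1] at this
    obtain ⟨w, hw, e⟩ := this
    rw [h.cht.dif.inj hw.1 hx e] at hw
    linarith [hw.2]
  have r2 : (a x).2.1 ≤ 2 * C3 := by
    have := P354YO.rd_lip (dn4 a (pj x)) 0
    rw [sub_zero, lc_rd h hx, show rd 0 = 0 by simp [rd, P354XE.xs], sub_zero] at this
    linarith [le_abs_self (a x).2.1, j1.zero]
  have r3 := X.rd hy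
  have r4 : rd (sh A B (pj (a x))) = (a x).2.1 := (rd_sh _ _ _).trans r3
  have r5 : Cn ≤ (a x).2.1 := by linarith [le_max_right Rc Cn]
  have sb := P354BO.sb_pull z0.co sA sB (z0.vac _ hy) hy
  have N1 := hN (C * η) _ β _ f (by positivity) h2 (r4 ▸ r5) (r4 ▸ r2) sb
    (X.ev hy fun w hw u v => by
      obtain ⟨D, -, hD, m, -⟩ := z0.vac w hw
      simp only [P354XE.pb, sh_inv]
      exact m.symm _ hD _ _) (hβ _ hy y1 fa).1
    (o.M ▸ o.a ▸ tf_of s o.ok th n hk r hy fa h1 h0)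
  have d1 := (r _ hy).1.differentiableAt (by simp)
  have d2 := (X.cd hy).differentiableAt (by simp)
  have N2 := n2 (sh A B) _ f (f ∘ sh A B) _ (X.cd hy)
    ((j2 _ (by linarith) (r3 ▸ r2)).mono le_rfl (le_max_left _ _)) (fun v => by
      nth_rw 1 [← fd_inv (X.ne hy) sA sB v]
      exact (ContinuousLinearMap.le_opNorm _ _).trans (mul_le_mul_of_nonneg_right
        ((j3 _ (by linarith) (r4 ▸ r2)).zero.trans (le_max_right _ _)) (norm_nonneg _)))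
    sb (fun v => by rw [fderiv_comp _ d1 d2]; rfl) N1
  rw [← e1] at N2
  have sd := h.cht.eqv.sm_dn hx
  refine nice_cg (n3 (dn4 a) _ _ _ _ sd j1.fd i1 (e1 ▸ sb.pull (X.cd hy)) (fun v => ?_) N2)
    ((lc_pb h o hx).symm.trans (P354YO.pb_comp sd (e1 ▸ X.cd hy)))
  rw [(lc_tau h s r hx hy).fderiv_eq, fderiv_comp _ (e1 ▸ d1.comp _ d2)
    (sd.differentiableAt (by simp))]
  rfl

end Vale.Agent.P354YA
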