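import Vale.Agent.P354YA.Nis
import Vale.Agent.P354YO.Sh
import Vale.Agent.P354SC.Wd

/-!
The estimates far out bound the derivatives of the metric on bounded shells.
-/

open scoped ContDiff
open Set Filter Topology

noncomputable section

namespace Vale.Agent.P354YA

open Vale.Agent.P354n (R4)
open Vale.Agent.P354I (rp)
open Vale.Agent.P354RC (bs cv sum_bs)
open Vale.Agent.P354XD (tb)
open Vale.Agent.P354XE
open Vale.Agent.P354XA (ip lo1 dr_eq rd_sq Lo_fst dr_Lo uw_le)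
open Vale.Agent.P354YI (Oj)
open Vale.Agent.P354YO (Sb pr0 shell_cpt sb_gin tb_ap bd_of_oj)
open Vale.Agent.P354SC (W Dv W_of)

variable {M a r1 R2 : ℝ} {p v w : R4}

/-- The coefficients of a vector in the fields Lo, d/dt and the rotations. -/
def cr (p w : R4) : Fin 3 → ℝ := ![(p.2.2.1 * w.2.2.2 - p.2.2.2 * w.2.2.1) / rd p ^ 2,
  (p.2.2.2 * w.2.1 - p.2.1 * w.2.2.2) / rd p ^ 2, (p.2.1 * w.2.2.1 - p.2.2.1 * w.2.1) / rd p ^ 2]
def mu (M a : ℝ) (p v : R4) : ℝ := v.1 - lo1 M a (rd p) * dr p v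
def co3 (M a : ℝ) (p v : R4) : Fin 3 → ℝ := cr p (v - dr p v • Lo M a p)

theorem dec0 (M a : ℝ) (h : rd p ≠ 0) (v : R4) :
    v = dr p v • Lo M a p + mu M a p v • eT + ∑ i, co3 M a p v i • Om i p := by
  have a1 : ip p (Lo M a p) = rd p := by
    have := dr_Lo (M := M) (a := a) h
    rwa [dr_eq, div_eq_one_iff_eq h] at this
  have a2 : ip p v = dr p v * rd p := by rw [dr_eq, div_mul_cancel₀ _ h]
  have k := rd_sq p
  have h3 : rd p ^ 2 ≠ 0 := pow_ne_zero 2 h
  have a3 := Lo_fst M a p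
  simp only [ip, co3, cr, mu] at *
  generalize rd p ^ 2 = s at *
  generalize Lo M a p = L at *
  generalize dr p v = b at *
  ext <;> simp [Fin.sum_univ_three, Om, eT, a3]
  · ring
  all_goals field_simp
  · linear_combination (v.2.1 - b * L.2.1) * k + p.2.1 * (a2 - b * a1)
  · linear_combination (v.2.2.1 - b * L.2.2.1) * k + p.2.2.1 * (a2 - b * a1)
  · linear_combination (v.2.2.2 - b * L.2.2.2) * k + p.2.2.2 * (a2 - b * a1)

theorem dec1 (M a : ℝ) (h : rd p ≠ 0) (β : Fin 3 → R4 → ℝ) (v : R4) : v = dr p v • Lo M a p +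
    mu M a p v • Nf β p + ∑ i, (co3 M a p v i - mu M a p v * β i p) • Om i p := by
  refine (dec0 M a h v).trans ?_
  simp only [Nf, Fin.sum_univ_three, smul_add, sub_smul, mul_smul]
  abel

theorem Om_cd (i : Fin 3) : ContDiff ℝ ∞ (Om i) := by
  fin_cases i
  · show ContDiff ℝ ∞ fun p : R4 => ((0, 0, -p.2.2.2, p.2.2.1) : R4)
    fun_prop
  · show ContDiff ℝ ∞ fun p : R4 => ((0, p.2.2.2, 0, -p.2.1) : R4)
    fun_prop
  · show ContDiff ℝ ∞ fun p : R4 => ((0, -p.2.2.1, p.2.1, 0) : R4)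
    fun_prop

theorem dr_at (o : 0 < rd p) (v : R4) : ContDiffAt ℝ ∞ (fun y => dr y v) p := by
  simp only [dr_eq, ip]
  exact ContDiffAt.div (by fun_prop) (rd_at o) o.ne'

theorem sb_ap {g : Tw} {U V : R4 → R4} (s : Sb g p) (u : ContDiffAt ℝ ∞ U p)
    (v : ContDiffAt ℝ ∞ V p) : ContDiffAt ℝ ∞ (fun y => g y (U y) (V y)) p :=
  ((s.cd.clm_apply u).clm_apply v).congr_of_eventuallyEq
    (s.bl.mono fun _ hy => (tb_ap hy _ _).symm)

section
variable (h : |a| < M) (k : rp M a < rd p)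
include h k

theorem rd_out : 0 < rd p := (P354YR.rp_pos h).trans k

theorem mu_cd (v : R4) : ContDiffAt ℝ ∞ (fun y => mu M a y v) p :=
  contDiffAt_const.sub (((Lo_at h k (rd_out h k)).fst.congr_of_eventuallyEq
    (.of_forall fun y => (Lo_fst M a y).symm)).mul (dr_at (rd_out h k) v))

theorem cc_cd (v : R4) (i : Fin 3) : ContDiffAt ℝ ∞ (fun y => co3 M a y v i) p := by
  have o := rd_out h k
  have u : ContDiffAt ℝ ∞ (fun y => v - dr y v • Lo M a y) p :=
    contDiffAt_const.sub ((dr_at o v).smul (Lo_at h k o))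
  have d := (rd_at o).pow 2
  have n := pow_ne_zero 2 o.ne'
  have i1 : ContDiffAt ℝ ∞ (fun y : R4 => y.2.1) p := by fun_prop
  have i2 : ContDiffAt ℝ ∞ (fun y : R4 => y.2.2.1) p := by fun_prop
  have i3 : ContDiffAt ℝ ∞ (fun y : R4 => y.2.2.2) p := by fun_prop
  fin_cases i
  exacts [((i2.mul u.snd.snd.snd).sub (i3.mul u.snd.snd.fst)).div d n,
    ((i3.mul u.snd.fst).sub (i1.mul u.snd.snd.snd)).div d n,
    ((i1.mul u.snd.snd.fst).sub (i2.mul u.snd.fst)).div d n]

theorem vf_cd (i : Fin 5) : ContDiffAt ℝ ∞ (vf M a i) p := by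
  fin_cases i
  exacts [contDiffAt_const, (rd_at (rd_out h k)).smul (Lo_at h k (rd_out h k)),
    (Om_cd 0).contDiffAt, (Om_cd 1).contDiffAt, (Om_cd 2).contDiffAt]

end

variable {J : Type} {x : J → R4} {m : ℕ} (hx : ∀ j, r1 ≤ rd (x j) ∧ rd (x j) ≤ R2)
include hx

theorem oj_s {V : Type} [NormedAddCommGroup V] [NormedSpace ℝ V] {F : R4 → V}
    (hF : ∀ y, r1 ≤ rd y → ContDiffAt ℝ ∞ F y) (st : ∀ y, F y = F (pr0 y)) :
    Oj m x (fun _ => F) 1 :=
  (Oj.comp (f := fun _ => pr0) (fun _ => pr0.contDiff.contDiffAt) m (G := fun _ => F)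
    ((Oj.cst pr0).congr' fun _ _ => pr0.fderiv)
    (Oj.fix (shell_cpt r1 R2) (fun y hy => hF y hy.2.1) fun j => ⟨rfl, hx j⟩)).congr' fun _ => st

variable (h : |a| < M) (k : rp M a < r1)
include h k

theorem oj_dr (v : R4) : Oj m x (fun _ y => dr y v) 1 :=
  oj_s hx (fun _ hy => dr_at (rd_out h (k.trans_le hy)) v) fun _ => rfl
theorem oj_mu (v : R4) : Oj m x (fun _ y => mu M a y v) 1 :=
  oj_s hx (fun _ hy => mu_cd h (k.trans_le hy) v) fun _ => rfl
theorem oj_cc (v : R4) (i : Fin 3) : Oj m x (fun _ y => co3 M a y v i) 1 :=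
  oj_s hx (fun _ hy => cc_cd h (k.trans_le hy) v i) fun _ => rfl
theorem oj_rd : Oj m x (fun _ => rd) 1 :=
  oj_s hx (fun _ hy => rd_at (rd_out h (k.trans_le hy))) fun _ => rfl
theorem ev_rd (j : J) : ∀ᶠ y in 𝓝 (x j), rd y ≠ 0 :=
  P354YR.rd_cont.continuousAt.eventually_ne (rd_out h (k.trans_le (hx j).1)).ne'

/-- Bounds of the words give bounds of the jets. -/
theorem w_oj {μ : J → ℝ} (n : ℕ) : ∀ {f : J → R4 → ℝ},
    (∀ j, W (vf M a) n (f j) (x j) (μ j)) → Oj n x f μ := by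
  have z {f : J → R4 → ℝ} {n} (H : ∀ j, W (vf M a) n (f j) (x j) (μ j)) : Oj 0 x f μ :=
    .zero (fun j => (H j).sm) (fun j => (H j).nn) ⟨1, fun j => (H j).le.trans_eq (one_mul _).symm⟩
  induction n with
  | zero => exact z
  | succ n ih =>
    intro f H
    have d i := ih fun j => (H j).der i
    have ri : Oj n x (fun _ y => (rd y)⁻¹) 1 := oj_s hx (fun _ hy =>
      (rd_at (rd_out h (k.trans_le hy))).inv (rd_out h (k.trans_le hy)).ne') fun _ => rfl
    refine (z H).succ ((Oj.sum Finset.univ (z H).nn fun b _ => Oj.smull (f := fun _ _ => cv b)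
      ((((oj_dr hx h k (bs b)).smulr (ri.smulr (d 1))).add ((oj_mu hx h k (bs b)).smulr (d 0))).add
        (Oj.sum Finset.univ (z H).nn fun i _ => (oj_cc hx h k (bs b) i).smulr (d i.succ.succ)))
      (.cst _)).congr fun j => (ev_rd hx h k j).mono fun y hy => ?_)
    refine ContinuousLinearMap.ext fun v => ?_
    conv_lhs => rw [← sum_bs v]
    simp only [map_sum, map_smul, sum_apply, smul_apply,
      smul_eq_mul]
    refine Finset.sum_congr rfl fun b _ => (mul_comm _ _).trans (congrArg (· * _) ?_)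
    conv_lhs => rw [dec0 M a hy (bs b)]
    simp [Dv, vf, Fin.sum_univ_three, hy]

/-- **The estimates far out bound the jets of the metric.** -/
theorem far_bd {s δ : ℝ} {N : ℕ} {g : J → Tw} {β : J → Fin 3 → R4 → ℝ} {ε : J → ℝ} (s0 : 0 ≤ s)
    (d0 : 0 ≤ δ) (h1 : 1 ≤ r1) (e : ∀ j, ε j ∈ Icc 0 1) (sb : ∀ j, Sb (g j) (x j))
    (sy : ∀ j, ∀ᶠ y in 𝓝 (x j), ∀ v w, g j y v w = g j y w v)
    (F : ∀ j, Far M a s δ (ε j) N (g j) (β j) (x j)) : ∃ C, ∀ j, Bd N (g j) (x j) C := by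
  have o j := k.trans_le (hx j).1
  have o' j := rd_out h (o j)
  have wb {f : J → R4 → ℝ} {c c' : J → ℝ} (sm : ∀ j, ContDiffAt ℝ ∞ (f j) (x j))
      (H : ∀ j, Wb M a N (f j) (x j) (c j) (c' j)) (b : ∀ j, c j ≤ 2 + R2) : Oj N x f 1 :=
    (w_oj hx h k N fun j => W_of (vf_cd h (o j)) (sm j) fun α hα => (H j α hα).1).wt
      (c := 2 + R2) (fun _ => zero_le_one) fun j => (b j).trans_eq (mul_one _).symm
  have L j := Lo_at h (o j) (o' j)
  have O i j : ContDiffAt ℝ ∞ (Om i) (x j) := (Om_cd i).contDiffAt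
  have T j : ContDiffAt ℝ ∞ (fun _ : R4 => eT) (x j) := contDiffAt_const
  have Nn j : ContDiffAt ℝ ∞ (Nf (β j)) (x j) :=
    contDiffAt_const.add (ContDiffAt.sum fun i _ => ((F j).smooth i).smul (O i j))
  have K j := sb_gin (M := M) (a := a) (o' j)
  have r2 j : 1 ≤ R2 := h1.trans ((hx j).1.trans (hx j).2)
  have u j := uw_le s0 M a (x j)
  have ke {U V : R4 → R4} (a1 : ∀ y, rp M a < rd y → ContDiffAt ℝ ∞ U y)
      (a2 : ∀ y, rp M a < rd y → ContDiffAt ℝ ∞ V y) (b1 : ∀ y, U y = U (pr0 y))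
      (b2 : ∀ y, V y = V (pr0 y)) : Oj N x (fun _ y => gin M a y (U y) (V y)) 1 :=
    oj_s hx (fun y hy => sb_ap (sb_gin (rd_out h (k.trans_le hy))) (a1 y (k.trans_le hy))
      (a2 y (k.trans_le hy))) fun y => by rw [← b1, ← b2]; rfl
  have L' y (hy : rp M a < rd y) := Lo_at h hy (rd_out h hy)
  have O' i y (_ : rp M a < rd y) : ContDiffAt ℝ ∞ (Om i) y := (Om_cd i).contDiffAt
  have T' y (_ : rp M a < rd y) : ContDiffAt ℝ ∞ (fun _ : R4 => eT) y := contDiffAt_const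
  have sO i y : Om i y = Om i (pr0 y) := rfl
  have b i := wb (fun j => (F j).smooth i) (fun j => ((F j).shift i).1) fun j => by
    nlinarith [(e j).1, (e j).2, (u j).1, (u j).2, r2 j]
  have LO i : Oj N x (fun j y => g j y (Lo M a y) (Om i y)) 1 :=
    ((wb (fun j => (sb_ap (sb j) (L j) (O i j)).sub (sb_ap (K j) (L j) (O i j)))
      (fun j => (F j).la i) fun j => by linarith [(e j).2, r2 j]).add
      (ke L' (O' i) (fun _ => rfl) (sO i))).congr' fun _ _ => (sub_add_cancel _ _).symm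
  have LL : Oj N x (fun j y => g j y (Lo M a y) (Lo M a y)) 1 :=
    (Oj.cst 0).congr fun j => (F j).gauge.mono fun _ hy => hy.1
  have LN : Oj N x (fun j y => g j y (Lo M a y) (Nf (β j) y)) 1 :=
    ((ke L' T' (fun _ => rfl) fun _ => rfl).add (Oj.sum Finset.univ LL.nn fun i _ =>
      (b i).smull (LO i))).congr fun j => ((F j).gauge.and (sb j).bl).mono fun y hy => by
        simp only [Nf, Fin.sum_univ_three, hy.2.add_right, hy.2.smul_right, hy.1.2, smul_eq_mul]
  have NN : Oj N x (fun j y => g j y (Nf (β j) y) (Nf (β j) y)) 1 :=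
    ((wb (fun j => (sb_ap (sb j) (Nn j) (Nn j)).sub (sb_ap (K j) (T j) (T j)))
      (fun j => (F j).tt) fun j => by
        nlinarith [(e j).1, (e j).2, (u j).1, (u j).2, r2 j, (hx j).2, o' j,
          mul_le_mul (hx j).2 (u j).2 (u j).1.le (zero_le_one.trans (r2 j)),
          mul_pos (o' j) (u j).1]).add
      (ke T' T' (fun _ => rfl) fun _ => rfl)).congr' fun _ _ => (sub_add_cancel _ _).symm
  have NO i : Oj N x (fun j y => g j y (Nf (β j) y) (Om i y)) 1 :=
    (((wb (fun j => ((sb_ap (sb j) (Nn j) (O i j)).sub (sb_ap (K j) (T j) (O i j))).div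
      (rd_at (o' j)) (o' j).ne') (fun j => (F j).ta i) fun j => by
        have := Real.rpow_le_one_of_one_le_of_nonpos (h1.trans (hx j).1) (neg_nonpos.2 d0)
        have := Real.rpow_pos_of_pos (o' j) (-δ)
        unfold wt
        nlinarith [(e j).1, (e j).2, (uw_le d0 M a (x j)).1, (uw_le d0 M a (x j)).2, r2 j]).smull
      (oj_rd hx h k)).add (ke T' (O' i) (fun _ => rfl) (sO i))).congr fun j =>
        (ev_rd hx h k j).mono fun y hy => by simp [hy]
  have OO i l : Oj N x (fun j y => g j y (Om i y) (Om l y)) 1 :=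
    (((wb (fun j => ((sb_ap (sb j) (O i j) (O l j)).sub (sb_ap (K j) (O i j) (O l j))).div
      ((rd_at (o' j)).pow 2) (pow_ne_zero 2 (o' j).ne')) (fun j => (F j).aa i l)
        fun j => by linarith [(e j).2, r2 j]).smull ((oj_rd hx h k).smull (oj_rd hx h k))).add
      (ke (O' i) (O' l) (sO i) (sO l))).congr fun j => (ev_rd hx h k j).mono fun y hy => by
        simp [hy, ← sq]
  have sw {U V : J → R4 → R4} (H : Oj N x (fun j y => g j y (U j y) (V j y)) 1) :
      Oj N x (fun j y => g j y (V j y) (U j y)) 1 := H.congr fun j => (sy j).mono fun _ hy => hy _ _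
  have lin {U : J → R4 → R4} (a1 : Oj N x (fun j y => g j y (U j y) (Lo M a y)) 1)
      (a2 : Oj N x (fun j y => g j y (U j y) (Nf (β j) y)) 1)
      (a3 : ∀ i, Oj N x (fun j y => g j y (U j y) (Om i y)) 1) (v : R4) :
      Oj N x (fun j y => g j y (U j y) v) 1 :=
    ((((oj_dr hx h k v).smull a1).add ((oj_mu hx h k v).smull a2)).add (Oj.sum Finset.univ LL.nn
      fun i _ => ((oj_cc hx h k v i).sub ((oj_mu hx h k v).smull (b i))).smull (a3 i))).congr
      fun j => ((ev_rd hx h k j).and (sb j).bl).mono fun y hy => by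
        conv_lhs => rw [dec1 M a hy.1 (β j) v]
        simp only [Fin.sum_univ_three, hy.2.add_right, hy.2.smul_right, smul_eq_mul]
  have fin v w := lin (U := fun _ _ => v) (sw (lin LL LN LO v)) (sw (lin (sw LN) NN NO v))
    (fun i => sw (lin (sw (LO i)) (sw (NO i)) (OO i) v)) w
  obtain ⟨C, -, hC⟩ := bd_of_oj sb (Oj.sum _ LL.nn fun u _ => Oj.sum _ LL.nn fun v _ =>
    (fin (bs u) (bs v)).smull (.cst _))
  exact ⟨C * 1, hC⟩

end Vale.Agent.P354YA
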