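import Vale.Agent.P354YA.Boot
import Vale.Agent.P354YA.Ext

/-!
Level L1: the statement MAIN (a priori estimate and output) and the reduction of EXT to INIT, CONT
and MAIN.
-/

open scoped ContDiff
open Set Filter Topology

noncomputable section

namespace Vale.Agent.P354YA

open Vale.Agent.P354n (R4)
open Vale.Agent.P354I (rm rp)
open Vale.Agent.P354XE (Tw Bd gin rd EXT)
open Vale.Agent.P354XV (Sc St Col Bnd CONT)

/-- The gauge, the scaffold, the outer radius and the shift of the time function of the region of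
the bootstrap assumption, as functions of the parameters. -/
structure Sch2 extends Sch where
  N : P → P354XV.Nat
  S : P → Sc
  Rs : P → ℝ
  ν : P → ℝ → ℝ

namespace Sch2
variable (C : Sch2)

/-- GEO: the properties of the scaffold and of the good metrics on the collar. -/
def GEO : Prop :=
  ∀ M a r1 θ θ1 R0 ρ, |a| < M → r1 ∈ Ioo (rm M a) (rp M a) → 0 < θ → θ ≤ θ1 →
    C.Ad M a r1 θ θ1 R0 ρ → (C.N ρ).Is ∧
      (∃ r0 > rm M a, ∃ T0, Tm (C.S ρ) r0 (C.Rs ρ) T0 (C.ν ρ)) ∧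
      ∀ m e gc, 0 ≤ e → C.Cg M a r1 θ θ1 ρ m e gc → Col (C.N ρ) (C.S ρ) gc ∧
        ∀ p ∈ (C.S ρ).Cl 0, -1 ≤ (C.S ρ).psi p → Bd m (gc - gin M a) p e

/-- The a priori estimate: the assumption is improved, and the bounds of CONT hold. -/
def Apri (M a : ℝ) (ρ : C.P) (kc k L : ℕ) (s0 e1 e : ℝ) (gc : Tw) : Prop :=
  ∀ V g, St2 (C.N ρ) (C.S ρ) gc V g → Boot M a (C.S ρ) (C.Rs ρ) (C.ν ρ) k L s0 e1 e V g →
    Boot M a (C.S ρ) (C.Rs ρ) (C.ν ρ) k L s0 (e1 / 2) (e / 2) V g ∧ Bnd kc (C.N ρ) (C.S ρ) V g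

/-- The output: a state for all times gives an end with the estimates. -/
def Out (M a r1 θ θ1 R s δ ε : ℝ) (N : ℕ) (ρ : C.P) (k L : ℕ) (s0 e1 e : ℝ) (gc : Tw) : Prop :=
  ∀ g, (∀ V, St2 (C.N ρ) (C.S ρ) gc V g ∧ Boot M a (C.S ρ) (C.Rs ρ) (C.ν ρ) k L s0 e1 e V g) →
    ∃ W g' Y, End0 M a r1 θ θ1 R s δ ε N gc W g' Y

/-- MAIN. -/
def MAIN : Prop :=
  ∀ (M a : ℝ) (kc : ℕ), a ≠ 0 → |a| < M → ∃ s > 1, ∃ δ > 0, ∀ r1 ∈ Ioo (rm M a) (rp M a),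
    ∀ θ > 0, ∀ θ1 ≥ θ, ∀ R0, ∃ R ≥ R0, ∀ N : ℕ, ∀ ε > 0, ∃ ρ, C.Ad M a r1 θ θ1 R0 ρ ∧
      ∃ k ≥ 2, ∃ L, ∃ s0 ≥ 0, ∃ E1 > 0, ∀ e1 ∈ Ioc 0 E1, ∃ e > 0, ∃ m0, ∃ e0 > 0, ∀ m ≥ m0,
        ∀ d ∈ Ioc 0 e0, ∀ gc, C.Cg M a r1 θ θ1 ρ m d gc →
          C.Apri M a ρ kc k L s0 e1 e gc ∧ C.Out M a r1 θ θ1 R s δ ε N ρ k L s0 e1 e gc

variable {C}

/-- **One end.** -/
theorem one_of (hC : CONT) (hV : SMV) (hD : SMD) (G : C.GEO) (H : C.MAIN) : C.toSch.ONE := by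
  obtain ⟨kc, hC⟩ := hC
  intro M a ha h
  obtain ⟨s, hs, δ, hδ, H⟩ := H M a kc ha h
  refine ⟨s, hs, δ, hδ, fun r1 hr θ hθ θ1 h1 R0 => ?_⟩
  obtain ⟨R, hR, H⟩ := H r1 hr θ hθ θ1 h1 R0
  refine ⟨R, hR, fun N ε hε => ?_⟩
  obtain ⟨ρ, ad, k, hk, L, s0, h0, E1, hE, H⟩ := H N ε hε
  obtain ⟨hN, ⟨r2, h2, T0, T⟩, G⟩ := G M a r1 θ θ1 R0 ρ h hr hθ h1 ad
  obtain ⟨c, hc, hV⟩ := hV M a r2 (C.Rs ρ) h h2
  obtain ⟨m1, B, c', hc', hD⟩ := hD M a r2 (C.Rs ρ) L h h2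
  have e1 : 0 < min E1 c := lt_min hE hc
  obtain ⟨e, he, m0, e0, he0, H⟩ := H _ ⟨e1, min_le_left _ _⟩
  have T' : Tm (C.S ρ) r2 (C.Rs ρ) |T0| (C.ν ρ) :=
    { T with col := fun p a b c d => (T.col p a b c d).trans (le_abs_self _) }
  have w : 0 < e / 2 * (1 + |T0|) ^ (-s0) / (|B| + 1) := by positivity
  refine ⟨ρ, ad, max m0 (max k m1), min (min e0 c') (min (min E1 c / 2) _),
    lt_min (lt_min he0 hc') (lt_min (half_pos e1) w), fun m hm d hd gc cg => ?_⟩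
  simp only [ge_iff_le, max_le_iff, mem_Ioc, le_min_iff] at hm hd
  obtain ⟨A, O⟩ := H m hm.1 d ⟨hd.1, hd.2.1.1⟩ gc cg
  obtain ⟨cl, ini⟩ := G m d gc hd.1.le cg
  have r0 : 0 < r2 := (P354YR.rm_nn h).trans_lt h2
  obtain ⟨g, t, b⟩ := (bt_of (C := B) T' r0 h0 e1 he (fun g x a1 a2 a3 a4 a5 => hV g x a1 a2 a3 a4
    (P354YO.bd_mono a5 hk ((half_le_self e1.le).trans (min_le_right _ _))))
    (fun g x a1 a2 a3 a4 a5 => hD g x d a1 a2 a3 a4 hd.2.1.2 (P354YO.bd_mono a5 hm.2.2 le_rfl))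
    hm.2.1 hd.2.2.1 (by
      have := (le_div_iff₀ (by positivity)).1 hd.2.2.2
      rw [abs_mul, abs_of_pos hd.1]
      nlinarith [hd.1]) (fun p a1 a2 _ => ini p a1 a2) A).all T.is cl
    fun V g => hC _ _ gc V g hN T.is cl
  exact O g fun V => ⟨t V, fun x hx _ => b x hx⟩

/-- **The reduction of EXT.** -/
theorem ext_of (hC : CONT) (hV : SMV) (hD : SMD) (mo : C.toSch.Mono) (G : C.GEO)
    (I : C.toSch.INIT) (H : C.MAIN) : EXT :=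
  P354YA.ext_of C.toSch mo I (one_of hC hV hD G H)

end Sch2

end Vale.Agent.P354YA
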