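import Vale.Agent.P354YN.Defs
import Vale.Agent.P354YT.Defs

/-!
The gauge of the scaffold: the natural acceleration, its domain and margin, and the initial
velocity. Definitions and exact statements.
-/

open scoped ContDiff
open Set Filter Topology Matrix

noncomputable section

namespace Vale.Agent.P354YA

open Vale.Agent.P354n (R4)
open Vale.Agent.P354I (rm rp)
open Vale.Agent.P354R (Pull chr)
open Vale.Agent.P354RC (bs)
open Vale.Agent.P354XE (Tw gin rd eT Lo dr)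
open Vale.Agent.P354XV (Jet jet Lv Gq Spl)
open Vale.Agent.P354YN (tr g0 ip co vc A3 A4 dn WJ iJ iS lam qJ muJ lJ nJ zJ nab AJ U3 d0 JET SMO
  FLD NATU KERR)
open Vale.Agent.P354YT (Pm al bp No qm tb)

/-- The cut offs: tp is 1 for d ≤ 3/4 and 0 for d ≥ 1; cp vanishes for d ≤ 3/4 and d ≥ 7/4, and
tp + cp = 1 for d ≤ 5/4. -/
def tp (d : ℝ) : ℝ := Real.smoothTransition (4 - 4 * d)
def cp (d : ℝ) : ℝ := (1 - tp d) * Real.smoothTransition (7 / 2 - 2 * d)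

variable (c : Pm)

/-- The distance to the tube and the coefficients of X. -/
def dd (p : R4) : ℝ := rd p - c.R1
def ca (p : R4) : ℝ := al (c.xi (rd p))
def cl (p : R4) : ℝ := bp (c.xi (rd p))
def cn (p : R4) : ℝ := bp (-c.xi (rd p))

/-- The natural field with the coefficients of X at p. -/
def Yv (p : R4) (x : A3) : R4 := ca c p • zJ x + cl c p • lJ x + cn c p • nJ x

/-- Its covariant derivative along the velocity. -/
def Fy (p : R4) (x : A4) : R4 :=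
  (ca c p • nab zJ x x.2.2 + cl c p • nab lJ x x.2.2 + cn c p • nab nJ x x.2.2) +
    (fderiv ℝ (ca c) p (c.X p) • zJ (dn x) + fderiv ℝ (cl c) p (c.X p) • lJ (dn x) +
      fderiv ℝ (cn c) p (c.X p) • nJ (dn x))

/-- The acceleration. -/
def Fa (p : R4) (x : A4) : R4 :=
  (tp (dd c p) * tp (-dd c p)) • Fy c p x + cp (dd c p) • AJ lJ nJ x x.2.2 +
    cp (-dd c p) • AJ nJ lJ x x.2.2

/-- The admissible jets with the margin κ. -/
structure Mq (κ : ℝ) (x : A3) : Prop where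
  det : (g0 x.2.1).det < 0
  iJ : κ ≤ ‖iJ (WJ (tr x.2.1))‖
  iS : ‖iS (WJ (tr x.2.1)) - 1‖ ≤ min d0 (1 / 4) / 2
  la : κ ≤ ‖-2 * (x.1 : ℂ) / lam (WJ (tr x.2.1))‖ + (-2 * (x.1 : ℂ) / lam (WJ (tr x.2.1))).re
  qJ : κ ≤ ‖qJ x‖ + (qJ x).re
  mu : κ ≤ muJ x

/-- The gauge. -/
def nat (κ : ℝ) : P354XV.Nat where
  m := 4
  U := {z | 7 / 4 < |dd c z.1| ∨ (c.M, tr z.2.1, z.2.2) ∈ U3}
  Mg := {z | 2 ≤ |dd c z.1| ∨ Mq κ (c.M, tr z.2.1, z.2.2)}
  F z := Fa c z.1 (c.M, z.2)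

/-! ### The initial velocity on the slice t = tb r -/

/-- The vector dual to a form. -/
def shp (J : Jet 3) (f : R4 → ℝ) : R4 := vc ((g0 J)⁻¹ *ᵥ fun i => f (bs i))

/-- The conormal of the slice, the future normal and the future unit normal. -/
def dS (p v : R4) : ℝ := v.1 - qm c.M c.a (rd p) * dr p v
def n0 (p : R4) (J : Jet 3) : R4 := -shp J (dS c p)
def n1 (p : R4) (J : Jet 3) : R4 := (√(-ip J (n0 c p J) (n0 c p J)))⁻¹ • n0 c p J

/-- The interpolation between l and the vector dual to the form of Lo for Kerr, its tangential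
part, and the null vector with this tangential part. -/
def u0 (p : R4) (J : Jet 3) : R4 :=
  Real.smoothTransition (7 / 2 - 2 * dd c p) • lJ (c.M, J, n0 c p J) +
    (1 - Real.smoothTransition (7 / 2 - 2 * dd c p)) • shp J (gin c.M c.a p (Lo c.M c.a p))
def u1 (p : R4) (J : Jet 3) : R4 := u0 c p J + ip J (u0 c p J) (n1 c p J) • n1 c p J
def u2 (p : R4) (J : Jet 3) : R4 := u1 c p J + √(ip J (u1 c p J) (u1 c p J)) • n1 c p J

/-- The initial velocity and its domain. -/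
def W0 (z : R4 × Jet 3) : R4 :=
  tp (dd c z.1) • Yv c z.1 (c.M, z.2, n0 c z.1 z.2) + (1 - tp (dd c z.1)) • u2 c z.1 z.2
def UW : Set (R4 × Jet 3) :=
  {z | rp c.M c.a < rd z.1 ∧ (g0 z.2).det < 0 ∧ ip z.2 (n0 c z.1 z.2) (n0 c z.1 z.2) < 0 ∧
    (7 / 4 < dd c z.1 ∨ (c.M, z.2, n0 c z.1 z.2) ∈ U3 ∧ ip z.2 (lJ (c.M, z.2, n0 c z.1 z.2) +
      nJ (c.M, z.2, n0 c z.1 z.2)) (zJ (c.M, z.2, n0 c z.1 z.2)) < 0) ∧
    (dd c z.1 < 3 / 4 ∨ 0 < ip z.2 (u1 c z.1 z.2) (u1 c z.1 z.2))}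

/-- The slice. -/
def Sl : Set R4 := {p | rp c.M c.a < rd p ∧ p.1 = tb c.M c.a (rd p)}

/-! ### The statements -/

/-- The shell around the tube is far outside of the horizon. -/
def Ok2 : Prop := c.Ok ∧ 10 * c.M + 10 ≤ c.R1

/-- All statements about the natural fields. -/
def NF : Prop := JET ∧ SMO ∧ FLD ∧ NATU ∧ KERR

/-- NIS: the gauge is smooth and natural. -/
def NIS : Prop := ∀ c : Pm, Ok2 c → ∀ κ > 0, (nat c κ).Is

/-- GEOD: the ingoing principal null field of Kerr is geodesic. -/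
def GEOD : Prop := ∀ M a p, 0 < rd p → ∀ v,
  gin M a p (fderiv ℝ No p (No p)) v + chr (gin M a) p (No p) (No p) v = 0

/-- NKG: Kerr is in the gauge. -/
def NKG : Prop := ∀ c : Pm, Ok2 c → ∀ κ p, rm c.M c.a < rd p → Gq (nat c κ) p (gin c.M c.a) c.X p

/-- The margin κ is so small that the jets of Kerr are in the interior, uniformly. -/
def Mar (κ : ℝ) : Prop := 0 < κ ∧ ∃ δ > 0, ∀ p, rm c.M c.a < rd p → ∀ z,
  dist z (p, jet 4 (gin c.M c.a) p, c.X p) ≤ δ → z ∈ (nat c κ).Mg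

/-- NKM: there is such a margin. -/
def NKM : Prop := ∀ c : Pm, Ok2 c → ∃ κ, Mar c κ

/-- The properties of the initial velocity. -/
structure Wok : Prop where
  opn : IsOpen (UW c)
  sm : ContDiffOn ℝ ∞ (W0 c) (UW c)
  kerr : ∀ p, rp c.M c.a < rd p → (p, jet 3 (gin c.M c.a) p) ∈ UW c ∧
    W0 c (p, jet 3 (gin c.M c.a) p) = c.X p
  nat : ∀ f g' D' g D, Pull f g' D' g D → Lv g D → ∀ p ∈ D', p ∈ Sl c →
    0 < LinearMap.det (fderiv ℝ f p : R4 →ₗ[ℝ] R4) → (∀ᶠ q in 𝓝 p, q ∈ Sl c → f q = q) →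
    ((p, jet 3 g' p) ∈ UW c ↔ (p, jet 3 g p) ∈ UW c) ∧ ((p, jet 3 g' p) ∈ UW c →
      fderiv ℝ f p (W0 c (p, jet 3 g' p)) = W0 c (p, jet 3 g p))
  far : ∀ g D, Lv g D → ∀ p ∈ D, 2 ≤ dd c p → Spl g (fun x => x.1 - tb c.M c.a (rd x)) p →
    (W0 c (p, jet 3 g p) = Lo c.M c.a p ↔
      ∀ v, g p (Lo c.M c.a p) v = gin c.M c.a p (Lo c.M c.a p) v)
  nul : ∀ g D p, Lv g D → p ∈ D → (p, jet 3 g p) ∈ UW c → 1 / 2 ≤ |dd c p| →
    g p (W0 c (p, jet 3 g p)) (W0 c (p, jet 3 g p)) = 0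
  near : ∀ g D p, Lv g D → p ∈ D → (p, jet 3 g p) ∈ UW c → dd c p ≤ 5 / 4 →
    (c.M, jet 3 g p, W0 c (p, jet 3 g p)) ∈ U3 ∧
    W0 c (p, jet 3 g p) = Yv c p (c.M, jet 3 g p, W0 c (p, jet 3 g p))

/-- NW: the initial velocity has these properties. -/
def NW : Prop := ∀ c : Pm, Ok2 c → Wok c

/-- FIR: the first integrals of the gauge along a line of X. -/
def FIR : Prop := ∀ c : Pm, Ok2 c → ∀ κ g D (γ : ℝ → R4) (f : ℝ → ℝ) s0 s1, s0 ≤ s1 → Lv g D →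
  ContinuousOn f (Icc s0 s1) → (∀ s ∈ Icc s0 s1, γ s ∈ D ∧ 0 < rd (γ s) ∧
    HasDerivAt γ (f s • c.X (γ s)) s ∧ Gq (nat c κ) (γ s) g c.X (γ s)) →
  ((∀ s ∈ Icc s0 s1, |dd c (γ s)| ≤ 5 / 4) →
    c.X (γ s0) = Yv c (γ s0) (c.M, jet 3 g (γ s0), c.X (γ s0)) →
    c.X (γ s1) = Yv c (γ s1) (c.M, jet 3 g (γ s1), c.X (γ s1))) ∧
  ((∀ s ∈ Icc s0 s1, 1 ≤ |dd c (γ s)|) → g (γ s1) (c.X (γ s1)) (c.X (γ s1)) =
    g (γ s0) (c.X (γ s0)) (c.X (γ s0)))

end Vale.Agent.P354YA
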