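import Vale.Agent.P354YA.BDefs
import Vale.Agent.P354TF.Main
import Vale.Agent.P354DR.Cht
import Vale.Agent.P354YK.La
import Vale.Agent.P354YK.Pi

/-!
The restriction of a far zone to a smaller set.
-/

open scoped ContDiff
open Set Filter Topology

noncomputable section

namespace Vale.Agent.P354YA

open Vale.Agent.P354XG Vale.Agent.P354XD Vale.Agent.P354XR Vale.Agent.P354XI Vale.Agent.P354Z
open Vale.Agent.P354XG.Geo (hf)
open Vale.Agent.P354YO (Fz)
open Vale.Agent.P354YK (out oth otp oet oep orh orh2 gO gBo Og laD dot_O hhom_Om fz)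
open Vale.Agent.P354DR (dat_hom)
open Vale.Agent.P354CV (cone_pos cone_hp pO_is rs_rf ho_on fv_rs)
open Vale.Agent.P354TF (R_V base_inv)

section alg
variable {A B : Type} [CommRing A] [Algebra ℂ A] [CommRing B] [Algebra ℂ B] {φ : A →ₐ[ℂ] B}
  {K : Hp A} {K' : Hp B} {p : Pm A} {p' : Pm B}

theorem PHom.eq (q : PHom p p' φ) : P354DR.pmap φ p = p' := by
  cases p'
  simp only [P354DR.pmap, q.a, q.M, q.sg, q.h1, q.j1]

theorem HHom.gens (h : HHom K K' φ) (q : PHom p p' φ) : φ (kk K p).r = (kk K' p').r ∧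
    φ (kk K p).x = (kk K' p').x ∧ φ (kk K p).s = (kk K' p').s ∧ φ (kk K p).sb = (kk K' p').sb ∧
    φ (kk K p).N = (kk K' p').N ∧ φ (kk K p).Ni = (kk K' p').Ni ∧ φ (kk K p).sg = (kk K' p').sg ∧
    φ (kk K p).a = (kk K' p').a ∧ φ (kk K p).M = (kk K' p').M :=
  ⟨h.z 1, h.xs.1, h.xs.2.1, h.xs.2.2, h.N, h.Ni, q.sg, q.a, q.M⟩

theorem HHom.out (h : HHom K K' φ) (q : PHom p p' φ) :
    GHP.Hom (out (kk K p)) (out (kk K' p')) φ := by
  constructor
  case c => exact h.c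
  case H => exact h.H
  case Hb => exact h.Bf
  all_goals
    simp only [P354YK.out, oth, otp, oet, oep, orh, orh2, P354YK.ga, P354YK.gab, h.kkV q, KC.z,
      KC.zb, KC.ee, KC.De, KC.W, KC.ta, KC.ta2, KC.P2, map_add, map_sub, map_mul, map_neg,
      map_ofNat, map_zero, map_ii, h.gens q, implies_true]

theorem HHom.R (h : HHom K K' φ) (q : PHom p p' φ) (f : A) :
    φ ((kk K p).R f) = (kk K' p').R (φ f) := by
  rw [R_V, R_V (kk K' p'), h.kkV q, map_zero, map_one]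

theorem HHom.lr (h : HHom K K' φ) (q : PHom p p' φ) (i : Fin 5) (f : A) :
    φ (![K.d 0, K.z 1 • (kk K p).R, Om K 0, Om K 1, Om K 2] i f) =
      ![K'.d 0, K'.z 1 • (kk K' p').R, Om K' 0, Om K' 1, Om K' 2] i (φ f) := by
  fin_cases i <;> simp [h.d, h.z, h.R q, hhom_Om h]

theorem HHom.ll (h : HHom K K' φ) (q : PHom p p' φ) (i : Fin 5) (f : A) :
    φ (ll K p i f) = ll K' p' i (φ f) := by
  fin_cases i <;> simp [P354Z.ll, h.d, h.z, h.R q, hhom_Om h]

theorem HHom.prj (h : HHom K K' φ) {D : Der A} {D' : Der B} (e : ∀ f, φ (D f) = D' (φ f)) :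
    vm φ (K.prj D) = K'.prj D' := funext fun a => (e _).trans (congrArg D' (h.co a))

theorem HHom.gO (h : HHom K K' φ) (q : PHom p p' φ) (a b : Fin 4) :
    φ (gO K p a b) = gO K' p' a b := by
  simp only [P354YK.gO, gBo, KC.qf, c1, c3, c4, map_add, map_sub, map_mul, map_neg, map_ofNat,
    map_ii, map_hf, h.gens q, HHom.e0, h.om, h.mu, h.mub, h.ri, h.xs, q.h1, q.j1]

theorem T_gk (h : K.Is) (q : p.Is K) (Γ : Fin 4 → Fin 4 → Fin 4 → A) (i : Fin 3) :
    K.d 0 ((K.geo (gO K p) Γ).dot (K.prj (kk K p).R) (K.prj (Om K i))) = 0 := by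
  have e : Om K i = (kk K p).V 0 0 (-(hf A * ii A * wm K i)) (hf A * ii A * wb K i)
      (-(hf A * ii A * ww K i)) (hf A * ii A * ww K i) := by
    simp only [kk_V, zero_mul, sub_zero, add_zero, Om_V h]
  obtain ⟨-, -, -, -, -, -, t1, -, -, -, -, -, t2, -⟩ := tw h i
  rw [R_V, e, dot_O h]
  simp [gBo, KC.qf, kk, Hp.kc, Hp.D_hf, D_ii, D_num, t1, t2, q.da, h.dz, h.tab.1]

variable {S : Geo A} {F : Fr A} (o : Og K p S F)
include o

theorem og_l : F.l = K.N • K.prj (kk K p).R := by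
  rw [← o.prj4.1, o.th]; exact funext fun a => P354YK.oth_ap _ _

theorem og_RR : 2 * S.dot (K.prj (kk K p).R) (K.prj (kk K p).R) = 0 := by
  have := o.l_R
  rw [og_l o, Geo.dot_smul_left] at this
  linear_combination 2 * K.Ni * this - 2 * S.dot (K.prj (kk K p).R) (K.prj (kk K p).R) * o.is.hN

theorem og_RT : 2 * S.dot (K.prj (kk K p).R) (K.prj (K.d 0)) = -1 := by
  have := o.lT
  rw [og_l o, Geo.dot_smul_left] at this
  linear_combination K.Ni * this - (2 * S.dot (K.prj (kk K p).R) (K.prj (K.d 0)) + 1) * o.is.hN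

theorem og_nT : K.c (K.N * cm K p (F.ghp S).tp 0) = K.N * cm K p (F.ghp S).tp 0 ∧
    K.H (K.N * cm K p (F.ghp S).tp 0) = 0 := by
  have c := o.ghp_is.c_tp
  have H := o.ghp_is.H_tp
  rw [o.cHB.1] at c
  rw [o.cHB.2.1] at H
  have h1 : K.H p.h1 = 0 := by simp [Hp.H_ap, o.pis.dh]
  have z := o.is.tab.2.2.2.2.2.2.2.2.2.2.2.2.2.2.1
  constructor
  · simp only [cm, Matrix.cons_val, map_mul, map_add, c, o.is.c_N, o.is.z0, o.is.z1, o.pis.ch]
  · simp only [cm, Matrix.cons_val, D_mul, D_add, H, h1, z, Hp.N, D_zero]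
    ring

end alg

section res
variable {z : Fz} {O : Set E6} (s : O ⊆ z.O) {x : E6} {M0 : ℝ}

theorem rxs (s : O ⊆ z.O) : Rx (on O) (on z.O) id := rx_nb (Eventually.of_forall fun _ => s)

/-- The restriction. -/
abbrev rz : Fz := ⟨O, z.g, fm (rxs s).rix z.F, z.M, z.a⟩

theorem fv_rxs (u : z.A) (hx : x ∈ O) : fv ((rxs s).rix u) x = fv u x := by
  rw [fv_in _ hx, fv_in _ (s hx)]; exact ev_on ((rxs s).rep u) hx

variable (c : Cone z.O)
include c

theorem r_hp : HHom (hp (on z.O)) (hp (on O)) (rxs s).rix := (rxs s).hp (cone_pos c).off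

theorem r_pO (M0 M a : ℝ) : PHom (pO z.O M0 M a) (pO O M0 M a) (rxs s).rix :=
  ⟨(rxs s).rix_cst _, (rxs s).rix_cst _, ((rxs s).rs (rs_sg (cone_pos c) (fun _ => M) _)).ext
    (rs_sg ((rxs s).ev (cone_pos c)) (fun _ => M) _) EventuallyEq.rfl,
    (rxs s).rix_gm (rs_rf c (ho_on M0)).sm, map_zero _⟩

theorem r_lr (i : Fin 5) (f : z.A) : (rxs s).rix (z.lr M0 i f) = (rz s).lr M0 i ((rxs s).rix f) :=
  (r_hp s c).lr (r_pO s c M0 z.M z.a) i f

theorem r_q (hx : x ∈ O) (n : ℕ) (f : z.A) :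
    q2 ((rz s).lr M0) x n ((rxs s).rix f) = q2 (z.lr M0) x n f :=
  P354BO.q2_map _ _ (r_lr s c) (fun f => fv_rxs s f hx) n f

theorem r_q' (hx : x ∈ O) (n : ℕ) (f : z.A) : q2 (ll (hp _) (pO O M0 z.M z.a)) x n
    ((rxs s).rix f) = q2 (ll (hp _) (pO z.O M0 z.M z.a)) x n f :=
  P354BO.q2_map _ _ ((r_hp s c).ll (r_pO s c M0 z.M z.a)) (fun f => fv_rxs s f hx) n f

include s in
theorem q2_loc (o : IsOpen O) (hx : x ∈ O) (n : ℕ) {f : z.A} (h : ∀ y ∈ O, fv f y = 0) :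
    q2 (z.lr M0) x n (z.T f) = 0 := by
  have e : (rxs s).rix f = 0 := ext_fv o fun y hy => by rw [fv_rxs s f hy, h y hy, fv_zero]
  rw [← r_q s c hx, show (rxs s).rix (z.T f) = _ from (r_hp s c).d 0 f, e, map_zero,
    P354BO.q2_zero]

variable (v : ∀ x ∈ z.O, VacAt z.g (pj x))
include v

theorem r_ge : GHom (ge z.O z.g) (ge O z.g) (rxs s).rix :=
  (rxs s).geo (cone_pos c).off (1 / 2) (g := fun _ => z.g) (on_of c.op v)

theorem r_dat (i : (Fin 4 × Fin 6) ⊕ Fin 13) :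
    (rxs s).rix (dat (hp _) (pO z.O M0 z.M z.a) z.G i) =
      dat (hp _) (pO O M0 z.M z.a) (rz s).G i := by
  have := dat_hom (r_hp s c) (pO z.O M0 z.M z.a) ((r_ge s c v).ghp z.F) i
  rwa [(r_pO s c _ _ _).eq] at this

theorem r_d (i : (Fin 4 × Fin 6) ⊕ Fin 13) : (rxs s).rix (z.d M0 i) = (rz s).d M0 i := by
  have := dat_hom (r_hp s c) (pO z.O M0 z.M z.a) ((r_hp s c).out (r_pO s c M0 z.M z.a)) i
  rw [(r_pO s c _ _ _).eq] at this
  exact (map_sub _ _ _).trans (congrArg₂ _ (r_dat s c v i) this)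

theorem r_la (i : Fin 3) : (rxs s).rix (laD z M0 i) = laD (rz s) M0 i := by
  have a := (r_hp s c).prj ((r_hp s c).R (r_pO s c M0 z.M z.a))
  have b := (r_hp s c).prj (hhom_Om (r_hp s c) i)
  have g := (r_hp s c).geo (Γ := fun _ _ _ => 0) (Γ' := fun _ _ _ => 0)
    ((r_hp s c).gO (r_pO s c M0 z.M z.a)) fun _ _ _ => map_zero _
  simp only [laD, Fz.gg, Fz.gk, map_sub, map_mul, map_ofNat, (r_ge s c v).dot, g.dot]
  exact congrArg₂ _ (congrArg _ (congrArg₂ _ a b)) (congrArg _ (congrArg₂ _ a b))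

theorem r_tab (hx : x ∈ O) {n : ℕ} {e α γ : ℝ} (h : z.Tab M0 n x e α γ) :
    (rz s).Tab M0 n x e α γ := by
  have q := r_q s c (M0 := M0) hx n
  have d := r_d s c v (M0 := M0)
  have ri : ∀ f, (rz s).ri * (rxs s).rix f = (rxs s).rix (z.ri * f) := fun f => by
    rw [map_mul]; exact congrArg (· * _) (r_hp s c).ri.symm
  have r : ∀ f, (rz s).r * (rxs s).rix f = (rxs s).rix (z.r * f) := fun f => by
    rw [map_mul]; exact congrArg (· * _) ((r_hp s c).z 1).symm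
  have T : ∀ f, (rz s).T ((rxs s).rix f) = (rxs s).rix (z.T f) := fun f => ((r_hp s c).d 0 f).symm
  refine ⟨?_, ?_, ?_, ?_, ?_, ?_, fun i => ?_⟩
  · simpa only [← d, q] using h.b
  · simpa only [← d, ri, q] using h.b1
  · simpa only [← d, q] using h.kb
  · simpa only [Fz.Gq, ← d, r, q] using h.g
  · simpa only [Fz.Gq, ← d, ri, r, q] using h.g1
  · simpa only [Fz.Gq, ← d, r, q] using h.gs
  · show (rz s).Wq M0 n x (laD (rz s) M0 i) _ _
    simpa only [Fz.Wq, ← r_la s c v, T, q] using show z.Wq M0 n x (laD z M0 i) _ _ from h.la i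

end res

section unit
variable {c : Cs} {E : Est} (h : E.Is c)
include h

theorem og_of : Og (hp _) (E.p2 c) (ge _ E.g) E.F2 where
  is := cone_hp h.shape.co2
  pis := pO_is h.shape.co2 _ _ _
  geo := ⟨_, _, rfl⟩
  hS := geo_is (cone_pos h.shape.co2).off _ (on_of h.shape.co2.op h.eqs.v2)
  wn := h.eqs.w2
  th := h.eqs.th
  ka := h.eqs.ka
  lT := h.eqs.lT

theorem is0_of (o : c.Ok) : (fz E).Is0 c.M where
  co := h.shape.co2
  rad x hx := by linarith [h.shape.rad2 x hx, o.R1, (abs_nonneg _).trans_lt o.aM]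
  vac := h.eqs.v2
  RR := og_RR (og_of h)
  RT := og_RT (og_of h)

end unit

/-- The time component of n, and the cone on which it does not vanish. -/
def nT (z : Fz) (M0 : ℝ) : z.A := dat (hp _) (pO z.O M0 z.M z.a) z.G (.inl (1, 0))
def Ou (z : Fz) (M0 : ℝ) : Set E6 := z.O ∩ {x | fv ((hp _).N * nT z M0) x ≠ 0}

section unit
variable {z : Fz} {M0 : ℝ} {x : E6}

theorem ou_cone (c : Cone z.O) (b : Base ((hp _).N * nT z M0)) : Cone (Ou z M0) where
  op := ContinuousOn.isOpen_inter_preimage (t := {0}ᶜ)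
    (fun _ hx => (fv_sm c.op _ hx).continuousAt.continuousWithinAt) c.op isOpen_compl_singleton
  pos x hx := c.pos x hx.1
  hom x hx k hk := ⟨c.hom x hx.1 k hk, by
    have := hx.2
    rwa [mem_ofPred, ← base_inv c b hx.1 hk] at this⟩

theorem oc_le (h : 0 < x.2.1 ∧ x.2.2 ≠ 0) : oc x 3 * oc x 3 ≤ 1 := by
  have n := nq_pos h.2
  have e : oc x 3 = (Complex.normSq x.2.2.1 - Complex.normSq x.2.2.2) / nq x := by
    simp only [oc, pj, Matrix.cons_val]
    field_simp [h.1.ne']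
  rw [e, div_mul_div_comm, div_le_one (mul_pos n n), nq]
  nlinarith [mul_nonneg (Complex.normSq_nonneg x.2.2.1) (Complex.normSq_nonneg x.2.2.2)]

theorem ou_mem (c : Cone z.O) (hx : x ∈ z.O) (n : nq x = 1)
    (h : ‖fv (z.d M0 (.inl (1, 0))) x‖ ≤ 1) : x ∈ Ou z M0 := by
  refine ⟨hx, fun e => ?_⟩
  have p := cone_pos c
  rw [fv_mul, fv_rs rs_N hx, n, Complex.ofReal_one, one_mul] at e
  have k : dat (hp _) (pO z.O M0 z.M z.a) (out (kO z.O M0 z.M z.a)) (.inl (1, 0)) =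
      2 * (hp _).Ni * (pm (on z.O) (fun _ => z.M) fun _ => z.a).sg *
        ((hp _).z 1 * (hp _).z 1 + cst (fun _ => (z.a : ℂ)) * cst fun _ => (z.a : ℂ)) :=
    congrFun (P354YK.cm_V (cone_hp c) _ _ _ _ _ _) 0
  have q := sg_pos (c.pos x hx).1 z.a
  have w : fv (dat (hp _) (pO z.O M0 z.M z.a) (out (kO z.O M0 z.M z.a)) (.inl (1, 0))) x =
      ((2 * (x.2.1 * x.2.1 + z.a * z.a) / (x.2.1 * x.2.1 + z.a * z.a * oc x 3 * oc x 3) : ℝ) : ℂ) := by
    rw [k]
    refine (fv_rs ((((rs_num 2).mul (rs_Ni p.off)).mul (rs_sg p (fun _ => z.M) fun _ => z.a)).mul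
      (((rs_z 1).mul (rs_z 1)).add ((rs_cst fun _ => (z.a : ℂ)).mul (rs_cst _)))) hx).trans ?_
    show (2 : ℂ) * (nq x : ℂ)⁻¹ * _ * ((x.2.1 : ℂ) * (x.2.1 : ℂ) + _) = _
    rw [n]
    push_cast
    ring
  rw [Fz.d, show fv (_ - _) x = fv _ x - fv _ x from (evO ⟨x, hx⟩).map_sub _ _, w,
    show fv (dat _ _ _ _) x = 0 from e, zero_sub, norm_neg, Complex.norm_real, Real.norm_eq_abs,
    abs_le, div_le_one q] at h
  nlinarith [oc_le (c.pos x hx), mul_self_nonneg z.a, mul_pos (c.pos x hx).1 (c.pos x hx).1, h.2]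

theorem ou_is (h : z.Is0 M0) (o : Og (hp _) (pO z.O M0 z.M z.a) (ge _ z.g) z.F)
    (t : z.G.ta' = (kO z.O M0 z.M z.a).ta2) :
    (rz (z := z) (O := Ou z M0) inter_subset_left).Is M0 := by
  have s : Ou z M0 ⊆ z.O := inter_subset_left
  have c := ou_cone h.co ⟨(og_nT o).1, (og_nT o).2⟩
  have H := r_hp s h.co
  have q := r_pO s h.co M0 z.M z.a
  have g := r_ge s h.co h.vac
  have m := g.ghp z.F
  have R := H.prj (H.R q)
  have th : (rz s).G.th = oth (kO _ M0 z.M z.a) := by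
    have e : ∀ i, cm (hp _) (pO _ M0 z.M z.a) (rz s).G.th i =
        (rxs s).rix (![0, (hp _).N, 0, 0, 0, 0] i) := fun i => by
      refine (r_dat s h.co h.vac (.inl (0, i))).symm.trans (congrArg _ ?_)
      show cm _ _ (z.F.ghp _).th i = _
      rw [o.th]
      exact congrFun (P354YK.cm_V o.is _ _ _ _ _ _) i
    rw [P354YK.act_cm (p := pO _ M0 z.M z.a) (cone_hp c) _ (D := (rz s).G.th) rfl]
    simp only [e, Matrix.cons_val, map_zero, H.N]
    rfl
  refine ⟨⟨c, fun x hx => h.rad x hx.1, fun x hx => h.vac x hx.1, ?_, ?_⟩, g.wn o.wn, th,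
    m.ka.symm.trans (by rw [o.ka, map_zero]), m.ta'.symm.trans ((congrArg _ t).trans
      (H.out q).ta'), isUnit_of_ne (on_of c.op fun x hx => ?_)⟩
  · have := congrArg (rxs s).rix h.RR
    rw [Fz.gg, map_mul, map_ofNat, g.dot, map_zero] at this
    exact (congrArg _ (congrArg₂ _ R R)).symm.trans this
  · have := congrArg (rxs s).rix h.RT
    rw [Fz.gg, map_mul, map_ofNat, g.dot, map_neg, map_one] at this
    exact (congrArg _ (congrArg₂ _ R (H.prj (H.d 0)))).symm.trans this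
  · rw [← fv_in _ hx]
    refine (congrArg (fv · x) (r_dat s h.co h.vac _)).symm.trans_ne ?_
    have := hx.2
    rw [mem_ofPred, fv_mul] at this
    exact (fv_rxs s _ hx).trans_ne (right_ne_zero_of_mul this)

end unit

end Vale.Agent.P354YA
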