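import Vale.Agent.P354LC.Lkf
import Vale.Agent.P354NU.Dec

/-!
The row TRI: the transfer of the decay between the scaffold and the state of the estimates.
-/

open scoped ContDiff
open Set Filter Topology

noncomputable section

namespace Vale.Agent.P354YA

open Vale.Agent.P354XG (E6)
open Vale.Agent.P354XD (pj nq nq_pos cd_pj)
open Vale.Agent.P354XE (rd)
open Vale.Agent.P354XR (rd_pj)
open Vale.Agent.P354XO (Om sc sc_ap nq_sc pj_sc)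
open Vale.Agent.P354CQ (Su glu hp' anc w0 of1 bb Ra)
open Vale.Agent.P354NU (w0_pos w0_le_mul)
open Vale.Agent.P354LC (Kk gi_of r_ge hp_1 ph_hp)
open Vale.Agent.P354MG (Fx Va Qn Ge Et TRI)
open Vale.Agent.P354Z

namespace Ti

theorem sq_tr {X Y l b c : ℝ} (h : X ≤ l ^ 2 * Y) (k : Y ≤ b ^ 2) (b0 : 0 ≤ b) (j : |l| * b ≤ c) :
    X ≤ c ^ 2 :=
  h.trans ((mul_le_mul_of_nonneg_left k (sq_nonneg l)).trans (by
    rw [← sq_abs l, ← mul_pow]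
    exact pow_le_pow_left₀ (mul_nonneg (abs_nonneg l) b0) j 2))

theorem ex_un {x : E6} (h : x.2.2 ≠ 0) : ∃ w : ℂ, w ≠ 0 ∧ nq (sc w x) = 1 := by
  have p := nq_pos h
  have s := Real.sqrt_pos.2 p
  refine ⟨((√(nq x))⁻¹ : ℝ), Complex.ofReal_ne_zero.2 (inv_pos.2 s).ne', ?_⟩
  rw [nq_sc, Complex.normSq_ofReal, ← mul_inv, Real.mul_self_sqrt p.le, inv_mul_cancel₀ p.ne']

theorem sc_one (x : E6) : sc 1 x = x := by simp [sc_ap]

theorem tm_r {p y u D : ℝ} (d : 1 ≤ D) (h1 : |p - u| ≤ D) (h2 : |y - u| ≤ |u| / 1000 + D) :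
    1 + |y| ≤ 4 * D * (1 + |p|) ∧ 1 + |p| ≤ 4 * D * (1 + |y|) ∧
      ∀ t, y ≤ t → p ≤ 2 * |t| + 3 * D := by
  have a1 := abs_sub_abs_le_abs_sub p u
  have a2 := abs_sub_abs_le_abs_sub u p
  have a3 := abs_sub_abs_le_abs_sub y u
  have a4 := abs_sub_abs_le_abs_sub u y
  rw [abs_sub_comm] at a2 a4
  have b1 := mul_le_mul_of_nonneg_right d (abs_nonneg p)
  have b2 := mul_le_mul_of_nonneg_right d (abs_nonneg y)
  refine ⟨by nlinarith [abs_nonneg p], by nlinarith [abs_nonneg y], fun t ht => ?_⟩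
  rw [abs_le] at h1 h2
  rcases le_total u 0 with k | k
  · linarith [abs_nonneg t, h1.2]
  · rw [abs_of_nonneg k] at h2
    linarith [le_abs_self t, abs_nonneg t, h1.2, h2.1]

theorem kk_ex (M Rs k : ℝ) {r1 : ℝ} {A : ℝ → ℝ} (h0 : 0 < r1) (hA : Continuous A) :
    ∃ κ, Kk M r1 Rs κ k A := by
  have cb : ContinuousOn (P354TS.ta M A) (Icc r1 (Rs + 1)) :=
    hA.continuousOn.sub (continuousOn_const.div continuousOn_id fun r m => (h0.trans_le m.1).ne')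
  obtain ⟨C, hC⟩ := isCompact_Icc.exists_bound_of_continuousOn cb
  refine ⟨5 * |k| + 2 * |C| + 1, by linarith [le_abs_self k, abs_nonneg C], fun r m s m' _ => ?_⟩
  have a := abs_le.1 ((hC r m).trans (le_abs_self C))
  have b := abs_le.1 ((hC s m').trans (le_abs_self C))
  exact abs_le.2 ⟨by linarith [abs_nonneg k, a.1, b.2], by linarith [abs_nonneg k, a.2, b.1]⟩

variable {f : Fx} {v : Va} {q : Qn} {Rb D Λ : ℝ} {x : E6} {E : Est}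

/-- The three times of a point of the straight cone. -/
theorem tms (s : Su (f.c q) (f.n q) v.Lv (f.na v) (f.al v))
    (hD : ∀ r ∈ Icc f.a.r1 q.c.Rs, |f.A r| + 4 * f.z.M ^ 2 / f.a.r1 + 1 ≤ D) (hx : x ∈ f.X1 v q) :
    |(f.P x).1 - x.1| ≤ D ∧ |(f.ac v q x).1 - x.1| ≤ |x.1| / 1000 + D := by
  have r0 : 0 < f.a.r1 := s.num.1
  have r : f.a.r1 ≤ x.2.1 := s.num.2.1.trans (le_of_lt hx.1.1.1.1)
  have d := hD _ ⟨r, le_of_lt hx.1.2⟩
  have m : ∀ t, f.a.r1 ≤ t → 0 ≤ 4 * f.z.M ^ 2 / t ∧ 4 * f.z.M ^ 2 / t ≤ 4 * f.z.M ^ 2 / f.a.r1 :=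
    fun t ht => ⟨div_nonneg (by positivity) (r0.le.trans ht),
      div_le_div_of_nonneg_left (by positivity) r0 ht⟩
  have e1 : (f.P x).1 = x.1 - 4 * f.z.M ^ 2 / x.2.1 + f.A x.2.1 := rfl
  have e2 : (f.ac v q x).1 = (glu (Ra (f.c q)) (f.na v) (f.al v) x).1 -
      4 * f.z.M ^ 2 / (glu (Ra (f.c q)) (f.na v) (f.al v) x).2.1 := rfl
  have k := s.lb.glu_abs s.dk s.id (of1 hx)
  have k1 := mul_le_mul_of_nonneg_right s.nm.e1 (abs_nonneg x.1)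
  have k2 := s.nm.et
  rw [abs_of_nonneg s.nm.t0, mul_add, abs_le] at k
  obtain ⟨m1, m2⟩ := m _ r
  obtain ⟨m3, m4⟩ := m _ (r_ge s (of1 hx)).1
  rw [e1, e2]
  exact ⟨abs_le.2 ⟨by linarith [neg_abs_le (f.A x.2.1)], by linarith [le_abs_self (f.A x.2.1)]⟩,
    abs_le.2 ⟨by linarith [abs_nonneg (f.A x.2.1), k.1], by linarith [abs_nonneg (f.A x.2.1), k.2]⟩⟩

variable (o : f.Ok) (G : Ge f v q Rb)
include o G

/-- From the scaffold to the state. -/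
theorem up (h : Et f v q E Λ) (hx : x ∈ f.X1 v q) (a : An (f.ac v q x)) : ∃ y : E6, nq y = 1 ∧
    0 < y.2.1 ∧ y.2.1 ≤ q.c.Rs ∧ f.z.Pt q.c.Rs Rb v.Lv (pj y) ∧ y.1 = (f.P x).1 ∧
      ∀ n, E.eta n (f.ac v q x) ≤ (Λ ^ (n + 4)) ^ 2 * eta f.z.M f.z.a n v.g y := by
  obtain ⟨κ, kk⟩ := kk_ex f.z.M q.c.Rs q.k G.su.num.1 o.nu.sA.continuous
  have g := gi_of o G.su kk
  have u : f.P x ∈ f.U v q := ⟨x, ⟨hx.1.1, hx.2⟩, rfl⟩
  obtain ⟨-, -, r0, ξ, -⟩ := g.mem rfl u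
  obtain ⟨w, w0, w1⟩ := ex_un ξ
  refine ⟨sc w (f.P x), w1, r0, le_of_lt hx.1.2, ?_, rfl, fun n => ?_⟩
  · rw [pj_sc w0]
    exact g.dom rfl u
  · have := (h n x hx w w0 1 one_ne_zero w1 (by rwa [sc_one])).1
    rwa [sc_one] at this

/-- From the state to the scaffold. -/
theorem dn (h : Et f v q E Λ) (n1 : nq x = 1) (r : f.z.r1 < x.2.1) (r' : x.2.1 < q.c.Rs)
    (l : (f.z.pm q.c.Rs Rb).tau (pj x) ∈ v.Lv) (t : f.ti ≤ x.1 - f.A x.2.1) :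
    ∃ y ∈ f.X1 v q, f.P y = x ∧ ∃ y' ∈ f.O1 v q, nq y' = 1 ∧ y'.1 = (f.ac v q y).1 ∧
      ∀ n, eta f.z.M f.z.a n v.g x ≤ (Λ ^ (n + 4)) ^ 2 * E.eta n y' := by
  obtain ⟨κ, kk⟩ := kk_ex f.z.M q.c.Rs q.k G.su.num.1 o.nu.sA.continuous
  have g := gi_of o G.su kk
  have m := g.dv r (ne_of_nq n1) l
  have r1 : f.a.r1 < x.2.1 := g.r0.2.trans r
  have b : bb (f.c q) x.2.1 ≤ f.ti := G.su.nm.ti _ r1.le
  have p : 0 ≤ 4 * f.z.M ^ 2 / x.2.1 := div_nonneg (by positivity) (g.r0.1.trans r1).le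
  have hy : hp' f.z.M f.A f.B x ∈ f.X1 v q := ⟨⟨⟨m.1, show bb (f.c q) x.2.1 - 1 <
    (hp' f.z.M f.A f.B x).1 by rw [hp_1]; linarith⟩, r'⟩, m.2⟩
  have e : f.P (hp' f.z.M f.A f.B x) = x := ph_hp x
  have c : Cone (f.O1 v q) := G.su.cone G.su.op1 fun _ k => k.1.1
  have k : f.ac v q (hp' f.z.M f.A f.B x) ∈ f.O1 v q := ⟨_, hy, rfl⟩
  obtain ⟨w, w0, w1⟩ := ex_un (c.pos _ k).2
  refine ⟨_, hy, e, sc w _, c.hom _ k w w0, w1, rfl, fun n => ?_⟩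
  have := (h n _ hy 1 one_ne_zero w w0 (by rw [sc_one, e, n1])
    ⟨by rw [w1]; norm_num, by rw [w1]; norm_num⟩).2
  rwa [sc_one, e] at this

end Ti

open Ti

/-- **TRI.** -/
theorem tri : TRI := fun f o Λ L q => by
  obtain ⟨S, hS⟩ := (isCompact_Icc (a := f.a.r1) (b := q.c.Rs)).exists_bound_of_continuousOn
    o.nu.sA.continuous.continuousOn
  obtain ⟨D, hD⟩ : ∃ D, D = |S| + |4 * f.z.M ^ 2 / f.a.r1| + 1 := ⟨_, rfl⟩
  have D1 : 1 ≤ D := by rw [hD]; linarith [abs_nonneg S, abs_nonneg (4 * f.z.M ^ 2 / f.a.r1)]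
  have d : ∀ r ∈ Icc f.a.r1 q.c.Rs, |f.A r| + 4 * f.z.M ^ 2 / f.a.r1 + 1 ≤ D := fun r m => by
    have : |f.A r| ≤ S := hS r m
    linarith [le_abs_self S, le_abs_self (4 * f.z.M ^ 2 / f.a.r1)]
  obtain ⟨t, ht⟩ : ∃ t, t = (f.c q).t1 + (f.c q).B + 10 := ⟨_, rfl⟩
  obtain ⟨l, l1, l2⟩ : ∃ l, |Λ ^ (L + 4)| ≤ l ∧ |Λ ^ (q.c.K + 2 + 4)| ≤ l :=
    ⟨max _ _, le_max_left _ _, le_max_right _ _⟩
  have l0 : 0 ≤ l := (abs_nonneg _).trans l1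
  have K1 : 1 ≤ 4 * D := by linarith
  have K2 : 1 ≤ (4 * D) ^ 2 := one_le_pow₀ K1
  refine ⟨2 * |t| + 3 * D + |f.ti|, fun C C1 => ⟨l * (C * (4 * D) ^ 2),
    fun Cl hl v Rb F e dd E hE G h d0 de col sc => ?_⟩⟩
  have e0 := d0.trans de
  have C0 : 0 ≤ C := zero_le_one.trans C1
  have c1 : l * C ≤ Cl := le_trans (mul_le_mul_of_nonneg_left (le_mul_of_one_le_right C0 K2) l0) hl
  have c2 : l * (4 * D) ^ 2 ≤ Cl := le_trans (mul_le_mul_of_nonneg_left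
    (le_mul_of_one_le_left (zero_le_one.trans K2) C1) l0) hl
  have c0 : 0 ≤ Cl := (mul_nonneg l0 C0).trans c1
  have o1 : E.O1 = f.O1 v q := hE ▸ rfl
  have lv : E.Lv = v.Lv := hE ▸ rfl
  have ee : E.e0 = Cl * dd := hE ▸ rfl
  obtain ⟨a1, a2, a3, -⟩ := G.su.nm.rad
  obtain ⟨⟨pm, -⟩, -, θ⟩ := o.ok.ok q.c.Rs (show (f.c q).R1 + 1 ≤ (f.c q).Rs by linarith) Rb G.rb
  refine ⟨⟨ee.le, fun y hy n1 => ?_, fun η η0 H x hx => ?_⟩, fun y hy a ty => ?_⟩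
  · obtain ⟨x, hx, rfl⟩ := o1 ▸ hy
    obtain ⟨y, y1, y2, y3, y4, y5, k⟩ := up o G h hx ⟨by rw [n1]; norm_num, by rw [n1]; norm_num⟩
    obtain ⟨t1, t2⟩ := tms G.su d hx
    have w := w0_le_mul K1 (tm_r D1 t1 t2).1
    have w' := (w0_pos (f.ac v q x).1).le
    refine sq_tr (k L) (sc y y1 y2 y3 y4).2.1 (mul_nonneg (mul_nonneg C0 e0) (w0_pos _).le) ?_
    rw [y5]
    calc _ ≤ l * (C * e * ((4 * D) ^ 2 * w0 (f.ac v q x).1)) := mul_le_mul l1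
          (mul_le_mul_of_nonneg_left w (mul_nonneg C0 e0))
          (mul_nonneg (mul_nonneg C0 e0) (w0_pos _).le) l0
      _ = l * (C * (4 * D) ^ 2) * e * w0 (f.ac v q x).1 := by ring
      _ ≤ Cl * e * w0 (f.ac v q x).1 := by gcongr
  · obtain ⟨⟨n1, r0, r1, pO, ps⟩, tl⟩ := hx
    have ξ := ne_of_nq n1
    have er := rd_pj r0 ξ
    have r2 : f.z.r1 < rd (pj x) := pO.1
    have en := pm.mem_En r2 (le_of_lt pO.2)
    have ku := (sc x n1 r0 r1 ⟨⟨en.1, le_trans (by linarith [o.ok.θ.1, o.ok.θ.2])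
      (θ.trans en.2.1), en.2.2⟩, lv ▸ tl⟩).1
    have tt : f.ti < x.1 - f.A x.2.1 := by
      have := lt_of_not_ge fun j => (col (pj x) r2
        (er.trans_le (r1.trans (le_add_of_nonneg_right zero_le_one))) j).not_ge ps
      rw [er] at this
      have e : (pj x).1 = x.1 := rfl
      linarith [le_abs_self f.ti, abs_nonneg t]
    have ca : Tendsto (fun s => anc s x) (𝓝[<] x.2.1) (𝓝 x) :=
      (show ContinuousAt (fun s : ℝ => ((x.1, s, x.2.2) : E6)) x.2.1 by fun_prop).tendsto.mono_left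
        nhdsWithin_le_nhds
    refine le_of_tendsto ((eta_cont L ku).tendsto.comp ca) ?_
    filter_upwards [self_mem_nhdsWithin, nhdsWithin_le_nhds (lt_mem_nhds (er ▸ r2)),
      ca.eventually (((pm.tau_cd r2).continuousAt.comp (cd_pj ξ).continuousAt).eventually_mem
        (G.op.mem_nhds (lv ▸ tl))),
      nhdsWithin_le_nhds (continuousAt_const.eventually_lt (continuousAt_const.sub
        o.nu.sA.continuous.continuousAt) tt)] with s s1 s2 s3 s4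
    obtain ⟨y, hy, e, y', y1, y2, y3, k⟩ := dn (x := anc s x) o G h n1 s2 (lt_of_lt_of_le s1 r1) s3
      (le_of_lt s4)
    obtain ⟨t1, t2⟩ := tms G.su d hy
    have w := w0_le_mul K1 (tm_r D1 t1 t2).2.1
    rw [e] at w
    have w' := (w0_pos x.1).le
    refine sq_tr (k L) (H y' (o1 ▸ y1) y2) (mul_nonneg η0 (w0_pos _).le) ?_
    rw [y3]
    calc _ ≤ l * (η * ((4 * D) ^ 2 * w0 x.1)) := mul_le_mul l1 (mul_le_mul_of_nonneg_left w η0)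
          (mul_nonneg η0 (w0_pos _).le) l0
      _ = l * (4 * D) ^ 2 * η * w0 x.1 := by ring
      _ ≤ Cl * (η + dd) * w0 x.1 := by gcongr; linarith
  · obtain ⟨x, hx, rfl⟩ := o1 ▸ hy
    obtain ⟨y, y1, y2, y3, y4, y5, k⟩ := up o G h hx a
    obtain ⟨t1, t2⟩ := tms G.su d hx
    have w := (tm_r D1 t1 t2).2.2 t (ht ▸ ty)
    refine sq_tr (k _) ((sc y y1 y2 y3 y4).2.2 (by rw [y5]; linarith [abs_nonneg f.ti]))
      (mul_nonneg C0 d0) ?_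
    rw [ee]
    calc _ ≤ l * (C * dd) := mul_le_mul_of_nonneg_right l2 (mul_nonneg C0 d0)
      _ = l * C * dd := by ring
      _ ≤ Cl * dd := mul_le_mul_of_nonneg_right c1 d0

end Vale.Agent.P354YA
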